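import Vale.Agent.P011.E6W.H619.Trp

/-!
Block E6W (helper619): the conjugating element and its hermitian square.
-/

set_option linter.unusedSectionVars false

namespace Vale.Agent.P011.E6W.H619

open Vale.Agent.P011.MPQ hiding mat
open Vale.Agent.P011.D4 Vale.Agent.P011.D4.Oct Vale.Agent.P011.E6 Alb
open Vale.Agent.P011.E6O
open Vale.Agent.P011.E6I (MQ toMQ toMQ_apply toMQ_mul toMQ_one InVs cub_of_inV)
open Vale.Agent.P011.E6I.Gn (Tm Tm_apply Tm_mul Tm_self Tm_inj Tm_cancel Tm_sq Tm_cube inV_ext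
  inV_add inV_smul inV_adj inV_cross mat_mul_adj mat_adj_mul)
open Vale.Agent.P011.E6W.H183
open Matrix

section dd

variable {F R : Type} [Field F] [Ring R] [Algebra F R]

/-- The divided difference of the cubic polynomial. -/
def dd (P2 P1 : F) (z' z : R) : R := z' ^ 2 + z' * z + z ^ 2 - P2 • (z' + z) - P1 • (1 : R)

theorem dd_comm {P2 P1 P0 : F} {z' z : R} (hz' : z' ^ 3 = P2 • z' ^ 2 + P1 • z' + P0 • (1 : R))
    (hz : z ^ 3 = P2 • z ^ 2 + P1 • z + P0 • (1 : R)) :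
    z' * dd P2 P1 z' z = dd P2 P1 z' z * z := by
  have e1 : z' * dd P2 P1 z' z = z' ^ 3 + z' ^ 2 * z + z' * z ^ 2 - P2 • (z' ^ 2 + z' * z) -
      P1 • z' := by
    rw [dd, mul_sub, mul_sub, mul_add, mul_add, mul_smul_comm, mul_smul_comm, mul_one, mul_add,
      ← pow_succ', ← mul_assoc, ← pow_two]
  have e2 : dd P2 P1 z' z * z = z ^ 3 + z' ^ 2 * z + z' * z ^ 2 - P2 • (z' * z + z ^ 2) -
      P1 • z := by
    rw [dd, sub_mul, sub_mul, add_mul, add_mul, smul_mul_assoc, smul_mul_assoc, one_mul, add_mul,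
      ← pow_succ, mul_assoc z', ← pow_two]
    abel
  rw [e1, e2, hz', hz]
  module

end dd

section key

variable {k E : Type} [Field k] [Field E] [CharZero E] [Algebra k E] {ρ σ : E ≃ₐ[k] E} {lam : Eˣ}
  {g : Fin 3 → Eˣ} {s : E} {a b c : kˣ} {U : Submodule E (AlbL E a b c)} {v x : AlbL E a b c}
  {h : AlbL E a b c ≃ₗ[E] AlbL E a b c}

/-- The transport of the relations, for all the elements of the algebra. -/
theorem Fr.mulrel' (D : Fr U v x) (hh : ∀ y, cub (h y) = cub y) (hV : ∀ y ∈ U, InVs (h y))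
    {y1 y w : AlbL E a b c} (hy1 : y1 ∈ U) (hy : y ∈ U) (hw : w ∈ U)
    (he : Tm v y1 * mat y = mat w) : Tm (h v) (h y1) * mat (h y) = mat (h w) := by
  obtain ⟨c0, c1, c2, rfl⟩ := D.exists_comb hy1
  obtain ⟨w1, hw1, e1⟩ := D.mul_gen hy
  obtain ⟨w2, hw2, e2⟩ := D.mul_gen hw1
  have f1 : Tm v x * mat y = mat w1 := by
    rw [← Tm_mul D.hv D.nv w1, e1, Matrix.mul_assoc, Tm_mul D.hv D.nv]
  have f2 : Tm v x * mat w1 = mat w2 := by
    rw [← Tm_mul D.hv D.nv w2, e2, Matrix.mul_assoc, Tm_mul D.hv D.nv]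
  have g1 := D.mulrel hh hV hy hw1 f1
  have g2 := D.mulrel hh hV hw1 hw2 f2
  have e3 : w = c0 • y + c1 • w1 + c2 • w2 := by
    refine inV_ext (D.inV _ hw) (inV_add (inV_add (inV_smul _ (D.inV _ hy))
      (inV_smul _ (D.inV _ hw1))) (inV_smul _ (D.inV _ hw2))) ?_
    rw [← he, D.comb, H64.mat_add, H64.mat_add, H64.mat_smul, H64.mat_smul, H64.mat_smul, ← f2,
      ← f1, Matrix.add_mul, Matrix.add_mul, Matrix.smul_mul, Matrix.smul_mul, Matrix.smul_mul,
      Matrix.one_mul, pow_two, Matrix.mul_assoc]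
  rw [D.comb_map hh hV, e3, map_add, map_add, map_smul, map_smul, map_smul, H64.mat_add,
    H64.mat_add, H64.mat_smul, H64.mat_smul, H64.mat_smul, ← g2, ← g1, Matrix.add_mul,
    Matrix.add_mul, Matrix.smul_mul, Matrix.smul_mul, Matrix.smul_mul,
    Matrix.one_mul, pow_two, Matrix.mul_assoc]

/-- Intertwining matrices. -/
theorem Fr.intw (D : Fr U v x) (hh : ∀ y, cub (h y) = cub y) (hV : ∀ y ∈ U, InVs (h y))
    {n : MQ E a b} (hn : n * Tm v x = Tm (h v) (h x) * n) {w : AlbL E a b c} (hw : w ∈ U) :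
    n * Tm v w = Tm (h v) (h w) * n := by
  obtain ⟨c0, c1, c2, rfl⟩ := D.exists_comb hw
  rw [D.comb, D.comb_map hh hV, Matrix.mul_add, Matrix.mul_add, Matrix.add_mul, Matrix.add_mul,
    Matrix.mul_smul, Matrix.mul_smul, Matrix.mul_smul, Matrix.smul_mul, Matrix.smul_mul,
    Matrix.smul_mul, Matrix.mul_one, Matrix.one_mul, hn, pow_two, pow_two, ← Matrix.mul_assoc, hn,
    Matrix.mul_assoc, hn, Matrix.mul_assoc]

/-- Intertwining matrices, in the other direction. -/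
theorem Fr.intw' (D : Fr U v x) (hh : ∀ y, cub (h y) = cub y) (hV : ∀ y ∈ U, InVs (h y))
    {n : MQ E a b} (hn : n * Tm (h v) (h x) = Tm v x * n) {w : AlbL E a b c} (hw : w ∈ U) :
    n * Tm (h v) (h w) = Tm v w * n := by
  obtain ⟨c0, c1, c2, rfl⟩ := D.exists_comb hw
  rw [D.comb, D.comb_map hh hV, Matrix.mul_add, Matrix.mul_add, Matrix.add_mul, Matrix.add_mul,
    Matrix.mul_smul, Matrix.mul_smul, Matrix.mul_smul, Matrix.smul_mul, Matrix.smul_mul,
    Matrix.smul_mul, Matrix.mul_one, Matrix.one_mul, hn, pow_two, pow_two, ← Matrix.mul_assoc, hn,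
    Matrix.mul_assoc, hn, Matrix.mul_assoc]

theorem cub_act_one (hab : Aniso (up E a) (up E b)) (m : (MQ E a b)ˣ) {x : AlbL E a b c}
    (hx : InVs x) : cub (act m 1 x) = nu (m : MQ E a b) * cub x := by
  obtain ⟨κ, hκ⟩ := exists_kap hab m
  rw [← E6I.Gn.act_eq_act_one hx m κ, cub_act hab m κ hκ]

/-- **The quotient belongs to `D ⊗ Q`.** -/
theorem Frs.psi_l (D : Frs ρ σ lam g U v x) (hh : ∀ y, cub (h y) = cub y)
    (hV : ∀ y ∈ U, InVs (h y)) (hph : ∀ y, h (E6O.ph ρ lam y) = E6O.ph ρ lam (h y))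
    {m : (MQ E a b)ˣ} (hmD : InD ρ lam (m : MQ E a b))
    (hm : (m : MQ E a b) * Tm v x = Tm (h v) (h x) * (m : MQ E a b)) {w : AlbL E a b c}
    (hw : w ∈ U) (hw' : act m 1 v = h w) : InD ρ lam (Tm v w) := by
  have D' := D.toFr.map hh hV
  have nph := cub_ph_ne (ρ := ρ) (lam := lam) D.hv D.nv
  have iph := inV_ph (ρ := ρ) (lam := lam) D.hv
  obtain ⟨y, hy, ey⟩ := D.psi_mem hw
  rw [inD_iff, ← ey]
  -- `ph (h w) = act m (ph v)`
  have h1 : h (E6O.ph ρ lam w) = act m 1 (E6O.ph ρ lam v) := by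
    rw [hph, ← hw', ph_act hmD]
    exact qmap_one ρ
  -- `ph w = psi(l) ph v`
  have h2 : Tm v y * mat (E6O.ph ρ lam v) = mat (E6O.ph ρ lam w) := by
    rw [ey, psi_ph (Tm_mul D.hv D.nv w)]
  have h3 := D.mulrel' hh hV hy (D.ph v D.mv) (D.ph w hw) h2
  -- `act m (ph v) = l'' ph (h v)`
  obtain ⟨q, hq, eq⟩ : ∃ q ∈ U, Tm v q * mat v = mat (E6O.ph ρ lam v) :=
    ⟨_, D.ph v D.mv, Tm_mul D.hv D.nv _⟩
  have h4 : mat (act m 1 (E6O.ph ρ lam v)) = Tm (h v) (h w) * mat (h (E6O.ph ρ lam v)) := by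
    rw [E6.mat_act, ← eq, ← Matrix.mul_assoc, D.intw hh hV hm hq]
    have h5 : (m : MQ E a b) * mat v * (m : MQ E a b)ᴴ = Tm (h v) (h w) * mat (h v) := by
      rw [← E6.mat_act m 1, hw', Tm_mul D'.hv D'.nv]
    have h6 := D.mulrel' hh hV hq D.mv (D.ph v D.mv) eq
    have h7 : Tm (h v) (h q) * Tm (h v) (h w) = Tm (h v) (h w) * Tm (h v) (h q) :=
      D'.comm ⟨q, hq, rfl⟩ ⟨w, hw, rfl⟩
    calc _ = Tm (h v) (h q) * ((m : MQ E a b) * mat v * (m : MQ E a b)ᴴ) := by
          simp only [Matrix.mul_assoc]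
      _ = Tm (h v) (h w) * (Tm (h v) (h q) * mat (h v)) := by
        rw [h5, ← Matrix.mul_assoc, h7, Matrix.mul_assoc]
      _ = _ := by rw [h6]
  rw [h1, h4] at h3
  have n1 : cub (h (E6O.ph ρ lam v)) ≠ 0 := by
    rw [hh]
    exact nph
  have h8 : Tm (h v) (h y) = Tm (h v) (h w) := mat_cancel (hV _ (D.ph v D.mv)) n1 h3
  have h9 := Tm_inj D'.hv D'.nv (hV _ hy) (hV _ hw) h8
  rw [h.injective h9]

/-- **The hermitian square of the conjugating element.** -/
theorem Frs.key (D : Frs ρ σ lam g U v x) (hab : Aniso (up E a) (up E b))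
    (hσg : ∀ i, σ (g i) = g i) (hh : ∀ y, cub (h y) = cub y)
    (hV : ∀ y ∈ U, InVs (h y)) (hpol : ∀ y, h (H183.pol σ g y) = H183.pol σ g (h y))
    (hs : adjM σ g (Tm v x) = Tm v x) (hs' : adjM σ g (Tm (h v) (h x)) = Tm (h v) (h x))
    {m : (MQ E a b)ˣ} (hm : (m : MQ E a b) * Tm v x = Tm (h v) (h x) * (m : MQ E a b))
    {w : AlbL E a b c} (hw : w ∈ U) (hw' : act m 1 v = h w) :
    adjM σ g (m : MQ E a b) * (m : MQ E a b) * Tm v x =
      Tm v x * (adjM σ g (m : MQ E a b) * (m : MQ E a b)) ∧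
    adjM σ g (m : MQ E a b) * (m : MQ E a b) * mat v *
      (adjM σ g (m : MQ E a b) * (m : MQ E a b))ᴴ =
        Tm v w * adjM σ g (Tm v w) * mat v := by
  have D' := D.toFr.map hh hV
  have hv := D.hv
  -- the adjoint relation
  have a1 : adjM σ g (m : MQ E a b) * Tm (h v) (h x) = Tm v x * adjM σ g (m : MQ E a b) := by
    have h1 := congrArg (adjM σ g) hm
    rw [adjM_mul, adjM_mul, hs, hs'] at h1
    exact h1.symm
  refine ⟨by rw [Matrix.mul_assoc, hm, ← Matrix.mul_assoc, a1, Matrix.mul_assoc], ?_⟩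
  -- the inverse of the adjoint
  obtain ⟨m', hm'⟩ : ∃ m' : (MQ E a b)ˣ, (m' : MQ E a b) =
      adjM σ g ((m⁻¹ : (MQ E a b)ˣ) : MQ E a b) :=
    ⟨⟨adjM σ g ((m⁻¹ : (MQ E a b)ˣ) : MQ E a b), adjM σ g (m : MQ E a b), by
      rw [← adjM_mul, Units.mul_inv, adjM_one], by
      rw [← adjM_mul, Units.inv_mul, adjM_one]⟩, rfl⟩
  have b1 : adjM σ g (m : MQ E a b) * (m' : MQ E a b) = 1 := by
    rw [hm', ← adjM_mul, Units.inv_mul, adjM_one]
  have b2 : (m' : MQ E a b) * adjM σ g (m : MQ E a b) = 1 := by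
    rw [hm', ← adjM_mul, Units.mul_inv, adjM_one]
  have hm2 : (m' : MQ E a b) * Tm v x = Tm (h v) (h x) * (m' : MQ E a b) := by
    calc _ = (m' : MQ E a b) * (Tm v x * adjM σ g (m : MQ E a b)) * (m' : MQ E a b) := by
          rw [Matrix.mul_assoc, Matrix.mul_assoc, b1, Matrix.mul_one]
      _ = ((m' : MQ E a b) * adjM σ g (m : MQ E a b)) * Tm (h v) (h x) * (m' : MQ E a b) := by
          rw [← a1]
          simp only [Matrix.mul_assoc]
      _ = _ := by rw [b2, Matrix.one_mul]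
  -- the norms
  have hnu : cub w = nu (m : MQ E a b) * cub v := by
    rw [← hh, ← hw', cub_act_one hab m hv]
  have hnu0 := nu_ne_zero hab m
  have hw0 : cub w ≠ 0 := by
    rw [hnu]
    exact mul_ne_zero hnu0 D.nv
  have ht : σ (cub v)⁻¹ * σ (cub w) = σ (nu (m : MQ E a b)) := by
    rw [hnu, map_mul, map_inv₀]
    have := (map_ne_zero σ).2 D.nv
    field_simp
  have ht0 : σ (nu (m : MQ E a b)) ≠ 0 := (map_ne_zero σ).2 hnu0
  -- the first relation
  have r1 := adjM_Tm_mul hσg v (D.inV _ hw)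
  rw [ht] at r1
  -- the second relation
  have r2 : mat (h (H183.pol σ g w)) = σ (nu (m : MQ E a b)) •
      ((m' : MQ E a b) * mat (H183.pol σ g v) * (m' : MQ E a b)ᴴ) := by
    rw [hpol, ← hw', pol_act hab hσg hv b1, H64.mat_smul, E6.mat_act]
  -- the quotients
  have hpw := D.pol w hw
  have hpv := D.pol v D.mv
  obtain ⟨ls, hls, els⟩ := D.adjM_mem hσg hw hw0
  have e1 : mat (H183.pol σ g v) = Tm v (H183.pol σ g v) * mat v := (Tm_mul hv D.nv _).symm
  have r3 : (m' : MQ E a b) * mat (H183.pol σ g v) * (m' : MQ E a b)ᴴ =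
      Tm (h v) (h (H183.pol σ g v)) * ((m' : MQ E a b) * mat v * (m' : MQ E a b)ᴴ) := by
    rw [e1, ← Matrix.mul_assoc, D.intw hh hV hm2 hpv]
    simp only [Matrix.mul_assoc]
  rw [← els] at r1 ⊢
  -- the image of the first relation
  have r4 : Tm (h v) (h ls) * mat (h (H183.pol σ g w)) =
      σ (nu (m : MQ E a b)) • mat (h (H183.pol σ g v)) := by
    have h1 := D.mulrel' hh hV hls hpw (U.smul_mem (σ (nu (m : MQ E a b))) hpv) (by
      rw [r1, H64.mat_smul])
    rw [h1, map_smul, H64.mat_smul]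
  have npv : cub (h (H183.pol σ g v)) ≠ 0 := by
    rw [hh]
    exact cub_pol_ne D.nv
  -- `h v = l*'' m' v m'ᴴ`
  have r5 : Tm (h v) (h ls) * ((m' : MQ E a b) * mat v * (m' : MQ E a b)ᴴ) = mat (h v) := by
    rw [r2, r3, Matrix.mul_smul] at r4
    have h1 := smul_right_injective _ ht0 r4
    have h2 : Tm (h v) (h ls) * Tm (h v) (h (H183.pol σ g v)) =
        Tm (h v) (h (H183.pol σ g v)) * Tm (h v) (h ls) :=
      D'.comm ⟨ls, hls, rfl⟩ ⟨_, hpv, rfl⟩
    have h3 : Tm (h v) (h (H183.pol σ g v)) * (Tm (h v) (h ls) *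
        ((m' : MQ E a b) * mat v * (m' : MQ E a b)ᴴ)) =
        Tm (h v) (h (H183.pol σ g v)) * mat (h v) := by
      rw [← Matrix.mul_assoc, ← h2, Matrix.mul_assoc]
      refine Eq.trans h1 ?_
      exact (Tm_mul D'.hv D'.nv _).symm
    -- cancel the invertible factor
    have h4 : mat (adj (h (H183.pol σ g v))) * mat (h (H183.pol σ g v)) =
        cub (h (H183.pol σ g v)) • (1 : MQ E a b) := mat_adj_mul (hV _ hpv)
    have h5 : ∀ X Y : MQ E a b, Tm (h v) (h (H183.pol σ g v)) * X =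
        Tm (h v) (h (H183.pol σ g v)) * Y → X = Y := by
      intro X Y hXY
      have i1 : mat (h v) * mat (adj (h (H183.pol σ g v))) *
          Tm (h v) (h (H183.pol σ g v)) = ((cub (h v))⁻¹ * (cub (h (H183.pol σ g v)) *
            cub (h v))) • (1 : MQ E a b) := by
        rw [Tm_apply, Matrix.mul_smul]
        calc _ = (cub (h v))⁻¹ • (mat (h v) * (mat (adj (h (H183.pol σ g v))) *
              mat (h (H183.pol σ g v))) * mat (adj (h v))) := by
              simp only [Matrix.mul_assoc]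
          _ = _ := by
            rw [h4, Matrix.mul_smul, Matrix.mul_one, Matrix.smul_mul, mat_mul_adj D'.hv, smul_smul,
              smul_smul, mul_assoc]
      have i2 : ((cub (h v))⁻¹ * (cub (h (H183.pol σ g v)) * cub (h v))) ≠ 0 :=
        mul_ne_zero (inv_ne_zero D'.nv) (mul_ne_zero npv D'.nv)
      have i3 : ∀ Z : MQ E a b, mat (h v) * mat (adj (h (H183.pol σ g v))) *
          (Tm (h v) (h (H183.pol σ g v)) * Z) = ((cub (h v))⁻¹ * (cub (h (H183.pol σ g v)) *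
            cub (h v))) • Z := by
        intro Z
        rw [← Matrix.mul_assoc, i1, Matrix.smul_mul, Matrix.one_mul]
      have i4 := i3 X
      rw [hXY, i3] at i4
      exact (smul_right_injective _ i2 i4).symm
    exact h5 _ _ h3
  -- `m* (h v) m*ᴴ = l* v`
  have r6 : adjM σ g (m : MQ E a b) * mat (h v) * (adjM σ g (m : MQ E a b))ᴴ =
      Tm v ls * mat v := by
    rw [← r5, ← Matrix.mul_assoc, D.intw' hh hV a1 hls]
    calc _ = Tm v ls * ((adjM σ g (m : MQ E a b) * (m' : MQ E a b)) * mat v *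
          (adjM σ g (m : MQ E a b) * (m' : MQ E a b))ᴴ) := by
          rw [Matrix.conjTranspose_mul (adjM σ g (m : MQ E a b))]
          simp only [Matrix.mul_assoc]
      _ = _ := by rw [b1, Matrix.conjTranspose_one, Matrix.mul_one, Matrix.one_mul]
  have r7 : (m : MQ E a b) * mat v * (m : MQ E a b)ᴴ = Tm (h v) (h w) * mat (h v) := by
    rw [← E6.mat_act m 1, hw', Tm_mul D'.hv D'.nv]
  calc _ = adjM σ g (m : MQ E a b) * ((m : MQ E a b) * mat v * (m : MQ E a b)ᴴ) *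
        (adjM σ g (m : MQ E a b))ᴴ := by
        rw [Matrix.conjTranspose_mul]
        simp only [Matrix.mul_assoc]
    _ = (adjM σ g (m : MQ E a b) * Tm (h v) (h w)) * mat (h v) *
        (adjM σ g (m : MQ E a b))ᴴ := by
        rw [r7]
        simp only [Matrix.mul_assoc]
    _ = Tm v w * (adjM σ g (m : MQ E a b) * mat (h v) * (adjM σ g (m : MQ E a b))ᴴ) := by
        rw [D.intw' hh hV a1 hw]
        simp only [Matrix.mul_assoc]
    _ = _ := by
        rw [r6]
        simp only [Matrix.mul_assoc]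

/-- **The final element agrees with `h` on the frame.** -/
theorem Fr.agree (D : Fr U v x) (hh : ∀ y, cub (h y) = cub y) (hV : ∀ y ∈ U, InVs (h y))
    {m : (MQ E a b)ˣ} (hm : (m : MQ E a b) * Tm v x = Tm (h v) (h x) * (m : MQ E a b))
    (hmv : (m : MQ E a b) * mat v * (m : MQ E a b)ᴴ = mat (h v)) {w : AlbL E a b c}
    (hw : w ∈ U) : act m 1 w = h w := by
  have D' := D.map hh hV
  refine inV_ext (E6I.Gn.inV_act (D.inV _ hw) _ _) (hV _ hw) ?_
  rw [E6.mat_act, ← Tm_mul D.hv D.nv w, ← Matrix.mul_assoc, D.intw hh hV hm hw,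
    ← Tm_mul D'.hv D'.nv (h w), ← hmv]
  simp only [Matrix.mul_assoc]

end key

end Vale.Agent.P011.E6W.H619
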