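import Vale.Agent.P011.One.Quat
import Vale.Agent.P011.D4.NTS

/-!
Block E6W (helper619): quaternion algebras over a quadratic extension, with a unitary involution
which commutes with the canonical one, as centralisers of symmetric subfields.
-/

open NumberField IsDedekindDomain

set_option linter.unusedSectionVars false

namespace Vale.Agent.P011.E6W.H619

open Vale.Agent.P011.Arith Vale.Agent.P011.MPQ Vale.Agent.P011.One

variable {k D : Type} [Field k] [NumberField k] [DivisionRing D] [StarRing D] [Algebra k D]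
    {F : Type} [Field F] [NumberField F] [Algebra k F]

/-- The centraliser of the symmetric subfield `F` is a quaternion algebra over `F(s)`, `s² = d`,
with the canonical involution `bar`, which commutes with `star`. -/
structure Bar (ι : F →ₐ[k] D) (d : F) (s : D) (bar : D → D) : Prop where
  sym : ∀ x, star (ι x) = ι x
  cs : ∀ x ∈ Cen ι, s * x = x * s
  s_mem : s ∈ Cen ι
  ss : s * s = ι d
  star_s : star s = -s
  mem : ∀ x ∈ Cen ι, bar x ∈ Cen ι
  add : ∀ x ∈ Cen ι, ∀ y ∈ Cen ι, bar (x + y) = bar x + bar y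
  mul : ∀ x ∈ Cen ι, ∀ y ∈ Cen ι, bar (x * y) = bar y * bar x
  inv : ∀ x ∈ Cen ι, bar (bar x) = x
  fix : ∀ t, bar (ι t) = ι t
  fs : bar s = s
  tr : ∀ x ∈ Cen ι, ∃ p r : F, x + bar x = ι p + s * ι r
  st : ∀ x ∈ Cen ι, bar (star x) = star (bar x)

section bar

variable {ι : F →ₐ[k] D} {d : F} {s : D} {bar : D → D} (H : Bar ι d s bar)

include H

theorem Bar.star_mem {x : D} (hx : x ∈ Cen ι) : star x ∈ Cen ι := by
  rw [mem_cen] at hx ⊢
  intro t
  have := congrArg star (hx t)
  rw [star_mul, star_mul, H.sym] at this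
  exact this.symm

theorem Bar.ι_mem (t : F) : ι t ∈ Cen ι := by
  rw [mem_cen]
  intro t'
  rw [← map_mul, mul_comm, map_mul]

theorem Bar.ιs (t : F) : ι t * s = s * ι t := mem_cen.1 H.s_mem t

theorem Bar.ιc {x : D} (hx : x ∈ Cen ι) (t : F) : ι t * x = x * ι t := mem_cen.1 hx t

theorem Bar.neg {x : D} (hx : x ∈ Cen ι) : bar (-x) = -bar x := by
  have h1 := H.add _ hx _ (neg_mem hx)
  rw [add_neg_cancel, ← map_zero ι, H.fix, map_zero] at h1
  exact (neg_eq_of_add_eq_zero_right h1.symm).symm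

theorem Bar.sub {x y : D} (hx : x ∈ Cen ι) (hy : y ∈ Cen ι) : bar (x - y) = bar x - bar y := by
  rw [sub_eq_add_neg, H.add _ hx _ (neg_mem hy), H.neg hy, ← sub_eq_add_neg]

theorem Bar.s_ne (hd : d ≠ 0) : s ≠ 0 := by
  rintro rfl
  have h1 := H.ss
  rw [mul_zero] at h1
  exact hd ((map_eq_zero ι).1 h1.symm)

theorem ι_inj {x : F} (h : ι x = 0) : x = 0 := (map_eq_zero ι).1 h

theorem two_ne : (2 : D) ≠ 0 := by
  have h := (map_ne_zero ι).2 (two_ne_zero : (2 : F) ≠ 0)
  rwa [map_ofNat] at h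

/-- The elements of `F(s)`, symmetric. -/
theorem Bar.coef_zero (hd : d ≠ 0) {p r : F} (h : ι p + s * ι r = 0) : p = 0 ∧ r = 0 := by
  have h1 := congrArg star h
  rw [star_add, star_mul, H.sym, H.sym, H.star_s, star_zero, mul_neg, H.ιs] at h1
  have h2 : ι (2 * p) = 0 := by
    rw [map_mul, map_ofNat]
    calc (2 : D) * ι p = (ι p + s * ι r) + (ι p + -(s * ι r)) := by noncomm_ring
      _ = 0 := by rw [h, h1, add_zero]
  have hp : p = 0 := (mul_eq_zero.1 (ι_inj H h2)).resolve_left two_ne_zero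
  rw [hp, map_zero, zero_add, mul_eq_zero] at h
  exact ⟨hp, ι_inj H (h.resolve_left (H.s_ne hd))⟩

/-- The symmetric elements of `F(s)` lie in `F`. -/
theorem Bar.of_sym (hd : d ≠ 0) {x : D} {p r : F} (hx : x = ι p + s * ι r)
    (hs : star x = x) : x = ι p := by
  have h1 : ι 0 + s * ι (2 * r) = 0 := by
    rw [hx, star_add, star_mul, H.sym, H.sym, H.star_s, mul_neg, H.ιs] at hs
    rw [map_zero, zero_add, map_mul, map_ofNat]
    have h2 := add_left_cancel hs
    calc s * (2 * ι r) = s * ι r + s * ι r := by noncomm_ring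
      _ = s * ι r + -(s * ι r) := by rw [h2]
      _ = 0 := add_neg_cancel _
  obtain ⟨-, h3⟩ := H.coef_zero hd h1
  rw [hx, (mul_eq_zero.1 h3).resolve_left two_ne_zero, map_zero, mul_zero, add_zero]

/-- The product with the conjugate. -/
theorem Bar.nr {x : D} (hx : x ∈ Cen ι) : ∃ p r : F, x * bar x = ι p + s * ι r := by
  have hb := H.mem _ hx
  have h1 : bar (x * bar x) = x * bar x := by rw [H.mul _ hx _ hb, H.inv _ hx]
  obtain ⟨p, r, h2⟩ := H.tr _ (mul_mem hx hb)
  rw [h1] at h2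
  have h3 := two_ne H
  refine ⟨p / 2, r / 2, ?_⟩
  have e2 : ι 2 = 2 := map_ofNat ι 2
  rw [map_div₀, map_div₀, e2]
  have h4 : x * bar x * 2 = ι p + s * ι r := by rw [mul_two, h2]
  rw [eq_mul_inv_iff_mul_eq₀ h3 |>.2 h4]
  rw [div_eq_mul_inv, div_eq_mul_inv, add_mul, mul_assoc]

/-- The conjugate commutes. -/
theorem Bar.comm_bar {x : D} (hx : x ∈ Cen ι) : x * bar x = bar x * x := by
  obtain ⟨p, r, h1⟩ := H.tr _ hx
  have h2 : bar x = ι p + s * ι r - x := by rw [← h1]; abel
  rw [h2, mul_sub, sub_mul, mul_add, add_mul, H.ιc hx, mul_assoc s, H.ιc hx, ← mul_assoc s x,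
    H.cs _ hx, mul_assoc]

theorem Bar.inv_mem {x : D} (hx : x ∈ Cen ι) : x⁻¹ ∈ Cen ι := by
  rw [mem_cen] at hx ⊢
  intro t
  by_cases h0 : x = 0
  · rw [h0, inv_zero, mul_zero, zero_mul]
  · rw [← mul_right_inj' h0, ← mul_assoc, ← hx, mul_assoc, mul_inv_cancel₀ h0, mul_one,
      ← mul_assoc, mul_inv_cancel₀ h0, one_mul]

theorem Bar.bar_ne {x : D} (hx : x ∈ Cen ι) (h0 : x ≠ 0) : bar x ≠ 0 := by
  intro h
  have h1 := H.inv _ hx
  rw [h, ← map_zero ι, H.fix, map_zero] at h1
  exact h0 h1.symm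

theorem Bar.one : bar 1 = 1 := by
  have := H.fix 1
  rwa [map_one] at this

/-- The automorphism `θ = star ∘ bar`. -/
theorem Bar.th_mul {x y : D} (hx : x ∈ Cen ι) (hy : y ∈ Cen ι) :
    star (bar (x * y)) = star (bar x) * star (bar y) := by
  rw [H.mul _ hx _ hy, star_mul]

/-- The elements fixed by the canonical involution are central. -/
theorem Bar.cen {z y : D} (hz : z ∈ Cen ι) (hb : bar z = z) (hy : y ∈ Cen ι) :
    z * y = y * z := by
  obtain ⟨p, r, h1⟩ := H.tr _ hz
  rw [hb] at h1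
  have h4 : (z + z) * y = y * (z + z) := by
    rw [h1, add_mul, mul_add, H.ιc hy, mul_assoc s, H.ιc hy, ← mul_assoc s y, H.cs _ hy,
      mul_assoc]
  have h3 : (2 : D) * (z * y - y * z) = 0 := by
    calc (2 : D) * (z * y - y * z) = (z + z) * y - y * (z + z) := by noncomm_ring
      _ = 0 := by rw [h4, sub_self]
  exact sub_eq_zero.1 ((mul_eq_zero.1 h3).resolve_left (two_ne H))

/-- A pure element fixed by the automorphism, from a pure element in a family. -/
theorem Bar.exists_fix (hd : d ≠ 0) {P : D → Prop} (hsub : ∀ x y, P x → P y → P (x - y))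
    (hs : ∀ x ∈ Cen ι, P x → P (s * x))
    (hst : ∀ x ∈ Cen ι, P x → P (star x)) {x : D} (hx : x ∈ Cen ι) (hb : bar x = -x)
    (hx0 : x ≠ 0) (hP : P x) : ∃ i ∈ Cen ι, bar i = -i ∧ star i = -i ∧ i ≠ 0 ∧ P i := by
  have h1 : star x ∈ Cen ι := H.star_mem hx
  have hst' : bar (star x) = -star x := by rw [H.st _ hx, hb, star_neg]
  have hs0 := H.s_ne hd
  -- the two candidates
  by_cases h0 : x - star x = 0
  · have h2 : star x = x := (sub_eq_zero.1 h0).symm
    refine ⟨s * x, mul_mem H.s_mem hx, ?_, ?_, mul_ne_zero hs0 hx0, hs _ hx hP⟩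
    · rw [H.mul _ H.s_mem _ hx, H.fs, hb, neg_mul, H.cs _ hx]
    · rw [star_mul, H.star_s, h2, mul_neg, H.cs _ hx]
  · refine ⟨x - star x, sub_mem hx h1, ?_, ?_, h0, hsub _ _ hP (hst x hx hP)⟩
    · rw [H.sub hx h1, hb, hst']
      abel
    · rw [star_sub, star_star]
      abel

/-- The square of a pure element fixed by the automorphism. -/
theorem Bar.sq {i : D} (hd : d ≠ 0) (hi : i ∈ Cen ι) (hb : bar i = -i) (hs : star i = -i)
    (h0 : i ≠ 0) : ∃ α : Fˣ, i * i = ι α := by
  obtain ⟨p, r, h1⟩ := H.nr hi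
  rw [hb, mul_neg] at h1
  have h2 : i * i = ι (-p) + s * ι (-r) := by
    rw [map_neg, map_neg, mul_neg, ← neg_add, ← h1, neg_neg]
  have h3 : star (i * i) = i * i := by rw [star_mul, hs, neg_mul_neg]
  have h4 := H.of_sym hd h2 h3
  have h5 : -p ≠ 0 := by
    intro h5
    rw [h5, map_zero] at h4
    exact h0 (mul_self_eq_zero.1 h4)
  exact ⟨Units.mk0 _ h5, h4⟩

/-- **The quaternion algebra over the symmetric subfield.** -/
theorem Bar.exists_QFr (hd : d ≠ 0) (hnc : ∃ x ∈ Cen ι, ∃ y ∈ Cen ι, x * y ≠ y * x) :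
    ∃ (α β : Fˣ) (i j : D), QFr ι α β i j ∧ bar i = -i ∧ bar j = -j := by
  obtain ⟨x, hx, y, hy, hxy⟩ := hnc
  have hbx := H.mem _ hx
  have hp : x - bar x ∈ Cen ι := sub_mem hx hbx
  have hpb : bar (x - bar x) = -(x - bar x) := by
    rw [H.sub hx hbx, H.inv _ hx]
    abel
  have hp0 : x - bar x ≠ 0 := fun h0 => hxy (H.cen hx (sub_eq_zero.1 h0).symm hy)
  obtain ⟨i, hi, hib, his, hi0, -⟩ := H.exists_fix hd (P := fun _ => True) (fun _ _ _ _ => trivial)
    (fun _ _ _ => trivial) (fun _ _ _ => trivial) hp hpb hp0 trivial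
  obtain ⟨α, hα⟩ := H.sq hd hi hib his hi0
  -- an element which does not commute with `i`
  obtain ⟨z, hz, hzi⟩ : ∃ z ∈ Cen ι, z * i ≠ i * z := by
    by_contra hcon
    push Not at hcon
    -- `i p` is fixed by the canonical involution, hence central
    have h1 : bar (i * (x - bar x)) = i * (x - bar x) := by
      rw [H.mul _ hi _ hp, hpb, hib, ← hcon _ hp]
      noncomm_ring
    have h2 := H.cen (mul_mem hi hp) h1 hy
    have h3 : (x - bar x) * y = y * (x - bar x) := by
      apply mul_left_cancel₀ hi0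
      rw [← mul_assoc, h2, ← mul_assoc, hcon _ hy, mul_assoc]
    have h4 : bar (x + bar x) = x + bar x := by
      rw [H.add _ hx _ hbx, H.inv _ hx, add_comm]
    have h5 := H.cen (add_mem hx hbx) h4 hy
    apply hxy
    have h6 : (2 : D) * (x * y - y * x) = 0 := by
      calc (2 : D) * (x * y - y * x) = ((x - bar x) * y - y * (x - bar x)) +
            ((x + bar x) * y - y * (x + bar x)) := by noncomm_ring
        _ = 0 := by rw [h3, h5, sub_self, sub_self, add_zero]
    exact sub_eq_zero.1 ((mul_eq_zero.1 h6).resolve_left (two_ne H))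
  -- the anticommuting element
  obtain ⟨w, hw⟩ : ∃ w, w = z * i - i * z := ⟨_, rfl⟩
  have hwm : w ∈ Cen ι := by
    rw [hw]
    exact sub_mem (mul_mem hz hi) (mul_mem hi hz)
  have hw0 : w ≠ 0 := by
    rw [hw]
    exact sub_ne_zero.2 hzi
  have hbz := H.mem _ hz
  have hwb : bar w = -w := by
    have h4 : bar (z + bar z) = z + bar z := by
      rw [H.add _ hz _ hbz, H.inv _ hz, add_comm]
    have h5 := H.cen (add_mem hz hbz) h4 hi
    rw [hw, H.sub (mul_mem hz hi) (mul_mem hi hz), H.mul _ hz _ hi, H.mul _ hi _ hz, hib]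
    have h6 : bar z * i - i * bar z = -(z * i - i * z) := by
      calc bar z * i - i * bar z = ((z + bar z) * i - i * (z + bar z)) - (z * i - i * z) := by
            noncomm_ring
        _ = _ := by rw [h5, sub_self, zero_sub]
    rw [← h6]
    noncomm_ring
  have hwi : i * w = -(w * i) := by
    have h4 : i * i * z = z * (i * i) := by rw [hα, H.ιc hz]
    rw [hw]
    calc i * (z * i - i * z) = i * z * i - i * i * z := by noncomm_ring
      _ = i * z * i - z * (i * i) := by rw [h4]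
      _ = _ := by noncomm_ring
  obtain ⟨j, hj, hjb, hjs, hj0, hji⟩ := H.exists_fix hd (P := fun y => i * y = -(y * i))
    (fun x y h1 h2 => by rw [mul_sub, sub_mul, h1, h2]; abel)
    (fun x _ h1 => by rw [← mul_assoc, ← H.cs _ hi, mul_assoc, h1, mul_neg, mul_assoc])
    (fun x _ h1 => by
      have h2 := congrArg star h1
      rw [star_mul, star_neg, star_mul, his] at h2
      rw [mul_neg, neg_mul, neg_neg] at h2
      exact h2.symm) hwm hwb hw0 hwi
  obtain ⟨β, hβ⟩ := H.sq hd hj hjb hjs hj0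
  exact ⟨α, β, i, j, ⟨H.sym, his, hjs, hα, hβ, hji, fun t => H.ιc hi t, fun t => H.ιc hj t⟩,
    hib, hjb⟩

end bar

end Vale.Agent.P011.E6W.H619
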