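import Vale.Agent.P011.E6W.H619.Fr
import Vale.Agent.P011.E6W.H183.Pol

/-!
Block E6W (helper619): the two semilinear automorphisms of the algebra of the quotients, and the
average.
-/

set_option linter.unusedSectionVars false

namespace Vale.Agent.P011.E6W.H619

open Vale.Agent.P011.MPQ hiding mat
open Vale.Agent.P011.D4 Vale.Agent.P011.D4.Oct Vale.Agent.P011.E6 Alb
open Vale.Agent.P011.E6O
open Vale.Agent.P011.E6I (MQ toMQ toMQ_apply toMQ_mul toMQ_one InVs cub_of_inV)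
open Vale.Agent.P011.E6I.Gn (Tm Tm_apply Tm_mul Tm_self Tm_inj Tm_cancel Tm_sq Tm_cube inV_ext
  inV_add inV_smul inV_adj inV_cross mat_mul_adj mat_adj_mul)
open Vale.Agent.P011.E6W.H183
open Matrix

section semi

variable {k E : Type} [Field k] [Field E] [Algebra k E] {ρ σ : E ≃ₐ[k] E} {lam : Eˣ}
  {g : Fin 3 → Eˣ} {s : E} {a b c : kˣ}

/-- The semilinear automorphism with fixed algebra `D ⊗ Q`. -/
def psi (ρ : E ≃ₐ[k] E) (lam : Eˣ) (m : MQ E a b) : MQ E a b :=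
  toMQ (um lam) * m.map (qmap ρ) * toMQ (wm lam)

theorem psi_mul (m n : MQ E a b) : psi ρ lam (m * n) = psi ρ lam m * psi ρ lam n := by
  rw [psi, psi, psi, H64.map_mul_qmap]
  calc _ = toMQ (um lam) * m.map (qmap ρ) * (toMQ (wm lam) * toMQ (um lam)) *
        n.map (qmap ρ) * toMQ (wm lam) := by
        rw [wq_mul_uq, Matrix.mul_one]
        simp only [Matrix.mul_assoc]
    _ = _ := by simp only [Matrix.mul_assoc]

theorem psi_add (m n : MQ E a b) : psi ρ lam (m + n) = psi ρ lam m + psi ρ lam n := by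
  rw [psi, psi, psi, map_add_qmap, Matrix.mul_add, Matrix.add_mul]

theorem psi_smul (t : E) (m : MQ E a b) : psi ρ lam (t • m) = ρ t • psi ρ lam m := by
  rw [psi, psi, map_smul_qmap, Matrix.mul_smul, Matrix.smul_mul]

theorem psi_one : psi ρ lam (1 : MQ E a b) = 1 := by
  rw [psi, map_one_qmap, Matrix.mul_one, uq_mul_wq]

theorem inD_iff {m : MQ E a b} : InD ρ lam m ↔ psi ρ lam m = m := by
  rw [InD, psi]
  constructor
  · intro h
    rw [← h, Matrix.mul_assoc, uq_mul_wq, Matrix.mul_one]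
  · intro h
    conv_lhs => rw [← h]
    rw [Matrix.mul_assoc, wq_mul_uq, Matrix.mul_one]

theorem um3 : um lam * um lam * um lam = ((lam⁻¹ : Eˣ) : E) • (1 : Matrix (Fin 3) (Fin 3) E) := by
  apply Matrix.ext
  intro i j
  fin_cases i <;> fin_cases j <;> simp [um, Matrix.mul_apply, Fin.sum_univ_three]

theorem toMQ_smul (t : E) (m : Matrix (Fin 3) (Fin 3) E) :
    (toMQ (t • m) : MQ E a b) = t • toMQ m := by
  apply Matrix.ext
  intro i j
  rw [toMQ_apply, Matrix.smul_apply, Matrix.smul_apply, toMQ_apply, smul_eq_mul,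
    QuaternionAlgebra.coe_mul, QuaternionAlgebra.coe_mul_eq_smul]

theorem uq3 : (toMQ (um lam) : MQ E a b) * (toMQ (um lam) * toMQ (um lam)) =
    ((lam⁻¹ : Eˣ) : E) • 1 := by
  rw [← Matrix.mul_assoc, ← toMQ_mul, ← toMQ_mul, um3, toMQ_smul, toMQ_one]

theorem wq3 : (toMQ (wm lam) : MQ E a b) * (toMQ (wm lam) * toMQ (wm lam)) =
    (lam : E) • 1 := by
  have h1 : (toMQ (um lam) : MQ E a b) * (toMQ (um lam) * toMQ (um lam)) *
      (toMQ (wm lam) * (toMQ (wm lam) * toMQ (wm lam))) = 1 := by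
    calc _ = toMQ (um lam) * (toMQ (um lam) * ((toMQ (um lam) * toMQ (wm lam)) *
          (toMQ (wm lam) * toMQ (wm lam)))) := by simp only [Matrix.mul_assoc]
      _ = toMQ (um lam) * ((toMQ (um lam) * toMQ (wm lam)) * toMQ (wm lam)) := by
        rw [uq_mul_wq, Matrix.one_mul, ← Matrix.mul_assoc (toMQ (um lam)) (toMQ (wm lam)),
          uq_mul_wq]
      _ = 1 := by rw [uq_mul_wq, Matrix.one_mul, uq_mul_wq]
  rw [uq3, Matrix.smul_mul, Matrix.one_mul] at h1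
  rw [← h1, smul_smul, Units.mul_inv, one_smul]

theorem um_fix (hl : ρ lam = lam) : (toMQ (um lam) : MQ E a b).map (qmap ρ) = toMQ (um lam) := by
  have h1 : Units.map (ρ : E →* E) lam = lam := Units.ext hl
  rw [um_map, um_map_eq, h1]

theorem wm_fix (hl : ρ lam = lam) : (toMQ (wm lam) : MQ E a b).map (qmap ρ) = toMQ (wm lam) := by
  have h1 : (toMQ (wm lam) : MQ E a b).map (qmap ρ) * toMQ (um lam) = 1 := by
    rw [← um_fix (a := a) (b := b) hl, ← H64.map_mul_qmap, wq_mul_uq, map_one_qmap]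
  calc _ = (toMQ (wm lam) : MQ E a b).map (qmap ρ) * (toMQ (um lam) * toMQ (wm lam)) := by
        rw [uq_mul_wq, Matrix.mul_one]
    _ = _ := by rw [← Matrix.mul_assoc, h1, Matrix.one_mul]

theorem psi_cube (hρ3 : ∀ x, ρ (ρ (ρ x)) = x) (hl : ρ lam = lam) (m : MQ E a b) :
    psi ρ lam (psi ρ lam (psi ρ lam m)) = m := by
  have h : ((m.map (qmap ρ)).map (qmap ρ)).map (qmap ρ) = m := by
    apply Matrix.ext
    intro i j
    exact QuaternionAlgebra.ext (hρ3 _) (hρ3 _) (hρ3 _) (hρ3 _)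
  rw [psi, psi, psi, H64.map_mul_qmap, H64.map_mul_qmap, H64.map_mul_qmap, H64.map_mul_qmap,
    H64.map_mul_qmap, H64.map_mul_qmap, um_fix hl, wm_fix hl, um_fix hl, wm_fix hl, h]
  calc _ = (toMQ (um lam) * (toMQ (um lam) * toMQ (um lam))) * m *
        (toMQ (wm lam) * (toMQ (wm lam) * toMQ (wm lam))) := by simp only [Matrix.mul_assoc]
    _ = m := by
      rw [uq3, wq3, Matrix.smul_mul, Matrix.one_mul, Matrix.mul_smul, Matrix.mul_one, smul_smul,
        Units.mul_inv, one_smul]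

theorem psi_ph {α : MQ E a b} {x v : AlbL E a b c} (h : α * mat v = mat x) :
    psi ρ lam α * mat (ph ρ lam v) = mat (ph ρ lam x) := by
  rw [mat_ph, mat_ph, ← h, H64.map_mul_qmap, psi, Matrix.mul_smul]
  congr 1
  calc _ = toMQ (um lam) * α.map (qmap ρ) * (toMQ (wm lam) * toMQ (um lam)) *
        (mat v).map (qmap ρ) * (toMQ (um lam) : MQ E a b)ᴴ := by
        simp only [Matrix.mul_assoc]
    _ = _ := by
        rw [wq_mul_uq, Matrix.mul_one]
        simp only [Matrix.mul_assoc]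

theorem inV_ph {x : AlbL E a b c} (hx : InVs x) : InVs (ph ρ lam x) := by
  obtain ⟨h1, h2, h3⟩ := hx
  refine ⟨?_, ?_, ?_⟩
  · change (lam : E) • qmap ρ x.x3.snd = 0
    rw [h3, qmap_zero, smul_zero]
  · change qmap ρ x.x1.snd = 0
    rw [h1, qmap_zero]
  · change qmap ρ x.x2.snd = 0
    rw [h2, qmap_zero]

theorem nrd_qmap (q : Qt (up E a) (up E b)) : nrd (qmap ρ q) = ρ (nrd q) := by
  have ha : ρ (up E a : E) = (up E a : E) := ρ.commutes _
  have hb : ρ (up E b : E) = (up E b : E) := ρ.commutes _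
  simp only [nrd, map_add, map_sub, map_mul, map_pow, ha, hb]
  rfl

theorem nrd_smul' (t : E) (q : Qt (up E a) (up E b)) : nrd (t • q) = t ^ 2 * nrd q := by
  simp only [nrd, QuaternionAlgebra.re_smul, QuaternionAlgebra.imI_smul,
    QuaternionAlgebra.imJ_smul, QuaternionAlgebra.imK_smul, smul_eq_mul]
  ring

theorem re_cyc' (p q r : Qt (up E a) (up E b)) : (r * p * q).re = (p * q * r).re := by
  simp only [QuaternionAlgebra.re_mul, QuaternionAlgebra.imI_mul, QuaternionAlgebra.imJ_mul,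
    QuaternionAlgebra.imK_mul]
  ring

theorem cub_ph {x : AlbL E a b c} (hx : InVs x) :
    cub (ph ρ lam x) = lam * ρ (cub x) := by
  have h0 : ((lam⁻¹ : Eˣ) : E) * lam = 1 := Units.inv_mul _
  rw [cub_of_inV (inV_ph hx), cub_of_inV hx]
  change ((lam⁻¹ : Eˣ) : E) * ρ x.d3 * ((lam : E) * ρ x.d1) * ((lam : E) * ρ x.d2) -
    ((lam⁻¹ : Eˣ) : E) * ρ x.d3 * nrd ((lam : E) • qmap ρ x.x3.fst) -
    ((lam : E) * ρ x.d1) * nrd (qmap ρ x.x1.fst) - ((lam : E) * ρ x.d2) * nrd (qmap ρ x.x2.fst) +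
    2 * (((lam : E) • qmap ρ x.x3.fst) * qmap ρ x.x1.fst * qmap ρ x.x2.fst).re = _
  have h1 : (((lam : E) • qmap ρ x.x3.fst) * qmap ρ x.x1.fst * qmap ρ x.x2.fst).re =
      lam * ρ ((x.x1.fst * x.x2.fst * x.x3.fst).re) := by
    rw [smul_mul_assoc, smul_mul_assoc, QuaternionAlgebra.re_smul, re_cyc', ← qmap_mul,
      ← qmap_mul]
    rfl
  rw [h1, nrd_smul', nrd_qmap, nrd_qmap, nrd_qmap]
  simp only [map_add, map_sub, map_mul, map_ofNat]
  linear_combination (((lam : E) * ρ x.d3 * ρ x.d1 * ρ x.d2) -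
    ((lam : E) * ρ x.d3 * ρ (nrd x.x3.fst))) * h0

/-- The average. -/
def av (ρ σ : E ≃ₐ[k] E) (lam : Eˣ) (g : Fin 3 → Eˣ) (m : MQ E a b) : MQ E a b :=
  (6 : E)⁻¹ • ((m + psi ρ lam m + psi ρ lam (psi ρ lam m)) +
    adjM σ g (m + psi ρ lam m + psi ρ lam (psi ρ lam m)))

theorem av_inD [CharZero E] (R : Rel ρ σ lam g s) (hρ3 : ∀ x, ρ (ρ (ρ x)) = x)
    (hl : ρ lam = lam) (m : MQ E a b) : InD ρ lam (av ρ σ lam g m) := by
  have h1 : InD ρ lam (m + psi ρ lam m + psi ρ lam (psi ρ lam m)) := by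
    rw [inD_iff, psi_add, psi_add, psi_cube hρ3 hl]
    abel
  exact inD_smul (inD_add h1 (inD_adjM R h1)) (by rw [map_inv₀, map_ofNat])

theorem av_adjM (R : Rel ρ σ lam g s) (m : MQ E a b) :
    adjM σ g (av ρ σ lam g m) = av ρ σ lam g m := by
  rw [av, adjM_smul, adjM_add, adjM_adjM R.σ2 R.σg, map_inv₀, map_ofNat, add_comm]

theorem av_fix [CharZero E] {m : MQ E a b} (h1 : InD ρ lam m) (h2 : adjM σ g m = m) :
    av ρ σ lam g m = m := by
  rw [inD_iff] at h1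
  rw [av, h1, h1, adjM_add, adjM_add, h2]
  have h6 : (6 : E) ≠ 0 := by norm_num
  have e : m + m + m + (m + m + m) = (6 : E) • m := by module
  rw [e, smul_smul, inv_mul_cancel₀ h6, one_smul]

/-- The data of a frame which is stable by the two semilinear maps. -/
structure Frs (ρ σ : E ≃ₐ[k] E) (lam : Eˣ) (g : Fin 3 → Eˣ) (U : Submodule E (AlbL E a b c))
    (v x : AlbL E a b c) : Prop extends Fr U v x where
  ph : ∀ y ∈ U, E6O.ph ρ lam y ∈ U
  pol : ∀ y ∈ U, H183.pol σ g y ∈ U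

variable [CharZero E] {U : Submodule E (AlbL E a b c)} {v x : AlbL E a b c}

theorem cub_ph_ne {y : AlbL E a b c} (hy : InVs y) (h0 : cub y ≠ 0) :
    cub (E6O.ph ρ lam y) ≠ 0 := by
  rw [cub_ph hy]
  exact mul_ne_zero lam.ne_zero ((map_ne_zero ρ).2 h0)

theorem cub_pol_ne {y : AlbL E a b c} (h0 : cub y ≠ 0) : cub (H183.pol σ g y) ≠ 0 := by
  rw [cub_pol]
  exact (map_ne_zero σ).mpr (mul_ne_zero (pow_ne_zero 2 (inv_ne_zero (gam_ne g)))
    (pow_ne_zero 2 h0))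

/-- The algebra of the quotients is stable by `psi`. -/
theorem Frs.psi_mem (D : Frs ρ σ lam g U v x) {y : AlbL E a b c} (hy : y ∈ U) :
    ∃ w ∈ U, Tm v w = psi ρ lam (Tm v y) := by
  have hv := D.hv
  have hg : E6O.ph ρ lam v ∈ U := D.ph _ D.mv
  have hg0 := cub_ph_ne (ρ := ρ) (lam := lam) hv D.nv
  obtain ⟨w, hw, hw'⟩ := D.div hg hg0 (D.ph y hy)
  refine ⟨w, hw, Tm_cancel hv D.nv (D.inV _ hg) hg0 ?_⟩
  rw [hw']
  have h1 := psi_ph (ρ := ρ) (lam := lam) (Tm_mul hv D.nv y)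
  rw [Tm_apply v (E6O.ph ρ lam y), ← h1, Tm_apply v (E6O.ph ρ lam v), Matrix.mul_smul,
    Matrix.mul_assoc]

/-- The matrices of the invertible elements can be cancelled. -/
theorem mat_cancel {y : AlbL E a b c} (hy : InVs y) (h0 : cub y ≠ 0) {α β : MQ E a b}
    (h : α * mat y = β * mat y) : α = β := by
  have h1 : α * mat y * mat (adj y) = β * mat y * mat (adj y) := by rw [h]
  rw [Matrix.mul_assoc, Matrix.mul_assoc, mat_mul_adj hy, Matrix.mul_smul, Matrix.mul_smul,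
    Matrix.mul_one, Matrix.mul_one] at h1
  exact smul_right_injective _ h0 h1

/-- The algebra of the quotients is stable by the involution, for the invertible elements. -/
theorem Frs.adjM_mem (D : Frs ρ σ lam g U v x) (hσg : ∀ i, σ (g i) = g i) {y : AlbL E a b c}
    (hy : y ∈ U) (h0 : cub y ≠ 0) : ∃ w ∈ U, Tm v w = adjM σ g (Tm v y) := by
  have hv := D.hv
  have hp := D.pol y hy
  have hp0 := cub_pol_ne (σ := σ) (g := g) h0
  obtain ⟨w, hw, hw'⟩ := D.div hp hp0 (U.smul_mem (σ (cub v)⁻¹ * σ (cub y)) (D.pol v D.mv))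
  refine ⟨w, hw, Tm_cancel hv D.nv (D.inV _ hp) hp0 ?_⟩
  rw [hw', Tm_apply v (H183.pol σ g y), Matrix.mul_smul, ← Matrix.mul_assoc,
    adjM_Tm_mul hσg v (D.inV _ hy), Tm_apply, H64.mat_smul]

/-- The algebra of the quotients is stable by the involution. -/
theorem Frs.adjM_mem' (D : Frs ρ σ lam g U v x)
    (hσg : ∀ i, σ (g i) = g i) {y : AlbL E a b c}
    (hy : y ∈ U) : ∃ w ∈ U, Tm v w = adjM σ g (Tm v y) := by
  obtain ⟨c0, c1, c2, hc⟩ := D.span hy
  obtain ⟨w1, hw1, e1⟩ := D.adjM_mem hσg D.mx D.nx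
  obtain ⟨w2, hw2, e2⟩ := D.mul hw1 hw1
  refine ⟨σ c0 • v + σ c1 • w1 + σ c2 • w2, U.add_mem (U.add_mem (U.smul_mem _ D.mv)
    (U.smul_mem _ hw1)) (U.smul_mem _ hw2), ?_⟩
  rw [hc, adjM_add, adjM_add, adjM_smul, adjM_smul, adjM_smul, adjM_one, pow_two, adjM_mul, map_add,
    map_add, map_smul, map_smul, map_smul, e2, e1, Tm_self D.hv D.nv]

/-- The average belongs to the algebra. -/
theorem Frs.av_mem (D : Frs ρ σ lam g U v x) (R : Rel ρ σ lam g s) {y : AlbL E a b c}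
    (hy : y ∈ U) : ∃ w ∈ U, Tm v w = av ρ σ lam g (Tm v y) := by
  obtain ⟨y1, hy1, e1⟩ := D.psi_mem hy
  obtain ⟨y2, hy2, e2⟩ := D.psi_mem hy1
  have h3 : y + y1 + y2 ∈ U := U.add_mem (U.add_mem hy hy1) hy2
  obtain ⟨w, hw, e3⟩ := D.adjM_mem' R.σg h3
  refine ⟨(6 : E)⁻¹ • ((y + y1 + y2) + w), U.smul_mem _ (U.add_mem h3 hw), ?_⟩
  rw [av, map_smul, map_add, e3, map_add, map_add, e2, e1]

end semi

end Vale.Agent.P011.E6W.H619
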