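import Vale.Agent.P011.E6W.H619.Lim
import Vale.Agent.P011.E6W.H619.Avg
import Vale.Agent.P011.E6W.H183.VZ
import Vale.Agent.P011.E6I.H493.Dim

/-!
Block E6W (helper619): limits of matrices over the quaternions.
-/

open Filter Topology

set_option linter.unusedSectionVars false

namespace Vale.Agent.P011.E6W.H619

open Vale.Agent.P011.MPQ hiding mat
open Vale.Agent.P011.D4 Vale.Agent.P011.D4.Oct Vale.Agent.P011.E6 Alb
open Vale.Agent.P011.D4W
open Vale.Agent.P011.E6O
open Vale.Agent.P011.E6I (MQ toMQ toMQ_apply toMQ_mul toMQ_one InVs cub_of_inV)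
open Vale.Agent.P011.E6I.Gn (Tm Tm_apply Tm_mul Tm_self Tm_inj Tm_cancel Tm_sq Tm_cube inV_ext
  inV_add inV_smul inV_adj inV_cross mat_mul_adj mat_adj_mul)
open Vale.Agent.P011.E6W.H183
open Matrix

section gen

variable {E X : Type} [Field E] {U U' : Type} [AddCommGroup U] [Module E U]
  [AddCommGroup U'] [Module E U'] {S : Set (AbsoluteValue E ℝ)} {F : Filter X}
  {f : X → U} {u : U}

/-- Application of a convergent family of linear maps. -/
theorem AV.app [Module.Finite E U] {h : X → U →ₗ[E] U'} {h0 : U →ₗ[E] U'}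
    (hh : ∀ y, AV S F (fun v => h v y) (h0 y)) (hf : AV S F f u) :
    AV S F (fun v => h v (f v)) (h0 u) := by
  intro φ
  let b := Module.finBasis E U
  have e : ∀ (L : U →ₗ[E] U') (y : U), φ (L y) = ∑ i, b.repr y i * φ (L (b i)) := by
    intro L y
    conv_lhs => rw [← b.sum_repr y]
    simp only [map_sum, map_smul, smul_eq_mul]
  exact (AE_sum _ fun i _ => (hf.coord b i).mul (hh (b i) φ)).congr
    (fun v => (e (h v) (f v)).symm) (e h0 u).symm

/-- A linear map which is injective on a subspace reflects the limits. -/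
theorem AV.of_inj (L : U →ₗ[E] U') {V : Submodule E U} (hL : ∀ y ∈ V, L y = 0 → y = 0)
    (hV : ∀ᶠ v in F, f v ∈ V) (hu : u ∈ V) (hf : AV S F (fun v => L (f v)) (L u)) :
    AV S F f u := by
  obtain ⟨r, hr⟩ := (L.comp V.subtype).exists_leftInverse_of_injective (by
    rw [LinearMap.ker_eq_bot']
    intro y hy
    exact Subtype.ext (hL y y.2 hy))
  have h1 : ∀ y ∈ V, V.subtype (r (L y)) = y := by
    intro y hy
    exact congrArg V.subtype (LinearMap.congr_fun hr ⟨y, hy⟩)
  have h2 := hf.map (V.subtype.comp r)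
  rw [LinearMap.comp_apply, h1 u hu] at h2
  refine h2.congr' ?_
  filter_upwards [hV] with v hv
  exact h1 _ hv

variable {R : Type} [Ring R] [Algebra E R] [Module.Finite E R]

theorem AV.mul {f g : X → R} {u u' : R} (hf : AV S F f u) (hg : AV S F g u') :
    AV S F (fun v => f v * g v) (u * u') :=
  AV.bilin (LinearMap.mul E R) hf hg

theorem AV.pow {f : X → R} {u : R} (hf : AV S F f u) (n : ℕ) :
    AV S F (fun v => f v ^ n) (u ^ n) := by
  induction n with
  | zero => exact (AV.const S F 1).congr (fun v => (pow_zero _).symm) (pow_zero _).symm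
  | succ n ih => exact (ih.mul hf).congr (fun v => (pow_succ _ _).symm) (pow_succ _ _).symm

/-- The inverses converge. -/
theorem AV.inv (hne : S.Nonempty) {f g : X → R} {u u' : R} (hf : AV S F f u) (h1 : u * u' = 1)
    (h2 : u' * u = 1) (hg : ∀ᶠ v in F, f v * g v = 1) : AV S F g u' := by
  obtain ⟨A0, hA0⟩ : ∃ A0 : R ≃ₗ[E] R, ∀ y, A0 y = u * y :=
    ⟨LinearEquiv.ofLinearMap (LinearMap.mulLeft E u) (LinearMap.mulLeft E u')
      (LinearMap.ext fun y => by
        simp only [LinearMap.comp_apply, LinearMap.mulLeft_apply, LinearMap.id_apply, ← mul_assoc,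
          h1, one_mul])
      (LinearMap.ext fun y => by
        simp only [LinearMap.comp_apply, LinearMap.mulLeft_apply, LinearMap.id_apply, ← mul_assoc,
          h2, one_mul]), fun y => rfl⟩
  have hA : ∀ y, AV S F (fun v => LinearMap.mulLeft E (f v) y) (A0 y) := by
    intro y
    rw [hA0]
    exact hf.mul (AV.const S F y)
  obtain ⟨-, h3⟩ := AV.solve hne A0 hA
  refine h3 g u' ?_
  rw [hA0, h1]
  refine (AV.const S F (1 : R)).congr' ?_
  filter_upwards [hg] with v hv
  exact hv.symm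

/-- The cubic polynomials. -/
theorem ez_lim {z : X → R} {z0 : R} (hz : AV S F z z0) {t : X → Fin 3 → E} {t0 : Fin 3 → E}
    (ht : ∀ i, AE S F (fun v => t v i) (t0 i)) :
    AV S F (fun v => ez (z v) (t v)) (ez z0 t0) :=
  (((AV.const S F (1 : R)).smul (ht 0)).add (hz.smul (ht 1))).add ((hz.pow 2).smul (ht 2))

theorem lin3 {z : R} (h : ∀ t : Fin 3 → E, ez z t = 0 → t = 0) :
    LinearIndependent E (fun i : Fin 3 => z ^ (i : ℕ)) := by
  rw [Fintype.linearIndependent_iff]
  intro t ht i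
  have h1 : ez z t = 0 := by
    rw [← ht, Fin.sum_univ_three]
    simp [ez]
  rw [h t h1]
  rfl

/-- Independence of the powers is an open condition. -/
theorem ez_ind (hne : S.Nonempty) {z : X → R} {z0 : R} (hz : AV S F z z0)
    (h : ∀ t : Fin 3 → E, ez z0 t = 0 → t = 0) :
    ∀ᶠ v in F, ∀ t : Fin 3 → E, ez (z v) t = 0 → t = 0 := by
  have h3 : ∀ i : Fin 3, AV S F (fun v => z v ^ (i : ℕ)) (z0 ^ (i : ℕ)) := fun i => hz.pow _
  have hl := lin3 h
  obtain ⟨h1, -⟩ := AV.indep (U := R) (S := S) (F := F) (n := 3) (e := fun i => z0 ^ (i : ℕ))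
    (f := fun (i : Fin 3) v => z v ^ (i : ℕ)) hne hl h3
  filter_upwards [h1] with v hv t ht
  have h2 := Fintype.linearIndependent_iff.1 hv t (by
    rw [Fin.sum_univ_three]
    simpa [ez] using ht)
  funext i
  exact h2 i

/-- The coefficients converge. -/
theorem ez_coef (hne : S.Nonempty) {z : X → R} {z0 : R} (hz : AV S F z z0)
    (h : ∀ t : Fin 3 → E, ez z0 t = 0 → t = 0) {t : X → Fin 3 → E} {t0 : Fin 3 → E}
    (ht : AV S F (fun v => ez (z v) (t v)) (ez z0 t0)) (i : Fin 3) :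
    AE S F (fun v => t v i) (t0 i) := by
  have h3 : ∀ i : Fin 3, AV S F (fun v => z v ^ (i : ℕ)) (z0 ^ (i : ℕ)) := fun i => hz.pow _
  have hl := lin3 h
  obtain ⟨-, h1⟩ := AV.indep (U := R) (S := S) (F := F) (n := 3) (e := fun i => z0 ^ (i : ℕ))
    (f := fun (i : Fin 3) v => z v ^ (i : ℕ)) hne hl h3
  refine h1 t t0 ?_ i
  refine ht.congr (fun v => ?_) ?_
  · rw [Fin.sum_univ_three]
    simp [ez]
  · rw [Fin.sum_univ_three]
    simp [ez]

end gen

section mq

variable {k E X : Type} [Field k] [Field E] [Algebra k E] {a b c : kˣ}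
  {S : Set (AbsoluteValue E ℝ)} {F : Filter X} {ρ σ : E ≃ₐ[k] E} {lam : Eˣ} {g : Fin 3 → Eˣ}

instance finQt {F' : Type} [Field F'] {a b : F'ˣ} : Module.Finite F' (Qt a b) := by
  apply Module.finite_of_finrank_pos
  rw [QuaternionAlgebra.finrank_eq_four]
  norm_num

variable {f : X → MQ E a b} {u : MQ E a b}

/-- The conjugate transpose as a linear map. -/
def ctL : MQ E a b →ₗ[E] MQ E a b where
  toFun m := mᴴ
  map_add' _ _ := Matrix.conjTranspose_add _ _
  map_smul' t m := H183.conj_smul t m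

theorem ctL_apply (m : MQ E a b) : ctL m = mᴴ := rfl

theorem AV.ct (hf : AV S F f u) : AV S F (fun v => (f v)ᴴ) uᴴ := by
  have h1 := hf.map ctL
  simp only [ctL_apply] at h1
  exact h1

theorem AV.adjM (hσ : Stb S σ) (hf : AV S F f u) :
    AV S F (fun v => adjM σ g (f v)) (H183.adjM σ g u) :=
  hf.semi hσ (H183.adjM σ g) adjM_add adjM_smul

theorem AV.psi (hρ : Stb S ρ) (hf : AV S F f u) :
    AV S F (fun v => psi ρ lam (f v)) (H619.psi ρ lam u) :=
  hf.semi hρ (H619.psi ρ lam) psi_add psi_smul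

theorem AV.av (hρ : Stb S ρ) (hσ : Stb S σ) (hf : AV S F f u) :
    AV S F (fun v => av ρ σ lam g (f v)) (H619.av ρ σ lam g u) := by
  have h1 := hf.psi (lam := lam) hρ
  have h2 := h1.psi (lam := lam) hρ
  have h3 := (hf.add h1).add h2
  exact (h3.add (h3.adjM (g := g) hσ)).smul (AE.const S F _)

/-- The matrix as a linear map. -/
def matL : AlbL E a b c →ₗ[E] MQ E a b where
  toFun := mat
  map_add' := H64.mat_add
  map_smul' := H64.mat_smul

theorem matL_apply (x : AlbL E a b c) : matL x = Alb.mat x := rfl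

theorem AV.mat {f : X → AlbL E a b c} {u : AlbL E a b c} (hf : AV S F f u) :
    AV S F (fun v => Alb.mat (f v)) (Alb.mat u) := by
  have h1 := hf.map matL
  simp only [matL_apply] at h1
  exact h1

theorem AV.of_mat {f : X → AlbL E a b c} {u : AlbL E a b c} (hV : ∀ᶠ v in F, InVs (f v))
    (hu : InVs u) (hf : AV S F (fun v => Alb.mat (f v)) (Alb.mat u)) : AV S F f u := by
  refine AV.of_inj matL (V := E6I.Vsub E a b c) ?_ hV hu hf
  intro y hy h0
  refine inV_ext hy (x := y) (y := 0) ⟨rfl, rfl, rfl⟩ ?_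
  have h1 : matL (0 : AlbL E a b c) = 0 := map_zero _
  exact h0.trans h1.symm

/-- A linear form on the quaternions. -/
def q0L (i : Fin 4) {F' : Type} [Field F'] {a b : F'ˣ} : Qt a b →ₗ[F'] F' where
  toFun q := ![q.re, q.imI, q.imJ, q.imK] i
  map_add' x y := by fin_cases i <;> rfl
  map_smul' t x := by fin_cases i <;> rfl

/-- The quaternion coordinates. -/
def xL (i : Fin 6) : AlbL E a b c →ₗ[E] Qt (up E a) (up E b) where
  toFun x := ![x.x1.fst, x.x1.snd, x.x2.fst, x.x2.snd, x.x3.fst, x.x3.snd] i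
  map_add' x y := by fin_cases i <;> rfl
  map_smul' t x := by fin_cases i <;> rfl

/-- The diagonal coordinates. -/
def dL (i : Fin 3) : AlbL E a b c →ₗ[E] E where
  toFun x := ![x.d1, x.d2, x.d3] i
  map_add' x y := by fin_cases i <;> rfl
  map_smul' t x := by fin_cases i <;> rfl

theorem AQ_of {f : X → AlbL E a b c} {u : AlbL E a b c} (hf : AV S F f u) (i : Fin 6) :
    AQ S F (fun v => xL i (f v)) (xL i u) :=
  ⟨hf ((q0L 0).comp (xL i)), hf ((q0L 1).comp (xL i)), hf ((q0L 2).comp (xL i)),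
    hf ((q0L 3).comp (xL i))⟩

/-- The cubic norm is continuous. -/
theorem cub_lim {f : X → AlbL E a b c} {u : AlbL E a b c} (hf : AV S F f u) :
    AE S F (fun v => cub (f v)) (cub u) := by
  have h1 : AE S F (fun v => (f v).d1) u.d1 := hf (dL 0)
  have h2 : AE S F (fun v => (f v).d2) u.d2 := hf (dL 1)
  have h3 : AE S F (fun v => (f v).d3) u.d3 := hf (dL 2)
  have o1 : AO S F (fun v => (f v).x1) u.x1 := ⟨AQ_of hf 0, AQ_of hf 1⟩
  have o2 : AO S F (fun v => (f v).x2) u.x2 := ⟨AQ_of hf 2, AQ_of hf 3⟩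
  have o3 : AO S F (fun v => (f v).x3) u.x3 := ⟨AQ_of hf 4, AQ_of hf 5⟩
  exact (((((h1.mul h2).mul h3).sub (h1.mul o1.norm)).sub (h2.mul o2.norm)).sub
    (h3.mul o3.norm)).add (((o1.mul o2).mul o3).bil (AO.const S F 1))

/-- The matrix inverse. -/
noncomputable def mi (v : AlbL E a b c) : MQ E a b := (cub v)⁻¹ • Alb.mat (adj v)

theorem mat_mul_mi {v : AlbL E a b c} (hv : InVs v) (h0 : cub v ≠ 0) :
    Alb.mat v * mi v = 1 := by
  rw [mi, Matrix.mul_smul, mat_mul_adj hv, smul_smul, inv_mul_cancel₀ h0, one_smul]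

theorem mi_mul_mat {v : AlbL E a b c} (hv : InVs v) (h0 : cub v ≠ 0) :
    mi v * Alb.mat v = 1 := by
  rw [mi, Matrix.smul_mul, mat_adj_mul hv, smul_smul, inv_mul_cancel₀ h0, one_smul]

theorem Tm_eq (v x : AlbL E a b c) : Tm v x = Alb.mat x * mi v := by
  rw [Tm_apply, mi, Matrix.mul_smul]

/-- The matrix inverses converge. -/
theorem mi_lim (hne : S.Nonempty) {f : X → AlbL E a b c} {u : AlbL E a b c} (hf : AV S F f u)
    (hV : ∀ᶠ v in F, InVs (f v)) (hu : InVs u) (h0 : cub u ≠ 0) :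
    AV S F (fun v => mi (f v)) (mi u) := by
  refine AV.inv hne hf.mat (mat_mul_mi hu h0) (mi_mul_mat hu h0) ?_
  filter_upwards [hV, (cub_lim hf).eventually_ne hne h0] with v h1 h2
  exact mat_mul_mi h1 h2

/-- The quotients converge. -/
theorem Tm_lim (hne : S.Nonempty) {f y : X → AlbL E a b c} {u w : AlbL E a b c}
    (hf : AV S F f u) (hy : AV S F y w) (hV : ∀ᶠ v in F, InVs (f v)) (hu : InVs u)
    (h0 : cub u ≠ 0) : AV S F (fun v => Tm (f v) (y v)) (Tm u w) := by
  simp only [Tm_eq]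
  exact hy.mat.mul (mi_lim hne hf hV hu h0)

end mq

end Vale.Agent.P011.E6W.H619
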