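import Vale.Agent.P011.E6W.H619.N3

/-!
Block E6W (helper619): the solution of the equations `y* S y = 1`, `l y ȳ = 1`.
-/

open NumberField IsDedekindDomain

set_option linter.unusedSectionVars false

namespace Vale.Agent.P011.E6W.H619

open Vale.Agent.P011.Arith Vale.Agent.P011.MPQ Vale.Agent.P011.One

variable {k D : Type} [Field k] [NumberField k] [DivisionRing D] [StarRing D] [Algebra k D]
    {F : Type} [Field F] [NumberField F] [Algebra k F]

section sol

variable {ι : F →ₐ[k] D} {d : F} {s : D} {bar : D → D} {α β : Fˣ} {i j : D} {φ : Qt α β →+* D}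
  (H : BarQ ι d s bar α β i j φ)

include H

/-- **The solution.** Only the signs of `m` at the real places at which the quaternion algebra is
definite matter. -/
theorem BarQ.exists_sol {S l : D} {a b m : F} (hS : S ∈ Cen ι) (hs : star S = S)
    (hl : l = ι a + s * ι b) (hn : S * bar S = l * star l)
    (hm : S + bar S + (l + star l) = ι m) (h0 : m ≠ 0)
    (hpos : ∀ ψ : F →+* ℝ, ψ α < 0 → ψ β < 0 → 0 < ψ m) :
    ∃ y ∈ Cen ι, star y * S * y = 1 ∧ l * (y * bar y) = 1 := by
  have hι := H.B.ι_mem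
  have hbS := H.B.mem _ hS
  have hlm : l ∈ Cen ι := by
    rw [hl]
    exact add_mem (hι _) (mul_mem H.B.s_mem (hι _))
  have hlc : ∀ x ∈ Cen ι, l * x = x * l := by
    intro x hx
    rw [hl, add_mul, mul_add, H.B.ιc hx, mul_assoc, H.B.ιc hx, ← mul_assoc, H.B.cs _ hx, mul_assoc]
  have hls := H.B.star_mem hlm
  have hbl : bar l = l := by
    rw [hl, H.B.add _ (hι _) _ (mul_mem H.B.s_mem (hι _)), H.B.mul _ H.B.s_mem _ (hι _), H.B.fix,
      H.B.fix, H.B.fs, H.B.ιs]
  obtain ⟨q, hq⟩ := D4.exists_nrd (a := α) (b := β) (Units.mk0 m h0)⁻¹ (fun ψ hα hβ => by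
    rw [Units.val_inv_eq_inv_val, Units.val_mk0, map_inv₀, inv_pos]
    exact hpos ψ hα hβ)
  rw [Units.val_inv_eq_inv_val, Units.val_mk0] at hq
  have e1 : φ q * φ (star q) = ι m⁻¹ := by rw [H.φ_mul_star, hq]
  have e2 : φ (star q) * φ q = ι m⁻¹ := by rw [H.star_φ_mul, hq]
  have e3 : ι m * ι m⁻¹ = 1 := by rw [← map_mul, mul_inv_cancel₀ h0, map_one]
  by_cases hl0 : l = 0
  · -- then `S = 0` and `m = 0`
    exfalso
    rw [hl0, zero_mul, mul_eq_zero] at hn
    have hS0 : S = 0 := by
      rcases hn with h | h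
      · exact h
      · by_contra hc
        exact H.B.bar_ne hS hc h
    rw [hl0, hS0, star_zero, ← map_zero ι, H.B.fix, map_zero, add_zero, add_zero] at hm
    exact h0 ((map_eq_zero ι).1 hm.symm)
  have hsl0 : star l ≠ 0 := by
    intro h
    rw [← star_star l, h, star_zero] at hl0
    exact hl0 rfl
  -- the element `x = l + S̄`, so that `x = l (1 + l⁻¹ S̄)`
  obtain ⟨x, hx⟩ : ∃ x, x = l + bar S := ⟨_, rfl⟩
  have hxm : x ∈ Cen ι := by
    rw [hx]
    exact add_mem hlm hbS
  have hbx : bar x = l + S := by rw [hx, H.B.add _ hlm _ hbS, hbl, H.B.inv _ hS]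
  have hli := H.B.inv_mem hlm
  have hlii : l⁻¹ * l = 1 := inv_mul_cancel₀ hl0
  have hlii' : l * l⁻¹ = 1 := mul_inv_cancel₀ hl0
  have hlic : ∀ y ∈ Cen ι, l⁻¹ * y = y * l⁻¹ := by
    intro y hy
    rw [← mul_right_inj' hl0, ← mul_assoc, hlii', one_mul, ← mul_assoc, hlc _ hy, mul_assoc,
      hlii', mul_one]
  -- `x* S = l* x̄`
  have hbs : star (bar S) = bar S := by rw [← H.B.st _ hS, hs]
  have hcomm := H.B.comm_bar hS
  have e4 : star x * S = star l * bar x := by
    rw [hbx, hx, star_add, hbs, add_mul, mul_add, ← hcomm, hn]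
    have h1 : l * star l = star l * l := hlc _ hls
    rw [h1]
    abel
  have e5 : bar x * x = l * ι m := by
    rw [hbx, hx, ← hm]
    calc (l + S) * (l + bar S) = l * l + (l * bar S + S * l) + S * bar S := by noncomm_ring
      _ = l * l + (l * bar S + l * S) + l * star l := by rw [hn, ← hlc _ hS]
      _ = _ := by noncomm_ring
  have e6 : star x * S * x = star l * l * ι m := by rw [e4, mul_assoc, e5, mul_assoc]
  have e7 : x * bar x = l * ι m := by rw [H.B.comm_bar hxm, e5]
  have hslc : star l⁻¹ * star l = 1 := by rw [← star_mul, hlii', star_one]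
  have hbli : bar l⁻¹ = l⁻¹ := by
    have h1 : bar (l⁻¹ * l) = 1 := by rw [hlii, H.B.one]
    rw [H.B.mul _ hli _ hlm, hbl] at h1
    exact eq_inv_of_mul_eq_one_right h1
  refine ⟨l⁻¹ * x * φ q, mul_mem (mul_mem hli hxm) (H.φm q), ?_, ?_⟩
  · rw [star_mul, star_mul, H.star_φ]
    calc φ (star q) * (star x * star l⁻¹) * S * (l⁻¹ * x * φ q)
        = φ (star q) * (star x * (star l⁻¹ * S) * l⁻¹ * x) * φ q := by simp only [mul_assoc]
      _ = φ (star q) * (star l⁻¹ * ((star x * S * x) * l⁻¹)) * φ q := by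
        have h1 : star l⁻¹ * S = S * star l⁻¹ := by
          have h2 := congrArg star (hlic S hS)
          rw [star_mul, star_mul, hs] at h2
          exact h2.symm
        have h3 : star x * star l⁻¹ = star l⁻¹ * star x := by
          have h2 := congrArg star (hlic x hxm)
          rw [star_mul, star_mul] at h2
          exact h2
        have h4 : l⁻¹ * x = x * l⁻¹ := hlic x hxm
        calc φ (star q) * (star x * (star l⁻¹ * S) * l⁻¹ * x) * φ q
            = φ (star q) * ((star x * star l⁻¹) * S * (l⁻¹ * x)) * φ q := by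
              simp only [mul_assoc]
          _ = _ := by
            rw [h3, h4]
            simp only [mul_assoc]
      _ = φ (star q) * ι m * φ q := by
        have h5 : l * ι m * l⁻¹ = ι m := by
          rw [hlc _ (hι m), mul_assoc, hlii', mul_one]
        rw [e6]
        calc φ (star q) * (star l⁻¹ * (star l * l * ι m * l⁻¹)) * φ q
            = φ (star q) * ((star l⁻¹ * star l) * (l * ι m * l⁻¹)) * φ q := by
              simp only [mul_assoc]
          _ = _ := by rw [hslc, one_mul, h5]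
      _ = ι m * (φ (star q) * φ q) := by rw [← H.B.ιc (H.φm _), mul_assoc]
      _ = 1 := by rw [e2, e3]
  · rw [H.B.mul _ (mul_mem hli hxm) _ (H.φm q), H.B.mul _ hli _ hxm, H.bar_φ, hbli]
    calc l * (l⁻¹ * x * φ q * (φ (star q) * (bar x * l⁻¹)))
        = (l * l⁻¹) * (x * (φ q * φ (star q)) * bar x) * l⁻¹ := by simp only [mul_assoc]
      _ = ι m⁻¹ * (x * bar x) * l⁻¹ := by
        rw [hlii', one_mul, e1, ← H.B.ιc hxm, mul_assoc (ι m⁻¹)]
      _ = ι m⁻¹ * ι m * (l * l⁻¹) := by
        rw [e7, hlc _ (hι m)]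
        simp only [mul_assoc]
      _ = 1 := by rw [hlii', mul_one, ← map_mul, inv_mul_cancel₀ h0, map_one]

end sol

end Vale.Agent.P011.E6W.H619
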