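import Vale.Agent.P011.E6W.H619.Key
import Vale.Agent.P011.E6W.H619.Sol
import Vale.Agent.P011.E6W.H183.BarW
import Vale.Agent.P011.E6W.Defs
import Vale.Agent.P011.T2.MaxSub

/-!
Block E6W (helper619): the elements of the group with a frame.
-/

open Module

set_option linter.unusedSectionVars false

namespace Vale.Agent.P011.E6W.H619

open Vale.Agent.P011.MPQ hiding mat
open Vale.Agent.P011.D4 Vale.Agent.P011.D4.Oct Vale.Agent.P011.E6 Alb
open Vale.Agent.P011.E6O
open Vale.Agent.P011.E6I (MQ toMQ toMQ_apply toMQ_mul toMQ_one InVs cub_of_inV)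
open Vale.Agent.P011.E6I.Gn (Tm Tm_apply Tm_mul Tm_self Tm_inj Tm_cancel Tm_sq Tm_cube inV_ext
  inV_add inV_smul inV_adj inV_cross mat_mul_adj mat_adj_mul)
open Vale.Agent.P011.E6W.H183
open Vale.Agent.P011.One (Cen mem_cen exists_qhom)
open Matrix

section cen

variable {K D : Type} [Field K] [DivisionRing D] [Algebra K D] [Algebra.IsCentral K D]
  [FiniteDimensional K D]

/-- The subalgebra spanned by the powers of a cubic element. -/
def ezA {z : D} {P2 P1 P0 : K} (H : Cub z P2 P1 P0) : Subalgebra K D where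
  carrier := Set.range (ez z : (Fin 3 → K) → D)
  mul_mem' := by
    rintro _ _ ⟨t, rfl⟩ ⟨t', rfl⟩
    obtain ⟨t'', h⟩ := H.mul t t'
    exact ⟨t'', h.symm⟩
  add_mem' := by
    rintro _ _ ⟨t, rfl⟩ ⟨t', rfl⟩
    exact ⟨t + t', ez_add t t'⟩
  algebraMap_mem' r := ⟨![r, 0, 0], by simp [ez, Algebra.algebraMap_eq_smul_one]⟩

/-- The centraliser of a cubic element of an algebra of degree six is not commutative. -/
theorem noncomm_cen (hD : finrank K D = 36) {z : D} {P2 P1 P0 : K} (H : Cub z P2 P1 P0) :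
    ∃ x y : D, x * z = z * x ∧ y * z = z * y ∧ x * y ≠ y * x := by
  by_contra hcon
  push Not at hcon
  obtain ⟨C, hC⟩ : ∃ C, C = Subalgebra.centralizer K (ezA H : Set D) := ⟨_, rfl⟩
  have hz : ∀ x ∈ C, x * z = z * x := by
    intro x hx
    rw [hC, Subalgebra.mem_centralizer_iff] at hx
    exact (hx z ⟨![0, 1, 0], ez_z⟩).symm
  have h1 := T2.finrank_centralizer (K := K) (ezA H)
  have h2 := T2.finrank_centralizer (K := K) C
  rw [← hC, hD] at h1
  rw [hD] at h2
  have h3 : finrank K C ≤ finrank K (Subalgebra.centralizer K (C : Set D)) := by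
    refine Submodule.finrank_mono (s := Subalgebra.toSubmodule C)
      (t := Subalgebra.toSubmodule (Subalgebra.centralizer K (C : Set D))) ?_
    intro x hx
    change x ∈ Subalgebra.centralizer K (C : Set D)
    rw [Subalgebra.mem_centralizer_iff]
    intro y hy
    exact hcon y x (hz y hy) (hz x hx)
  have h4 : finrank K (ezA H) ≤ 3 := by
    let L : (Fin 3 → K) →ₗ[K] D :=
      { toFun := ez z, map_add' := ez_add, map_smul' := ez_smul }
    have h5 : Subalgebra.toSubmodule (ezA H) = LinearMap.range L := by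
      ext x
      rfl
    have h6 := LinearMap.finrank_range_le L
    rw [← h5, finrank_fin_fun] at h6
    exact h6
  have h5 : 12 ≤ finrank K C := by
    by_contra h6
    push Not at h6
    have : finrank K (ezA H) * finrank K C ≤ 3 * 11 := Nat.mul_le_mul h4 (by omega)
    omega
  have h6 : 12 * 12 ≤ finrank K C * finrank K (Subalgebra.centralizer K (C : Set D)) :=
    Nat.mul_le_mul h5 (h5.trans h3)
  omega

end cen

section exact

variable {k E : Type} [Field k] [NumberField k] [Field E] [NumberField E] [Algebra k E]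
  {ρ σ : E ≃ₐ[k] E} {lam : Eˣ} {g : Fin 3 → Eˣ} {th s : E} {kap a b c : kˣ}
  {W : WH ρ σ lam g th s kap a b c}

/-- The centraliser of the cubic field is not commutative. -/
theorem cen_nc {F : Type} [Field F] [Algebra k F] {ι : F →ₐ[k] BW W} {x0 : F}
    {v : AlbL E a b c} (H : FrW W ι x0 v) : ∃ x ∈ Cen ι, ∃ y ∈ Cen ι, x * y ≠ y * x := by
  obtain ⟨p, hp⟩ := H.exists_rel
  have hc : Cub (ι x0) (algebraMap k (KW W) (p 2)) (algebraMap k (KW W) (p 1))
      (algebraMap k (KW W) (p 0)) := by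
    constructor
    · rw [← map_pow, hp, ez, map_add, map_add, map_smul, map_smul, map_smul, map_one, map_pow,
        algebraMap_smul, algebraMap_smul, algebraMap_smul]
      abel
    · intro t ht
      have h1 : ez (toW W (ι x0)) (fun i => algebraMap (KW W) E (t i)) = 0 := by
        have h2 := congrArg (toW W) ht
        rw [ez, map_add, map_add, toW_smul, toW_smul, toW_smul, map_one, map_pow, map_zero] at h2
        exact h2
      have h2 := H.indE _ h1
      funext i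
      exact (map_eq_zero (algebraMap (KW W) E)).1 (congrFun h2 i)
  have hD : finrank (KW W) (BW W) = 36 := finrank_BB W.HI
  obtain ⟨x, y, hx, hy, hxy⟩ := noncomm_cen hD hc
  refine ⟨x, H.mem_iff.2 ?_, y, H.mem_iff.2 ?_, hxy⟩
  · rw [← map_mul, hx, map_mul]
  · rw [← map_mul, hy, map_mul]

/-- The element whose signs matter. -/
noncomputable def MM (σ : E ≃ₐ[k] E) (g : Fin 3 → Eˣ) (v : AlbL E a b c) (m l : MQ E a b) :
    MQ E a b :=
  adjM σ g m * m + barM v (adjM σ g m * m) + (l + adjM σ g l)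

/-- **The elements of the group with a frame.** -/
theorem mem_of_frame (W : WH ρ σ lam g th s kap a b c) (hSq : SqRes ρ σ lam g a b c)
    {h : AlbL E a b c ≃ₗ[E] AlbL E a b c} (hh : h ∈ GO ρ σ lam g a b c)
    {U : Submodule E (AlbL E a b c)} {v x : AlbL E a b c} (D : Frs ρ σ lam g U v x)
    (hV : ∀ y ∈ U, InVs (h y)) (hD : InD ρ lam (Tm v x)) (hs : adjM σ g (Tm v x) = Tm v x)
    {m0 : (MQ E a b)ˣ} (hm0 : InD ρ lam (m0 : MQ E a b))
    (hm : (m0 : MQ E a b) * Tm v x = Tm (h v) (h x) * (m0 : MQ E a b))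
    (hsgn : ∀ w ∈ U, act m0 1 v = h w → ∀ t p : Fin 3 → k,
      Tm v x ^ 3 = ez (Tm v x) (fun i => algebraMap k E (p i)) →
      MM σ g v (m0 : MQ E a b) (Tm v w) = ez (Tm v x) (fun i => algebraMap k E (t i)) →
      t ≠ 0 ∧ ∀ (τ : k →+* ℝ) (ζ : ℝ), ζ ^ 3 = τ (p 2) * ζ ^ 2 + τ (p 1) * ζ + τ (p 0) →
        0 < τ (t 0) + τ (t 1) * ζ + τ (t 2) * ζ ^ 2)
    (hB : ∀ d ∈ GO ρ σ lam g a b c, (∀ y ∈ U, d y = y) → d ∈ Res ρ σ lam g a b c) :
    h ∈ Res ρ σ lam g a b c := by
  obtain ⟨hh1, hh2, hh3⟩ := hh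
  have hpol : ∀ y, h (H183.pol σ g y) = H183.pol σ g (h y) := fun y => map_pol W.rel.σ2 hh1 hh3 y
  have D' := D.toFr.map hh1 hV
  have hz := D.toFr.herm
  -- the cubic relation over `k`
  obtain ⟨P2, P1, P0, hP⟩ : ∃ P2 P1 P0 : E, Tm v x ^ 3 = P2 • Tm v x ^ 2 + P1 • Tm v x +
      P0 • (1 : MQ E a b) := ⟨_, _, _, D.cube⟩
  obtain ⟨⟨f2, f1, f0⟩, g2, g1, g0⟩ := coef_fix W.rel hD hs hP D.ind
  obtain ⟨p2, hp2⟩ := exists_kW W f2 g2
  obtain ⟨p1, hp1⟩ := exists_kW W f1 g1
  obtain ⟨p0, hp0⟩ := exists_kW W f0 g0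
  obtain ⟨p, hpe⟩ : ∃ p : Fin 3 → k, p = ![p0, p1, p2] := ⟨_, rfl⟩
  have hp : Tm v x ^ 3 = ez (Tm v x) (fun i => algebraMap k E (p i)) := by
    rw [hP, ez, hpe]
    change _ = algebraMap k E p0 • 1 + algebraMap k E p1 • Tm v x + algebraMap k E p2 • Tm v x ^ 2
    rw [hp0, hp1, hp2]
    abel
  have hk : ∀ t : Fin 3 → k, ez (Tm v x) (fun i => algebraMap k E (t i)) = 0 → t = 0 := by
    intro t ht
    obtain ⟨e0, e1, e2⟩ := D.ind _ _ _ ht
    funext i
    fin_cases i
    · exact (map_eq_zero _).1 e0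
    · exact (map_eq_zero _).1 e1
    · exact (map_eq_zero _).1 e2
  obtain ⟨F, _, _, _, ι, x0, H, hx0, -⟩ := exists_frW (W := W) hD hs D.hv D.nv hz hp hk
  -- the image frame
  have hpx : x0 ^ 3 = ez x0 p := by
    apply ι.toRingHom.injective
    apply toW_injective W
    change toW W (ι (x0 ^ 3)) = toW W (ι (ez x0 p))
    rw [toW_ez, map_pow, map_pow, hx0, hp]
  have hcub := H.cub hpx
  rw [hx0] at hcub
  have hrel' := D.toFr.cube_map hh1 hV hcub.rel
  have hcub' : Cub (Tm (h v) (h x)) (algebraMap k E (p 2)) (algebraMap k E (p 1))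
      (algebraMap k E (p 0)) := by
    refine ⟨hrel', fun t ht => ?_⟩
    obtain ⟨e0, e1, e2⟩ := D'.ind _ _ _ ht
    funext i
    fin_cases i
    · exact e0
    · exact e1
    · exact e2
  have hconj : ∀ t : Fin 3 → E, ez (Tm (h v) (h x)) t =
      (m0 : MQ E a b) * ez (Tm v x) t * ((m0⁻¹ : (MQ E a b)ˣ) : MQ E a b) := by
    intro t
    have e1 : (m0 : MQ E a b) * Tm v x ^ 2 = Tm (h v) (h x) ^ 2 * (m0 : MQ E a b) := by
      rw [pow_two, pow_two, ← Matrix.mul_assoc, hm, Matrix.mul_assoc, hm, Matrix.mul_assoc]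
    have e2 : (m0 : MQ E a b) * ez (Tm v x) t = ez (Tm (h v) (h x)) t * (m0 : MQ E a b) := by
      rw [ez, ez, Matrix.mul_add, Matrix.mul_add, Matrix.add_mul, Matrix.add_mul,
        Matrix.mul_smul, Matrix.mul_smul, Matrix.mul_smul, Matrix.smul_mul, Matrix.smul_mul,
        Matrix.smul_mul, e1, hm, Matrix.mul_one, Matrix.one_mul]
    rw [e2, Matrix.mul_assoc, Units.mul_inv, Matrix.mul_one]
  have hu' : IsUnit (ez (Tm (h v) (h x)) ![-algebraMap k E (p 1), -(2 * algebraMap k E (p 2)),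
      3]) := by
    rw [hconj]
    have h1 := H.unit p
    rw [hx0] at h1
    exact (m0.isUnit.mul h1).mul (m0⁻¹).isUnit
  -- the element `w`
  have hzy : Tm (h v) (h x) * mat (act m0 1 v) = mat (act m0 1 v) * (Tm (h v) (h x))ᴴ := by
    rw [E6.mat_act]
    calc _ = (Tm (h v) (h x) * (m0 : MQ E a b)) * mat v * (m0 : MQ E a b)ᴴ := by
          simp only [Matrix.mul_assoc]
      _ = (m0 : MQ E a b) * (Tm v x * mat v) * (m0 : MQ E a b)ᴴ := by
          rw [← hm]
          simp only [Matrix.mul_assoc]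
      _ = (m0 : MQ E a b) * mat v * ((m0 : MQ E a b) * Tm v x)ᴴ := by
          rw [hz, Matrix.conjTranspose_mul]
          simp only [Matrix.mul_assoc]
      _ = _ := by
          rw [hm, Matrix.conjTranspose_mul]
          simp only [Matrix.mul_assoc]
  have hiy : InVs (act m0 1 v) := E6I.Gn.inV_act D.hv _ _
  obtain ⟨t, ht⟩ := vz D'.hv D'.nv D'.herm hcub' hu' hiy hzy
  obtain ⟨w, hw⟩ : ∃ w, w = t 0 • v + t 1 • x + t 2 • sqv v x := ⟨_, rfl⟩
  have hwU : w ∈ U := by
    rw [hw]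
    exact D.comb_mem _ _ _
  have hact : act m0 1 v = h w := by
    refine inV_ext hiy (hV _ hwU) ?_
    rw [ht, ← Tm_mul D'.hv D'.nv (h w), hw, D.toFr.comb_map hh1 hV]
    rfl
  have hlD := D.psi_l hh1 hV hh2 hm0 hm hwU hact
  have hs' : adjM σ g (Tm (h v) (h x)) = Tm (h v) (h x) :=
    D.adjM_map W.rel.σg hh1 hV hpol hs
  obtain ⟨hSc, hSn⟩ := D.key (H64.aniso_of_division W.hdiv) W.rel.σg hh1 hV hpol hs hs' hm hwU hact
  -- the elements of the algebra
  have hmS : InD ρ lam (adjM σ g (m0 : MQ E a b)) := inD_adjM W.rel hm0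
  have hSD : InD ρ lam (adjM σ g (m0 : MQ E a b) * (m0 : MQ E a b)) := hmS.mul hm0
  obtain ⟨M0, hM0⟩ : ∃ M0 : BW W, toW W M0 = (m0 : MQ E a b) := ⟨ofW W hm0, rfl⟩
  obtain ⟨l, hl⟩ : ∃ l : BW W, toW W l = Tm v w := ⟨ofW W hlD, rfl⟩
  have hSt : toW W (star M0 * M0) = adjM σ g (m0 : MQ E a b) * (m0 : MQ E a b) := by
    rw [map_mul, toW_star, hM0]
  have hSm : star M0 * M0 ∈ Cen ι := by
    rw [H.mem_iff, hSt, hx0]
    exact hSc
  have hSs : star (star M0 * M0) = star M0 * M0 := by rw [star_mul, star_star]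
  -- the element `l`
  obtain ⟨d0, d1, d2, hd⟩ := D.span hwU
  have hle : Tm v w = ez (toW W (ι x0)) ![d0, d1, d2] := by
    rw [hd, hx0]
    rfl
  obtain ⟨pl, rl, hpr⟩ := H.desc (by rw [← hle]; exact hlD)
  have hl2 : l = ι (ez x0 pl) + algebraMap (KW W) (BW W) (thK W) * ι (ez x0 rl) := by
    apply toW_injective W
    rw [hl, hle, map_add, map_mul, toW_ez, toW_ez, toW_algebraMap, smul_mul_assoc,
      one_mul, algebraMap_thK, ← ez_smul, ← ez_add]
    congr 1
    funext i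
    exact hpr i
  have hB' := H.bar
  -- the norm of `S`
  have hn : (star M0 * M0) * barW W v (star M0 * M0) = l * star l := by
    apply toW_injective W
    rw [map_mul, map_mul (toW W) l, H.toW_bar hSm, toW_star, hSt, hl]
    apply H619.mat_cancel D.hv D.nv
    rw [Matrix.mul_assoc, barM_mul D.hv D.nv, ← Matrix.mul_assoc]
    exact hSn
  -- the trace of `S`
  have hkap : algebraMap k F kap ≠ 0 := (map_ne_zero _).2 kap.ne_zero
  obtain ⟨q, r, hqr⟩ := hB'.tr _ hSm
  have hbs : star (barW W v (star M0 * M0)) = barW W v (star M0 * M0) := by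
    rw [← hB'.st _ hSm, hSs]
  have hq := hB'.of_sym hkap hqr (by rw [star_add, hSs, hbs])
  have hls : l + star l = ι (2 * ez x0 pl) := by
    rw [hl2, star_add, star_mul, hB'.sym, hB'.sym, hB'.star_s, map_mul, map_ofNat, mul_neg, hB'.ιs,
      two_mul]
    abel
  obtain ⟨m, hme⟩ : ∃ m, m = q + 2 * ez x0 pl := ⟨_, rfl⟩
  have hmm : star M0 * M0 + barW W v (star M0 * M0) + (l + star l) = ι m := by
    rw [hq, hls, hme, map_add]
  obtain ⟨tm, htm⟩ := H.gen m
  have hMM : MM σ g v (m0 : MQ E a b) (Tm v w) = ez (Tm v x) (fun i => algebraMap k E (tm i)) := by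
    have h1 := congrArg (toW W) hmm
    rw [map_add, map_add, map_add, H.toW_bar hSm, toW_star, hSt, hl, htm, toW_ez, hx0] at h1
    exact h1
  obtain ⟨ht0, hpos⟩ := hsgn w hwU hact tm p hp hMM
  have hm00 : m ≠ 0 := by
    rw [htm]
    intro h0
    exact ht0 (H.ind _ h0)
  -- the quaternion algebra
  obtain ⟨α, β, i, j, hfr, hbi, hbj⟩ := hB'.exists_QFr hkap (cen_nc H)
  obtain ⟨φ, hφ⟩ := exists_qhom hfr
  have HQ : BarQ ι (algebraMap k F kap) (algebraMap (KW W) (BW W) (thK W)) (barW W v) α β i j φ :=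
    ⟨hB', hfr, hbi, hbj, hkap, hφ⟩
  obtain ⟨y, hy, hy1, hy2⟩ := HQ.exists_sol hSm hSs hl2 hn hmm hm00 (fun ψ _ _ => by
    have h1 := hpos (ψ.comp (algebraMap k F)) (ψ x0) (by
      have h2 := congrArg ψ hpx
      rw [map_pow, ez, map_add, map_add, Algebra.smul_def, Algebra.smul_def, Algebra.smul_def,
        mul_one, map_mul, map_mul, map_pow] at h2
      rw [h2]
      change _ = ψ (algebraMap k F (p 2)) * ψ x0 ^ 2 + ψ (algebraMap k F (p 1)) * ψ x0 +
        ψ (algebraMap k F (p 0))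
      ring)
    have h3 : ψ m = (ψ.comp (algebraMap k F)) (tm 0) + (ψ.comp (algebraMap k F)) (tm 1) * ψ x0 +
        (ψ.comp (algebraMap k F)) (tm 2) * ψ x0 ^ 2 := by
      rw [htm, ez, map_add, map_add, Algebra.smul_def, Algebra.smul_def, Algebra.smul_def,
        mul_one, map_mul, map_mul, map_pow]
      rfl
    rw [h3]
    exact h1)
  -- the final element
  have hM00 : M0 ≠ 0 := by
    rintro rfl
    rw [map_zero] at hM0
    have h1 : (m0 : MQ E a b) * ((m0⁻¹ : (MQ E a b)ˣ) : MQ E a b) = 1 := Units.mul_inv _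
    rw [← hM0, Matrix.zero_mul] at h1
    exact zero_ne_one h1
  have hy0 : y ≠ 0 := by
    rintro rfl
    rw [mul_zero] at hy1
    exact zero_ne_one hy1
  obtain ⟨m1, hm1⟩ : ∃ m1 : (MQ E a b)ˣ, (m1 : MQ E a b) = toW W (M0 * y) :=
    ⟨⟨toW W (M0 * y), toW W (M0 * y)⁻¹, by
      rw [← map_mul, mul_inv_cancel₀ (mul_ne_zero hM00 hy0), map_one], by
      rw [← map_mul, inv_mul_cancel₀ (mul_ne_zero hM00 hy0), map_one]⟩, rfl⟩
  have c1 : InD ρ lam (m1 : MQ E a b) := by
    rw [hm1]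
    exact inD_toW W _
  have c2 : adjM σ g (m1 : MQ E a b) * (m1 : MQ E a b) = 1 := by
    rw [hm1, ← toW_star, ← map_mul, star_mul]
    have : star y * star M0 * (M0 * y) = 1 := by
      rw [← hy1]
      simp only [mul_assoc]
    rw [this, map_one]
  have hyc := H.mem_iff.1 hy
  rw [hx0] at hyc
  have c3 : (m1 : MQ E a b) * Tm v x = Tm (h v) (h x) * (m1 : MQ E a b) := by
    rw [hm1, map_mul, hM0, Matrix.mul_assoc, hyc, ← Matrix.mul_assoc, hm, Matrix.mul_assoc]
  have c4 : (m1 : MQ E a b) * mat v * (m1 : MQ E a b)ᴴ = mat (h v) := by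
    -- `y v yᴴ = (y ȳ) v` and `l (y ȳ) = 1`
    have e1 : toW W y * mat v * (toW W y)ᴴ = toW W (y * barW W v y) * mat v := by
      rw [map_mul, H.toW_bar hy, Matrix.mul_assoc (toW W y) (barM v (toW W y)),
        barM_mul D.hv D.nv, ← Matrix.mul_assoc]
    have e2 : (m0 : MQ E a b) * mat v * (m0 : MQ E a b)ᴴ = Tm (h v) (h w) * mat (h v) := by
      rw [← E6.mat_act m0 1, hact, Tm_mul D'.hv D'.nv]
    -- the inverse of `l`
    have hl0 : l ≠ 0 := by
      rintro rfl
      rw [zero_mul] at hy2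
      exact zero_ne_one hy2
    have e3 : y * barW W v y = l⁻¹ := eq_inv_of_mul_eq_one_right hy2
    -- `l⁻¹ v` belongs to the frame
    obtain ⟨u, hu, hul⟩ : ∃ u ∈ U, Tm v u * Tm v w = 1 := by
      have hw0 : cub w ≠ 0 := by
        rw [← hh1, ← hact, cub_act_one (H64.aniso_of_division W.hdiv) m0 D.hv]
        exact mul_ne_zero (nu_ne_zero (H64.aniso_of_division W.hdiv) m0) D.nv
      obtain ⟨u, hu, hu'⟩ := D.div hwU hw0 D.mv
      exact ⟨u, hu, by rw [hu', Tm_self D.hv D.nv]⟩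
    have e4 : toW W l⁻¹ = Tm v u := by
      have h1 : toW W l⁻¹ * Tm v w = 1 := by
        rw [← hl, ← map_mul, inv_mul_cancel₀ hl0, map_one]
      have h2 : Tm v w * toW W l⁻¹ = 1 := by
        rw [← hl, ← map_mul, mul_inv_cancel₀ hl0, map_one]
      calc toW W l⁻¹ = (Tm v u * Tm v w) * toW W l⁻¹ := by rw [hul, Matrix.one_mul]
        _ = _ := by rw [Matrix.mul_assoc, h2, Matrix.mul_one]
    have e5 : Tm (h v) (h u) * Tm (h v) (h w) = 1 := by
      have h1 : Tm v u * mat w = mat v := by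
        rw [← Tm_mul D.hv D.nv w, ← Matrix.mul_assoc, hul, Matrix.one_mul]
      have h2 := D.toFr.mulrel' hh1 hV hu hwU D.mv h1
      apply H619.mat_cancel D'.hv D'.nv
      rw [Matrix.mul_assoc, Tm_mul D'.hv D'.nv, h2, Matrix.one_mul]
    have e6 : (m0 : MQ E a b) * Tm v u = Tm (h v) (h u) * (m0 : MQ E a b) :=
      D.toFr.intw hh1 hV hm hu
    rw [hm1, map_mul, hM0, Matrix.conjTranspose_mul]
    calc _ = (m0 : MQ E a b) * (toW W y * mat v * (toW W y)ᴴ) * (m0 : MQ E a b)ᴴ := by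
          simp only [Matrix.mul_assoc]
      _ = ((m0 : MQ E a b) * Tm v u) * mat v * (m0 : MQ E a b)ᴴ := by
          rw [e1, e3, e4]
          simp only [Matrix.mul_assoc]
      _ = Tm (h v) (h u) * ((m0 : MQ E a b) * mat v * (m0 : MQ E a b)ᴴ) := by
          rw [e6]
          simp only [Matrix.mul_assoc]
      _ = _ := by rw [e2, ← Matrix.mul_assoc, e5, Matrix.one_mul]
  have c5 : nu (m1 : MQ E a b) = 1 := by
    have h1 : cub (act m1 1 v) = nu (m1 : MQ E a b) * cub v := cub_act_one (H64.aniso_of_division W.hdiv) m1 D.hv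
    have h2 : act m1 1 v = h v := by
      refine inV_ext (E6I.Gn.inV_act D.hv _ _) D'.hv ?_
      rw [E6.mat_act, c4]
    rw [h2, hh1] at h1
    exact mul_right_cancel₀ D.nv (by rw [← h1, one_mul])
  -- the conclusion
  obtain ⟨φ1, hφ1⟩ : ∃ φ1 : AlbL E a b c ≃ₗ[E] AlbL E a b c, ∀ y, φ1 y = act m1 1 y :=
    ⟨H64.actL two_ne_zero m1 1, fun y => by rw [H64.actL_apply, Units.val_one]⟩
  have hφR := hSq m1 c1 c2 c5 φ1 hφ1
  have hφG : φ1 ∈ GO ρ σ lam g a b c := by
    obtain ⟨ψ, -, hψ⟩ := hφR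
    rw [← hψ]
    exact ψ.2
  have hd : φ1⁻¹ * h ∈ Res ρ σ lam g a b c := by
    refine hB _ (mul_mem (inv_mem hφG) ⟨hh1, hh2, hh3⟩) ?_
    intro y hy
    have h1 : φ1 y = h y := by
      rw [hφ1]
      exact D.toFr.agree hh1 hV c3 c4 hy
    change φ1⁻¹ (h y) = y
    rw [← h1, ← LinearEquiv.mul_apply, inv_mul_cancel]
    rfl
  have e : h = φ1 * (φ1⁻¹ * h) := by rw [mul_inv_cancel_left]
  rw [e]
  exact mul_mem hφR hd

end exact

end Vale.Agent.P011.E6W.H619
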