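import Vale.Agent.P011.E6I.Gen5
import Vale.Agent.P011.E6I.H493.Clo

/-!
Block E6W (helper619): subspaces of dimension three of the hermitian matrices, spanned by the
powers of an element.
-/

set_option linter.unusedSectionVars false

namespace Vale.Agent.P011.E6W.H619

open Vale.Agent.P011.MPQ hiding mat
open Vale.Agent.P011.D4 Vale.Agent.P011.D4.Oct Vale.Agent.P011.E6 Alb
open Vale.Agent.P011.E6I (MQ toMQ InVs)
open Vale.Agent.P011.E6I.Gn
open Matrix

section fr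

variable {F : Type} [Field F] {a b c : Fˣ}

/-- The powers of the quotient `x v⁻¹` span the subspace `U v⁻¹`. -/
structure Fr (U : Submodule F (Alb a b c)) (v x : Alb a b c) : Prop where
  /-- hermitian matrices over the quaternions -/
  inV : ∀ x ∈ U, InVs x
  /-- closure -/
  cr : ∀ x ∈ U, ∀ y ∈ U, cross (adj x) (adj y) ∈ U
  /-- base point -/
  mv : v ∈ U
  /-- base point -/
  nv : cub v ≠ 0
  /-- generator -/
  mx : x ∈ U
  /-- generator -/
  nx : cub x ≠ 0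
  /-- dimension -/
  dim : Module.finrank F U = 3
  /-- independence -/
  ind : ∀ c0 c1 c2 : F, c0 • (1 : Matrix (Fin 3) (Fin 3) (Qt a b)) + c1 • Tm v x +
    c2 • Tm v x ^ 2 = 0 → c0 = 0 ∧ c1 = 0 ∧ c2 = 0

variable {U : Submodule F (Alb a b c)} {v x : Alb a b c}

/-- The square. -/
def sqv (v x : Alb a b c) : Alb a b c := (cub v)⁻¹ • (tf x (adj v) • x - cross (adj x) (adj v))

variable (D : Fr U v x)

include D

theorem Fr.hv : InVs v := D.inV _ D.mv

theorem Fr.hx : InVs x := D.inV _ D.mx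

theorem Fr.sqv_mem : sqv v x ∈ U :=
  U.smul_mem _ (U.sub_mem (U.smul_mem _ D.mx) (D.cr x D.mx v D.mv))

variable [NeZero (2 : F)]

theorem Fr.sq : Tm v (sqv v x) = Tm v x ^ 2 := (Tm_sq D.hv D.hx D.nx).symm

theorem Fr.cube : Tm v x ^ 3 = ((cub v)⁻¹ * tf x (adj v)) • Tm v x ^ 2 +
      (-((cub v)⁻¹ * tf v (adj x))) • Tm v x + ((cub v)⁻¹ * cub x) •
        (1 : Matrix (Fin 3) (Fin 3) (Qt a b)) := Tm_cube D.hv D.nv D.hx D.nx

/-- The combinations. -/
theorem Fr.comb (c0 c1 c2 : F) : Tm v (c0 • v + c1 • x + c2 • sqv v x) =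
    c0 • (1 : Matrix (Fin 3) (Fin 3) (Qt a b)) + c1 • Tm v x + c2 • Tm v x ^ 2 := by
  rw [map_add, map_add, map_smul, map_smul, map_smul, D.sq, Tm_self D.hv D.nv]

theorem Fr.comb_mem (c0 c1 c2 : F) : c0 • v + c1 • x + c2 • sqv v x ∈ U :=
  U.add_mem (U.add_mem (U.smul_mem _ D.mv) (U.smul_mem _ D.mx)) (U.smul_mem _ D.sqv_mem)

/-- The elements are combinations of the powers. -/
theorem Fr.exists_comb {y : Alb a b c} (hy : y ∈ U) : ∃ c0 c1 c2 : F,
    y = c0 • v + c1 • x + c2 • sqv v x := by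
  have hfin : Module.Finite F U := Module.finite_of_finrank_pos (by rw [D.dim]; norm_num)
  have hli : LinearIndependent F ![(⟨v, D.mv⟩ : U), ⟨x, D.mx⟩, ⟨sqv v x, D.sqv_mem⟩] := by
    rw [Fintype.linearIndependent_iff]
    intro g hg
    rw [Fin.sum_univ_three] at hg
    have h2 := congrArg (fun s : U => Tm v (s : Alb a b c)) hg
    have h3 : g 0 • (1 : Matrix (Fin 3) (Fin 3) (Qt a b)) + g 1 • Tm v x + g 2 • Tm v x ^ 2 = 0 := by
      rw [← D.comb]
      simpa using h2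
    obtain ⟨h4, h5, h6⟩ := D.ind _ _ _ h3
    intro i
    fin_cases i
    · exact h4
    · exact h5
    · exact h6
  have htop := hli.span_eq_top_of_card_eq_finrank' (by rw [D.dim]; rfl)
  have hmem : (⟨y, hy⟩ : U) ∈ Submodule.span F
      (Set.range ![(⟨v, D.mv⟩ : U), ⟨x, D.mx⟩, ⟨sqv v x, D.sqv_mem⟩]) := by
    rw [htop]
    exact Submodule.mem_top
  obtain ⟨g, hg⟩ := (Submodule.mem_span_range_iff_exists_fun F).mp hmem
  refine ⟨g 0, g 1, g 2, ?_⟩
  rw [Fin.sum_univ_three] at hg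
  exact (congrArg (fun s : U => (s : Alb a b c)) hg).symm

theorem Fr.span {y : Alb a b c} (hy : y ∈ U) : ∃ c0 c1 c2 : F,
    Tm v y = c0 • (1 : Matrix (Fin 3) (Fin 3) (Qt a b)) + c1 • Tm v x + c2 • Tm v x ^ 2 := by
  obtain ⟨c0, c1, c2, rfl⟩ := D.exists_comb hy
  exact ⟨c0, c1, c2, D.comb _ _ _⟩

/-- Products with the generator. -/
theorem Fr.mul_gen {z : Alb a b c} (hz : z ∈ U) : ∃ w ∈ U, Tm v w = Tm v x * Tm v z := by
  obtain ⟨c0, c1, c2, hc⟩ := D.span hz
  obtain ⟨P2, P1, P0, hcube⟩ : ∃ P2 P1 P0 : F, Tm v x ^ 3 = P2 • Tm v x ^ 2 + P1 • Tm v x +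
    P0 • (1 : Matrix (Fin 3) (Fin 3) (Qt a b)) := ⟨_, _, _, D.cube⟩
  refine ⟨_, D.comb_mem (c2 * P0) (c0 + c2 * P1) (c1 + c2 * P2), ?_⟩
  rw [D.comb, hc, Matrix.mul_add, Matrix.mul_add, Matrix.mul_smul, Matrix.mul_smul, Matrix.mul_smul,
    Matrix.mul_one, ← pow_succ', hcube, ← pow_two]
  module

/-- The quotients form an algebra. -/
theorem Fr.mul {y z : Alb a b c} (hy : y ∈ U) (hz : z ∈ U) :
    ∃ w ∈ U, Tm v w = Tm v y * Tm v z := by
  obtain ⟨c0, c1, c2, hc⟩ := D.span hy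
  obtain ⟨w1, hw1, hw1'⟩ := D.mul_gen hz
  obtain ⟨w2, hw2, hw2'⟩ := D.mul_gen hw1
  refine ⟨c0 • z + c1 • w1 + c2 • w2, U.add_mem (U.add_mem (U.smul_mem _ hz) (U.smul_mem _ hw1))
    (U.smul_mem _ hw2), ?_⟩
  rw [hc, Matrix.add_mul, Matrix.add_mul, Matrix.smul_mul, Matrix.smul_mul, Matrix.smul_mul,
    Matrix.one_mul, map_add, map_add, map_smul, map_smul, map_smul, hw2', hw1', pow_two,
    Matrix.mul_assoc]

theorem Fr.comm {y z : Alb a b c} (hy : y ∈ U) (hz : z ∈ U) :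
    Tm v y * Tm v z = Tm v z * Tm v y := by
  obtain ⟨c0, c1, c2, hc⟩ := D.span hy
  obtain ⟨d0, d1, d2, hd⟩ := D.span hz
  have e : Commute (Tm v x) (Tm v x) := Commute.refl _
  rw [hc, hd]
  have h1 : Commute (Tm v x) (d0 • (1 : Matrix (Fin 3) (Fin 3) (Qt a b)) + d1 • Tm v x +
      d2 • Tm v x ^ 2) :=
    (((Commute.one_right _).smul_right _).add_right (e.smul_right _)).add_right
      ((e.pow_right 2).smul_right _)
  exact ((((Commute.one_left _).smul_left _).add_left (h1.smul_left _)).add_left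
    ((h1.pow_left 2).smul_left _)).eq

/-- The quotients of invertible elements. -/
theorem Fr.div {g : Alb a b c} (hg : g ∈ U) (hg0 : cub g ≠ 0) {w : Alb a b c} (hw : w ∈ U) :
    ∃ y ∈ U, Tm v y * Tm v g = Tm v w := by
  have hv := D.hv
  have hfin : Module.Finite F U := Module.finite_of_finrank_pos (by rw [D.dim]; norm_num)
  have h1 : ∀ y : U, ∃ z : U, Tm v (z : Alb a b c) = Tm v (y : Alb a b c) * Tm v g := by
    intro y
    obtain ⟨z, hz, hz'⟩ := D.mul y.2 hg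
    exact ⟨⟨z, hz⟩, hz'⟩
  choose f hf using h1
  have hadd : ∀ y z : U, f (y + z) = f y + f z := by
    intro y z
    apply Subtype.ext
    apply Tm_inj hv D.nv (D.inV _ (f (y + z)).2) (D.inV _ (f y + f z).2)
    rw [hf, Submodule.coe_add, map_add, Submodule.coe_add, map_add, hf, hf, Matrix.add_mul]
  have hsmul : ∀ (t : F) (y : U), f (t • y) = t • f y := by
    intro t y
    apply Subtype.ext
    apply Tm_inj hv D.nv (D.inV _ (f (t • y)).2) (D.inV _ (t • f y).2)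
    rw [hf, Submodule.coe_smul, map_smul, Submodule.coe_smul, map_smul, hf, Matrix.smul_mul]
  have hinj : Function.Injective f := by
    intro y z hyz
    have h2 : Tm v (y : Alb a b c) * Tm v g = Tm v (z : Alb a b c) * Tm v g := by
      rw [← hf, ← hf, hyz]
    exact Subtype.ext (Tm_inj hv D.nv (D.inV _ y.2) (D.inV _ z.2)
      (Tm_cancel hv D.nv (D.inV _ hg) hg0 h2))
  have hsur := surj_of_inj f hadd hsmul hinj
  obtain ⟨y, hy⟩ := hsur ⟨w, hw⟩
  refine ⟨y, y.2, ?_⟩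
  rw [← hf, hy]

/-- Change of the generator. -/
theorem Fr.change {y : Alb a b c} (hy : y ∈ U) (h0 : cub y ≠ 0)
    (hind : ∀ c0 c1 c2 : F, c0 • (1 : Matrix (Fin 3) (Fin 3) (Qt a b)) + c1 • Tm v y +
      c2 • Tm v y ^ 2 = 0 → c0 = 0 ∧ c1 = 0 ∧ c2 = 0) : Fr U v y :=
  ⟨D.inV, D.cr, D.mv, D.nv, hy, h0, D.dim, hind⟩

end fr

section tr

variable {F : Type} [Field F] [CharZero F] {a b c : Fˣ} {U : Submodule F (Alb a b c)}
  {v x : Alb a b c} {φ : Alb a b c ≃ₗ[F] Alb a b c}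

theorem tf_adj_map (h : ∀ x, cub (φ x) = cub x) (x y : Alb a b c) :
    tf (adj (φ x)) (φ y) = tf (adj x) y := by
  have h1 := tf_adj_of_cub (φ := φ.toLinearMap) (μ := 1) (fun x => by rw [one_mul]; exact h x) x y
  rwa [one_mul] at h1

theorem sqv_map (h : ∀ x, cub (φ x) = cub x) (v x : Alb a b c) :
    φ (sqv v x) = sqv (φ v) (φ x) := by
  rw [sqv, sqv, map_smul, map_sub, map_smul, cross_adj h, h, tf_comm (φ x), tf_adj_map h,
    tf_comm x]

/-- The image of a frame. -/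
theorem Fr.map (D : Fr U v x) (h : ∀ x, cub (φ x) = cub x) (hV : ∀ y ∈ U, InVs (φ y)) :
    Fr (U.map (φ : Alb a b c →ₗ[F] Alb a b c)) (φ v) (φ x) where
  inV := by
    rintro _ ⟨y, hy, rfl⟩
    exact hV y hy
  cr := by
    rintro _ ⟨y, hy, rfl⟩ _ ⟨z, hz, rfl⟩
    exact ⟨_, D.cr y hy z hz, (cross_adj h y z).symm⟩
  mv := ⟨v, D.mv, rfl⟩
  nv := by
    rw [h]
    exact D.nv
  mx := ⟨x, D.mx, rfl⟩
  nx := by
    rw [h]
    exact D.nx
  dim := by
    rw [← D.dim]
    exact LinearEquiv.finrank_eq (φ.submoduleMap U).symm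
  ind := by
    intro c0 c1 c2 h0
    have hv := hV v D.mv
    have hx := hV x D.mx
    have nv : cub (φ v) ≠ 0 := by
      rw [h]
      exact D.nv
    have nx : cub (φ x) ≠ 0 := by
      rw [h]
      exact D.nx
    have h1 : Tm (φ v) (φ (c0 • v + c1 • x + c2 • sqv v x)) = 0 := by
      have h2 : Tm (φ v) (sqv (φ v) (φ x)) = Tm (φ v) (φ x) ^ 2 := (Tm_sq hv hx nx).symm
      have h3 : φ (c0 • v + c1 • x + c2 • sqv v x) =
          c0 • φ v + c1 • φ x + c2 • sqv (φ v) (φ x) := by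
        rw [map_add, map_add, map_smul, map_smul, map_smul, sqv_map h]
      rw [h3, map_add, map_add, map_smul, map_smul, map_smul, h2, Tm_self hv nv]
      exact h0
    have h2 : φ (c0 • v + c1 • x + c2 • sqv v x) = 0 := by
      refine Tm_inj hv nv (hV _ (D.comb_mem _ _ _)) (hV _ U.zero_mem |> fun h => by
        rwa [map_zero] at h) ?_
      rw [h1, map_zero]
    have h3 : c0 • v + c1 • x + c2 • sqv v x = 0 := by
      apply φ.injective
      rw [h2, map_zero]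
    apply D.ind
    rw [← D.comb, h3, map_zero]

end tr

end Vale.Agent.P011.E6W.H619
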