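import Vale.Agent.P011.E6W.H619.LimM
import Vale.Agent.P011.E6W.H619.Key

/-!
Block E6W (helper619): the frames attached to the elements close to a given one.
-/

open Filter Topology

set_option linter.unusedSectionVars false

namespace Vale.Agent.P011.E6W.H619

open Vale.Agent.P011.MPQ hiding mat
open Vale.Agent.P011.D4 Vale.Agent.P011.D4.Oct Vale.Agent.P011.E6 Alb
open Vale.Agent.P011.D4W
open Vale.Agent.P011.E6O
open Vale.Agent.P011.E6I (MQ toMQ toMQ_apply toMQ_mul toMQ_one InVs cub_of_inV)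
open Vale.Agent.P011.E6I.Gn (Tm Tm_apply Tm_mul Tm_self Tm_inj Tm_cancel Tm_sq Tm_cube inV_ext
  inV_add inV_smul inV_adj inV_cross mat_mul_adj mat_adj_mul)
open Vale.Agent.P011.E6W.H183
open Matrix

section uw

variable {k E : Type} [Field k] [Field E] [Algebra k E] {a b c : kˣ} {ρ σ : E ≃ₐ[k] E} {lam : Eˣ}
  {g : Fin 3 → Eˣ}

/-- The space of the elements of `V` whose image belongs to `V`. -/
def UW (h : AlbL E a b c ≃ₗ[E] AlbL E a b c) : Submodule E (AlbL E a b c) :=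
  E6I.Vsub E a b c ⊓ (E6I.Vsub E a b c).comap (h : AlbL E a b c →ₗ[E] AlbL E a b c)

theorem mem_UW {h : AlbL E a b c ≃ₗ[E] AlbL E a b c} {x : AlbL E a b c} :
    x ∈ UW h ↔ InVs x ∧ InVs (h x) := Iff.rfl

/-- The components orthogonal to `V`. -/
def vp : AlbL E a b c →ₗ[E] (Fin 3 → Qt (up E a) (up E b)) where
  toFun x := ![x.x1.snd, x.x2.snd, x.x3.snd]
  map_add' x y := by
    funext i
    fin_cases i <;> rfl
  map_smul' t x := by
    funext i
    fin_cases i <;> rfl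

theorem vp_eq_zero {x : AlbL E a b c} : vp x = 0 ↔ InVs x := by
  constructor
  · intro h
    exact ⟨congrFun h 0, congrFun h 1, congrFun h 2⟩
  · rintro ⟨h1, h2, h3⟩
    funext i
    fin_cases i
    · exact h1
    · exact h2
    · exact h3

/-- The map whose kernel is `UW h`. -/
def TW (h : AlbL E a b c ≃ₗ[E] AlbL E a b c) :
    E6I.Vsub E a b c →ₗ[E] (Fin 3 → Qt (up E a) (up E b)) :=
  vp.comp ((h : AlbL E a b c →ₗ[E] AlbL E a b c).comp (E6I.Vsub E a b c).subtype)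

theorem mem_ker_TW {h : AlbL E a b c ≃ₗ[E] AlbL E a b c} {x : E6I.Vsub E a b c} :
    x ∈ LinearMap.ker (TW h) ↔ (x : AlbL E a b c) ∈ UW h := by
  rw [LinearMap.mem_ker]
  exact vp_eq_zero.trans ⟨fun h1 => ⟨x.2, h1⟩, fun h1 => h1.2⟩

theorem map_ker_TW (h : AlbL E a b c ≃ₗ[E] AlbL E a b c) :
    (LinearMap.ker (TW h)).map (E6I.Vsub E a b c).subtype = UW h := by
  ext x
  constructor
  · rintro ⟨y, hy, rfl⟩
    exact mem_ker_TW.1 hy
  · intro hx
    exact ⟨⟨x, hx.1⟩, mem_ker_TW.2 hx, rfl⟩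

theorem finrank_UW (h : AlbL E a b c ≃ₗ[E] AlbL E a b c) :
    Module.finrank E (UW h) = Module.finrank E (LinearMap.ker (TW h)) := by
  rw [← map_ker_TW h]
  exact Submodule.finrank_map_subtype_eq _ _

theorem finrank_C : Module.finrank E (Fin 3 → Qt (up E a) (up E b)) = 12 := by
  rw [Module.finrank_pi_fintype]
  simp only [QuaternionAlgebra.finrank_eq_four, Finset.sum_const, Finset.card_univ,
    Fintype.card_fin]
  norm_num

variable [CharZero E]

theorem UW_cross {h : AlbL E a b c ≃ₗ[E] AlbL E a b c} (hh : ∀ y, cub (h y) = cub y)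
    {x y : AlbL E a b c} (hx : x ∈ UW h) (hy : y ∈ UW h) : cross (adj x) (adj y) ∈ UW h := by
  rw [mem_UW] at hx hy ⊢
  refine ⟨inV_cross (inV_adj hx.1) (inV_adj hy.1), ?_⟩
  rw [← cross_adj hh]
  exact inV_cross (inV_adj hx.2) (inV_adj hy.2)

theorem UW_ph {h : AlbL E a b c ≃ₗ[E] AlbL E a b c}
    (hph : ∀ y, h (E6O.ph ρ lam y) = E6O.ph ρ lam (h y))
    {x : AlbL E a b c} (hx : x ∈ UW h) : E6O.ph ρ lam x ∈ UW h := by
  rw [mem_UW] at hx ⊢
  refine ⟨inV_ph hx.1, ?_⟩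
  rw [hph]
  exact inV_ph hx.2

theorem UW_pol {h : AlbL E a b c ≃ₗ[E] AlbL E a b c}
    (hpol : ∀ y, h (H183.pol σ g y) = H183.pol σ g (h y))
    {x : AlbL E a b c} (hx : x ∈ UW h) : H183.pol σ g x ∈ UW h := by
  rw [mem_UW] at hx ⊢
  refine ⟨inV_pol hx.1, ?_⟩
  rw [hpol]
  exact inV_pol hx.2

/-- A frame of the space `UW h`. -/
theorem frs_of {h : AlbL E a b c ≃ₗ[E] AlbL E a b c} (hh : ∀ y, cub (h y) = cub y)
    (hph : ∀ y, h (E6O.ph ρ lam y) = E6O.ph ρ lam (h y))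
    (hpol : ∀ y, h (H183.pol σ g y) = H183.pol σ g (h y)) {v x : AlbL E a b c}
    (hv : v ∈ UW h) (hv0 : cub v ≠ 0) (hx : x ∈ UW h) (hx0 : cub x ≠ 0)
    (hdim : Module.finrank E (UW h) = 3)
    (hind : ∀ t : Fin 3 → E, ez (Tm v x) t = 0 → t = 0) : Frs ρ σ lam g (UW h) v x where
  inV y hy := hy.1
  cr y hy w hw := UW_cross hh hy hw
  mv := hv
  nv := hv0
  mx := hx
  nx := hx0
  dim := hdim
  ind c0 c1 c2 h0 := by
    have h1 := hind ![c0, c1, c2] (by simpa [ez] using h0)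
    exact ⟨congrFun h1 0, congrFun h1 1, congrFun h1 2⟩
  ph y hy := UW_ph hph hy
  pol y hy := UW_pol hpol hy

end uw

section seq

variable {k E X : Type} [Field k] [Field E] [CharZero E] [Algebra k E] {a b c : kˣ}
  {ρ σ : E ≃ₐ[k] E} {lam : Eˣ} {g : Fin 3 → Eˣ} {s : E} {S : Set (AbsoluteValue E ℝ)}
  {F : Filter X}

/-- **The frames.** -/
theorem exists_frames (hne : S.Nonempty) (hρS : Stb S ρ) (hσS : Stb S σ)
    (R : Rel ρ σ lam g s) (hρ3 : ∀ x, ρ (ρ (ρ x)) = x) (hl : ρ lam = lam)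
    {h : X → AlbL E a b c ≃ₗ[E] AlbL E a b c} {n0 : AlbL E a b c ≃ₗ[E] AlbL E a b c}
    (hh : ∀ v y, cub (h v y) = cub y)
    (hph : ∀ v y, h v (E6O.ph ρ lam y) = E6O.ph ρ lam (h v y))
    (hpol : ∀ v y, h v (H183.pol σ g y) = H183.pol σ g (h v y))
    (hlim : ∀ y, AV S F (fun v => h v y) (n0 y)) {v0 x0 : AlbL E a b c}
    (hv0 : InVs v0) (hx0 : InVs x0) (nv0 : cub v0 ≠ 0) (nx0 : cub x0 ≠ 0)
    (fv : n0 v0 = v0) (fx : n0 x0 = x0)
    (hD : InD ρ lam (Tm v0 x0)) (hs : adjM σ g (Tm v0 x0) = Tm v0 x0)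
    (hind : ∀ t : Fin 3 → E, ez (Tm v0 x0) t = 0 → t = 0)
    (hU : ∀ y, InVs y → InVs (n0 y) → ∃ t : Fin 3 → E, Alb.mat y = ez (Tm v0 x0) t * Alb.mat v0) :
    ∃ v x : X → AlbL E a b c, AV S F v v0 ∧ AV S F x x0 ∧
      ∀ᶠ i in F, Frs ρ σ lam g (UW (h i)) (v i) (x i) ∧
        InD ρ lam (Tm (v i) (x i)) ∧ adjM σ g (Tm (v i) (x i)) = Tm (v i) (x i) := by
  -- the limit map is surjective
  have hker : Module.finrank E (LinearMap.ker (TW n0)) ≤ 3 := by
    have h1 : (UW n0).map (Tm v0) ≤ Submodule.span E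
        (Set.range fun i : Fin 3 => (Tm v0 x0) ^ (i : ℕ)) := by
      rintro _ ⟨y, hy, rfl⟩
      obtain ⟨t, ht⟩ := hU y hy.1 hy.2
      have h2 : Tm v0 y = ∑ i : Fin 3, t i • (Tm v0 x0) ^ (i : ℕ) := by
        rw [Tm_eq, ht, Matrix.mul_assoc, mat_mul_mi hv0 nv0, Matrix.mul_one, Fin.sum_univ_three]
        simp [ez]
      rw [h2]
      exact Submodule.sum_mem _ fun i _ => Submodule.smul_mem _ _
        (Submodule.subset_span ⟨i, rfl⟩)
    have h3 : Module.finrank E ((UW n0).map (Tm v0)) = Module.finrank E (UW n0) := by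
      have h4 : ∀ y ∈ UW n0, Tm v0 y = 0 → y = 0 := by
        intro y hy h0
        refine Tm_inj hv0 nv0 hy.1 (y := 0) ⟨rfl, rfl, rfl⟩ ?_
        rw [h0, map_zero]
      have h5 : Function.Injective ((Tm v0).domRestrict (UW n0)) := by
        rw [← LinearMap.ker_eq_bot, LinearMap.ker_eq_bot']
        intro y hy
        exact Subtype.ext (h4 y y.2 hy)
      have h6 := LinearMap.finrank_range_of_inj h5
      rw [LinearMap.range_domRestrict] at h6
      exact h6
    have h4 := Submodule.finrank_mono h1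
    have h5 : Module.finrank E (Submodule.span E
        (Set.range fun i : Fin 3 => (Tm v0 x0) ^ (i : ℕ))) ≤ 3 := by
      have := finrank_range_le_card (R := E) (fun i : Fin 3 => (Tm v0 x0) ^ (i : ℕ))
      simpa [Set.finrank] using this
    rw [h3, finrank_UW] at h4
    exact h4.trans h5
  have hsurj : Function.Surjective (TW n0) := by
    have h1 := (TW n0).finrank_range_add_finrank_ker
    rw [E6I.finrank_vsub] at h1
    have h2 : Module.finrank E (LinearMap.range (TW n0)) ≤ 12 := by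
      rw [← finrank_C (E := E) (a := a) (b := b)]
      exact Submodule.finrank_le _
    rw [← LinearMap.range_eq_top]
    apply Submodule.eq_top_of_finrank_eq
    rw [finrank_C]
    omega
  have hker3 : Module.finrank E (LinearMap.ker (TW n0)) = 3 := by
    have h1 := (TW n0).finrank_range_add_finrank_ker
    rw [E6I.finrank_vsub, LinearMap.range_eq_top.2 hsurj, finrank_top, finrank_C] at h1
    omega
  -- the limits
  have hT : ∀ y, AV S F (fun v => TW (h v) y) (TW n0 y) := by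
    intro y
    exact (hlim y).map vp
  obtain ⟨e1, e2⟩ := AV.lift_ker hne hT hsurj
  obtain ⟨v', hv', kv'⟩ := e2 ⟨v0, hv0⟩ (vp_eq_zero.2 (by
    change InVs (n0 v0)
    rw [fv]
    exact hv0))
  obtain ⟨y', hy', ky'⟩ := e2 ⟨x0, hx0⟩ (vp_eq_zero.2 (by
    change InVs (n0 x0)
    rw [fx]
    exact hx0))
  obtain ⟨v, hv⟩ : ∃ v : X → AlbL E a b c, v = fun i => (v' i : AlbL E a b c) := ⟨_, rfl⟩
  obtain ⟨y, hy⟩ : ∃ v : X → AlbL E a b c, v = fun i => (y' i : AlbL E a b c) := ⟨_, rfl⟩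
  have lv : AV S F v v0 := by
    rw [hv]
    exact hv'.map (E6I.Vsub E a b c).subtype
  have ly : AV S F y x0 := by
    rw [hy]
    exact hy'.map (E6I.Vsub E a b c).subtype
  have mv : ∀ᶠ i in F, v i ∈ UW (h i) := by
    filter_upwards [kv'] with i hi
    rw [hv]
    exact mem_ker_TW.1 hi
  have my : ∀ᶠ i in F, y i ∈ UW (h i) := by
    filter_upwards [ky'] with i hi
    rw [hy]
    exact mem_ker_TW.1 hi
  have iv : ∀ᶠ i in F, InVs (v i) := mv.mono fun i hi => hi.1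
  have nv := (cub_lim lv).eventually_ne hne nv0
  have ny := (cub_lim ly).eventually_ne hne nx0
  have lz := Tm_lim hne lv ly iv hv0 nv0
  have iz := ez_ind hne lz hind
  -- the average
  obtain ⟨x, hx⟩ : ∃ x : X → AlbL E a b c, ∀ i, Frs ρ σ lam g (UW (h i)) (v i) (y i) →
      x i ∈ UW (h i) ∧ Tm (v i) (x i) = av ρ σ lam g (Tm (v i) (y i)) := by
    have h1 : ∀ i, ∃ w, Frs ρ σ lam g (UW (h i)) (v i) (y i) →
        w ∈ UW (h i) ∧ Tm (v i) w = av ρ σ lam g (Tm (v i) (y i)) := by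
      intro i
      by_cases hi : Frs ρ σ lam g (UW (h i)) (v i) (y i)
      · obtain ⟨w, hw, hw'⟩ := hi.av_mem R hi.mx
        exact ⟨w, fun _ => ⟨hw, hw'⟩⟩
      · exact ⟨0, fun h => absurd h hi⟩
    choose x hx using h1
    exact ⟨x, hx⟩
  have hF : ∀ᶠ i in F, Frs ρ σ lam g (UW (h i)) (v i) (y i) := by
    filter_upwards [mv, my, nv, ny, iz, e1] with i a1 a2 a3 a4 a5 a6
    refine frs_of (hh i) (hph i) (hpol i) a1 a3 a2 a4 ?_ a5
    rw [finrank_UW, a6, hker3]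
  have lav : AV S F (fun i => av ρ σ lam g (Tm (v i) (y i))) (Tm v0 x0) := by
    have h1 := lz.av (lam := lam) (g := g) hρS hσS
    rwa [av_fix hD hs] at h1
  have lx : AV S F x x0 := by
    refine AV.of_mat ?_ hx0 ?_
    · filter_upwards [hF] with i hi
      exact (hx i hi).1.1
    · have h1 := lav.mul lv.mat
      rw [Tm_mul hv0 nv0] at h1
      refine h1.congr' ?_
      filter_upwards [hF] with i hi
      rw [← (hx i hi).2, Tm_mul hi.hv hi.nv]
  have lz' : AV S F (fun i => Tm (v i) (x i)) (Tm v0 x0) := by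
    refine lav.congr' ?_
    filter_upwards [hF] with i hi
    rw [(hx i hi).2]
  have iz' := ez_ind hne lz' hind
  have nx := (cub_lim lx).eventually_ne hne nx0
  refine ⟨v, x, lv, lx, ?_⟩
  filter_upwards [hF, iz', nx] with i hi h1 h2
  obtain ⟨h3, h4⟩ := hx i hi
  refine ⟨frs_of (hh i) (hph i) (hpol i) hi.mv hi.nv h3 h2 hi.dim h1, ?_, ?_⟩
  · rw [h4]
    exact av_inD R hρ3 hl _
  · rw [h4]
    exact av_adjM R _

end seq

end Vale.Agent.P011.E6W.H619
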