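import Vale.Agent.P011.D4W.H684.Top

/-!
Block E6W (helper619): limits of vectors, with respect to a set of absolute values.
-/

open Filter Topology

set_option linter.unusedSectionVars false

namespace Vale.Agent.P011.E6W.H619

open Vale.Agent.P011.D4W

section ae

variable {E X ι : Type} [Field E] {S : Set (AbsoluteValue E ℝ)} {F : Filter X}

theorem AE_congr' {f g : X → E} {x : E} (hf : AE S F f x) (h : ∀ᶠ v in F, f v = g v) :
    AE S F g x := by
  intro p hp
  refine (hf p hp).congr' ?_
  filter_upwards [h] with v hv
  rw [hv]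

theorem AE_sum (s : Finset ι) {f : ι → X → E} {x : ι → E} (h : ∀ i ∈ s, AE S F (f i) (x i)) :
    AE S F (fun v => ∑ i ∈ s, f i v) (∑ i ∈ s, x i) := by
  classical
  induction s using Finset.induction_on with
  | empty => simpa using AE.const S F (0 : E)
  | insert i s hi ih =>
    simp only [Finset.sum_insert hi]
    exact (h i (Finset.mem_insert_self i s)).add
      (ih fun j hj => h j (Finset.mem_insert_of_mem hj))

theorem AE_prod (s : Finset ι) {f : ι → X → E} {x : ι → E} (h : ∀ i ∈ s, AE S F (f i) (x i)) :
    AE S F (fun v => ∏ i ∈ s, f i v) (∏ i ∈ s, x i) := by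
  classical
  induction s using Finset.induction_on with
  | empty => simpa using AE.const S F (1 : E)
  | insert i s hi ih =>
    simp only [Finset.prod_insert hi]
    exact (h i (Finset.mem_insert_self i s)).mul
      (ih fun j hj => h j (Finset.mem_insert_of_mem hj))

theorem AE_det [Fintype ι] [DecidableEq ι] {M : X → Matrix ι ι E} {M0 : Matrix ι ι E}
    (h : ∀ i j, AE S F (fun v => M v i j) (M0 i j)) : AE S F (fun v => (M v).det) M0.det := by
  simp only [Matrix.det_apply']
  exact AE_sum _ fun σ _ => (AE.const S F _).mul (AE_prod _ fun i _ => h _ _)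

theorem AE_adjugate [Fintype ι] [DecidableEq ι] {M : X → Matrix ι ι E} {M0 : Matrix ι ι E}
    (h : ∀ i j, AE S F (fun v => M v i j) (M0 i j)) (i j : ι) :
    AE S F (fun v => (M v).adjugate i j) (M0.adjugate i j) := by
  simp only [Matrix.adjugate_apply]
  refine AE_det fun a b => ?_
  simp only [Matrix.updateRow_apply]
  by_cases hab : a = j
  · simp only [hab, if_true]
    exact AE.const S F _
  · simp only [hab, if_false]
    exact h a b

end ae

section av

variable {E X : Type} [Field E] {U U' U'' : Type} [AddCommGroup U] [Module E U]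
  [AddCommGroup U'] [Module E U'] [AddCommGroup U''] [Module E U'']
  {S : Set (AbsoluteValue E ℝ)} {F : Filter X} {f g : X → U} {u u' : U}

/-- All the linear forms converge. -/
def AV (S : Set (AbsoluteValue E ℝ)) (F : Filter X) (f : X → U) (u : U) : Prop :=
  ∀ φ : Module.Dual E U, AE S F (fun v => φ (f v)) (φ u)

theorem AV.const (S : Set (AbsoluteValue E ℝ)) (F : Filter X) (u : U) :
    AV S F (fun _ => u) u := fun _ => AE.const S F _

theorem AV.add (hf : AV S F f u) (hg : AV S F g u') : AV S F (fun v => f v + g v) (u + u') := by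
  intro φ
  simp only [map_add]
  exact (hf φ).add (hg φ)

theorem AV.neg (hf : AV S F f u) : AV S F (fun v => -f v) (-u) := by
  intro φ
  simp only [map_neg]
  exact (hf φ).neg

theorem AV.sub (hf : AV S F f u) (hg : AV S F g u') : AV S F (fun v => f v - g v) (u - u') := by
  intro φ
  simp only [map_sub]
  exact (hf φ).sub (hg φ)

theorem AV.smul {t : X → E} {t0 : E} (ht : AE S F t t0) (hf : AV S F f u) :
    AV S F (fun v => t v • f v) (t0 • u) := by
  intro φ
  simp only [map_smul, smul_eq_mul]
  exact ht.mul (hf φ)

theorem AV.map (L : U →ₗ[E] U') (hf : AV S F f u) : AV S F (fun v => L (f v)) (L u) :=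
  fun φ => hf (φ.comp L)

theorem AV.congr' (hf : AV S F f u) (h : ∀ᶠ v in F, f v = g v) : AV S F g u := by
  intro φ
  refine AE_congr' (hf φ) ?_
  filter_upwards [h] with v hv
  rw [hv]

theorem AV.congr (hf : AV S F f u) (h : ∀ v, f v = g v) (hu : u = u') : AV S F g u' := by
  have e : f = g := funext h
  rw [← e, ← hu]
  exact hf

theorem AV_iff_AE {f : X → E} {x : E} : AV S F f x ↔ AE S F f x := by
  constructor
  · intro h
    exact h LinearMap.id
  · intro h φ
    have e : ∀ y : E, φ y = φ 1 * y := by
      intro y
      rw [mul_comm, ← smul_eq_mul, ← map_smul, smul_eq_mul, mul_one]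
    exact ((AE.const S F (φ 1)).mul h).congr (fun v => (e _).symm) (e _).symm

theorem AV.of_basis {ι : Type} [Fintype ι] (b : Module.Basis ι E U)
    (h : ∀ i, AE S F (fun v => b.repr (f v) i) (b.repr u i)) : AV S F f u := by
  intro φ
  have e : ∀ y : U, φ y = ∑ i, b.repr y i * φ (b i) := by
    intro y
    conv_lhs => rw [← b.sum_repr y]
    simp only [map_sum, map_smul, smul_eq_mul]
  exact (AE_sum _ fun i _ => (h i).mul (AE.const S F _)).congr (fun v => (e (f v)).symm) (e u).symm

theorem AV.coord {ι : Type} (b : Module.Basis ι E U) (hf : AV S F f u) (i : ι) :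
    AE S F (fun v => b.repr (f v) i) (b.repr u i) := hf (b.coord i)

/-- Bilinear maps. -/
theorem AV.bilin [Module.Finite E U] [Module.Finite E U'] (B : U →ₗ[E] U' →ₗ[E] U'')
    (hf : AV S F f u) {g : X → U'} {u' : U'} (hg : AV S F g u') :
    AV S F (fun v => B (f v) (g v)) (B u u') := by
  intro φ
  let b := Module.finBasis E U
  let b' := Module.finBasis E U'
  have e : ∀ (y : U) (y' : U'), φ (B y y') =
      ∑ i, ∑ j, (b.repr y i * b'.repr y' j) * φ (B (b i) (b' j)) := by
    intro y y'
    conv_lhs => rw [← b.sum_repr y, ← b'.sum_repr y']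
    simp only [map_sum, map_smul, LinearMap.sum_apply, LinearMap.smul_apply, smul_eq_mul,
      Finset.mul_sum]
    rw [Finset.sum_comm]
    refine Finset.sum_congr rfl fun i _ => Finset.sum_congr rfl fun j _ => ?_
    ring
  exact (AE_sum _ fun i _ => AE_sum _ fun j _ => (((hf.coord b i).mul (hg.coord b' j)).mul
    (AE.const S F _))).congr (fun v => (e (f v) (g v)).symm) (e u u').symm

/-- Semilinear maps. -/
theorem AV.semi {k : Type} [Field k] [Algebra k E] [Module.Finite E U] {ρ : E ≃ₐ[k] E}
    (hρ : Stb S ρ) (L : U → U') (hadd : ∀ x y, L (x + y) = L x + L y)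
    (hsmul : ∀ (t : E) x, L (t • x) = ρ t • L x) (hf : AV S F f u) :
    AV S F (fun v => L (f v)) (L u) := by
  intro φ
  let b := Module.finBasis E U
  have h0 : L 0 = 0 := by
    have h1 := hsmul 0 0
    rwa [map_zero, zero_smul, zero_smul] at h1
  have e : ∀ y : U, φ (L y) = ∑ i, ρ (b.repr y i) * φ (L (b i)) := by
    intro y
    have h1 : ∀ s : Finset (Fin (Module.finrank E U)), L (∑ i ∈ s, b.repr y i • b i) =
        ∑ i ∈ s, ρ (b.repr y i) • L (b i) := by
      intro s
      induction s using Finset.induction_on with
      | empty => simpa using h0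
      | insert i s hi ih => rw [Finset.sum_insert hi, Finset.sum_insert hi, hadd, hsmul, ih]
    conv_lhs => rw [← b.sum_repr y, h1]
    simp only [map_sum, map_smul, smul_eq_mul]
  exact (AE_sum _ fun i _ => (AE.aut hρ (hf.coord b i)).mul (AE.const S F _)).congr
    (fun v => (e (f v)).symm) (e u).symm

/-- A family of endomorphisms which tends to the identity. -/
theorem AV.solve_one [Module.Finite E U] (hne : S.Nonempty) {A : X → U →ₗ[E] U}
    (hA : ∀ y, AV S F (fun v => A v y) y) :
    (∀ᶠ v in F, Function.Bijective (A v)) ∧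
      ∀ (f : X → U) (u : U), AV S F (fun v => A v (f v)) u → AV S F f u := by
  let b := Module.finBasis E U
  have h1 : ∀ i j, AE S F (fun v => LinearMap.toMatrix b b (A v) i j)
      ((1 : Matrix (Fin (Module.finrank E U)) (Fin (Module.finrank E U)) E) i j) := by
    intro i j
    have h2 := (hA (b j)).coord b i
    have h3 : b.repr (b j) i = (1 : Matrix (Fin (Module.finrank E U)) (Fin (Module.finrank E U)) E)
        i j := by
      rw [b.repr_self, Matrix.one_apply, Finsupp.single_apply]
      simp only [eq_comm]
    rw [← h3]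
    simpa only [LinearMap.toMatrix_apply] using h2
  have hdet := AE_det h1
  rw [Matrix.det_one] at hdet
  have hev := hdet.eventually_ne hne one_ne_zero
  refine ⟨?_, ?_⟩
  · filter_upwards [hev] with v hv
    have h2 : IsUnit (LinearMap.toMatrix b b (A v)).det := isUnit_iff_ne_zero.2 hv
    have h3 := (LinearEquiv.ofIsUnitDet (f := A v) (v := b) (v' := b) h2).bijective
    exact h3
  · intro f u hf
    refine AV.of_basis b fun i => ?_
    -- Cramer's rule
    have h2 : ∀ᶠ v in F, ((LinearMap.toMatrix b b (A v)).det)⁻¹ *
        (∑ j, (LinearMap.toMatrix b b (A v)).adjugate i j * b.repr (A v (f v)) j) =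
        b.repr (f v) i := by
      filter_upwards [hev] with v hv
      have h3 : (LinearMap.toMatrix b b (A v)).mulVec (b.repr (f v)) = b.repr (A v (f v)) :=
        LinearMap.toMatrix_mulVec_repr b b (A v) (f v)
      have h4 : (LinearMap.toMatrix b b (A v)).adjugate.mulVec (b.repr (A v (f v))) =
          (LinearMap.toMatrix b b (A v)).det • (b.repr (f v) : Fin (Module.finrank E U) → E) := by
        rw [← h3, Matrix.mulVec_mulVec, Matrix.adjugate_mul, Matrix.smul_mulVec,
          Matrix.one_mulVec]
      have h5 := congrFun h4 i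
      rw [Pi.smul_apply, smul_eq_mul] at h5
      have h6 : (∑ j, (LinearMap.toMatrix b b (A v)).adjugate i j * b.repr (A v (f v)) j) =
          (LinearMap.toMatrix b b (A v)).det * b.repr (f v) i := h5
      rw [h6, ← mul_assoc, inv_mul_cancel₀ hv, one_mul]
    refine AE_congr' ?_ h2
    have h7 := (hdet.inv one_ne_zero).mul (AE_sum Finset.univ fun j _ =>
      (AE_adjugate h1 i j).mul (hf.coord b j))
    refine h7.congr (fun _ => rfl) ?_
    rw [inv_one, one_mul, Matrix.adjugate_one]
    simp [Matrix.one_apply]

/-- A family of linear maps which tends to an invertible one. -/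
theorem AV.solve [Module.Finite E U] (hne : S.Nonempty) {A : X → U →ₗ[E] U'} (A0 : U ≃ₗ[E] U')
    (hA : ∀ y, AV S F (fun v => A v y) (A0 y)) :
    (∀ᶠ v in F, Function.Bijective (A v)) ∧
      ∀ (f : X → U) (u : U), AV S F (fun v => A v (f v)) (A0 u) → AV S F f u := by
  have h1 : ∀ y, AV S F (fun v => (A0.symm.toLinearMap.comp (A v)) y) y := by
    intro y
    have h2 := (hA y).map A0.symm.toLinearMap
    simpa using h2
  obtain ⟨h2, h3⟩ := AV.solve_one hne h1
  refine ⟨?_, ?_⟩
  · filter_upwards [h2] with v hv
    have h4 : (A v : U → U') = A0 ∘ (A0.symm.toLinearMap.comp (A v)) := by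
      funext y
      simp
    rw [h4]
    exact A0.bijective.comp hv
  · intro f u hf
    refine h3 f u ?_
    have h4 := hf.map A0.symm.toLinearMap
    simpa using h4

/-- The kernels of a family of linear maps which tends to a surjective one. -/
theorem AV.lift_ker [Module.Finite E U] [Module.Finite E U'] (hne : S.Nonempty)
    {T : X → U →ₗ[E] U'} {T0 : U →ₗ[E] U'}
    (hT : ∀ y, AV S F (fun v => T v y) (T0 y)) (hs : Function.Surjective T0) :
    (∀ᶠ v in F, Module.finrank E (LinearMap.ker (T v)) = Module.finrank E (LinearMap.ker T0)) ∧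
      ∀ u : U, T0 u = 0 → ∃ f : X → U, AV S F f u ∧ ∀ᶠ v in F, T v (f v) = 0 := by
  obtain ⟨s, hs'⟩ := T0.exists_rightInverse_of_surjective (LinearMap.range_eq_top.2 hs)
  have hs2 : ∀ y, T0 (s y) = y := fun y => LinearMap.congr_fun hs' y
  have h1 : ∀ y, AV S F (fun v => ((T v).comp s) y) y := by
    intro y
    have h2 := hT (s y)
    rw [hs2] at h2
    exact h2
  obtain ⟨h2, h3⟩ := AV.solve_one hne h1
  refine ⟨?_, ?_⟩
  · filter_upwards [h2] with v hv
    have h4 : Function.Surjective (T v) := by
      intro y
      obtain ⟨x, hx⟩ := hv.2 y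
      exact ⟨s x, hx⟩
    have h5 := (T v).finrank_range_add_finrank_ker
    have h6 := T0.finrank_range_add_finrank_ker
    rw [LinearMap.range_eq_top.2 h4, finrank_top] at h5
    rw [LinearMap.range_eq_top.2 hs, finrank_top] at h6
    omega
  · intro u hu
    classical
    obtain ⟨r, hr⟩ : ∃ r : X → U', ∀ v, Function.Bijective ((T v).comp s) →
        (T v).comp s (r v) = T v u := by
      have h4 : ∀ v, ∃ y, Function.Bijective ((T v).comp s) → (T v).comp s y = T v u := by
        intro v
        by_cases hb : Function.Bijective ((T v).comp s)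
        · obtain ⟨y, hy⟩ := hb.2 (T v u)
          exact ⟨y, fun _ => hy⟩
        · exact ⟨0, fun h => absurd h hb⟩
      choose r hr using h4
      exact ⟨r, hr⟩
    have h4 : AV S F r 0 := by
      refine h3 r 0 ?_
      have h5 := hT u
      rw [hu] at h5
      refine h5.congr' ?_
      filter_upwards [h2] with v hv
      exact (hr v hv).symm
    refine ⟨fun v => u - s (r v), ?_, ?_⟩
    · have h5 := (AV.const S F u).sub (h4.map s)
      rwa [map_zero, sub_zero] at h5
    · filter_upwards [h2] with v hv
      rw [map_sub, sub_eq_zero]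
      exact (hr v hv).symm

/-- Independence is an open condition; the coefficients converge. -/
theorem AV.indep {n : ℕ} [Module.Finite E U] (hne : S.Nonempty) {e : Fin n → U}
    (he : LinearIndependent E e) {f : Fin n → X → U} (hf : ∀ i, AV S F (f i) (e i)) :
    (∀ᶠ v in F, LinearIndependent E fun i => f i v) ∧
      ∀ (c : X → Fin n → E) (c0 : Fin n → E),
        AV S F (fun v => ∑ i, c v i • f i v) (∑ i, c0 i • e i) →
        ∀ i, AE S F (fun v => c v i) (c0 i) := by
  obtain ⟨s, hs⟩ : ∃ s : U →ₗ[E] (Fin n → E), ∀ i, s (e i) = Pi.single i 1 := by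
    have h1 : Function.Injective (Fintype.linearCombination E e) :=
      linearIndependent_iff_injective_fintypeLinearCombination.1 he
    obtain ⟨s, hs⟩ := (Fintype.linearCombination E e).exists_leftInverse_of_injective
      (LinearMap.ker_eq_bot.2 h1)
    refine ⟨s, fun i => ?_⟩
    have h2 := LinearMap.congr_fun hs (Pi.single i 1)
    simpa [Fintype.linearCombination_apply_single] using h2
  have h1 : ∀ y, AV S F (fun v => (s.comp (Fintype.linearCombination E fun i => f i v)) y) y := by
    intro y
    have h2 : ∀ v, (s.comp (Fintype.linearCombination E fun i => f i v)) y =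
        s (∑ i, y i • f i v) := fun v => by
      rw [LinearMap.comp_apply, Fintype.linearCombination_apply]
    have h3 : AV S F (fun v => ∑ i, y i • f i v) (∑ i, y i • e i) := by
      intro φ
      simp only [map_sum, map_smul, smul_eq_mul]
      exact AE_sum _ fun i _ => (AE.const S F _).mul (hf i φ)
    refine (h3.map s).congr (fun v => (h2 v).symm) ?_
    simp only [map_sum, map_smul, hs]
    funext j
    simp [Finset.sum_apply, Pi.single_apply]
  obtain ⟨h2, h3⟩ := AV.solve_one hne h1
  refine ⟨?_, ?_⟩
  · filter_upwards [h2] with v hv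
    rw [linearIndependent_iff_injective_fintypeLinearCombination]
    exact fun x y hxy => hv.1 (by
      rw [LinearMap.comp_apply, LinearMap.comp_apply, hxy])
  · intro c c0 hc i
    have h4 : AV S F c c0 := by
      refine h3 c c0 ?_
      refine (hc.map s).congr (fun v => ?_) ?_
      · rw [LinearMap.comp_apply, Fintype.linearCombination_apply]
      · simp only [map_sum, map_smul, hs]
        funext j
        simp [Finset.sum_apply, Pi.single_apply]
    exact h4 (LinearMap.proj i)

end av

end Vale.Agent.P011.E6W.H619
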