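import Vale.Agent.P011.E6W.H619.Root

/-!
Block E6W (helper619): the symmetric elements of norm one are of the form `star n * n`, and the
positivity of the traces of the hermitian elements.
-/

open NumberField IsDedekindDomain

set_option linter.unusedSectionVars false

namespace Vale.Agent.P011.E6W.H619

open Vale.Agent.P011.Arith Vale.Agent.P011.MPQ Vale.Agent.P011.One

theorem pure_sq {F : Type} [Field F] [NumberField F] {α β : Fˣ} {p : Qt α β} (hp : star p = -p) :
    p * p = algebraMap F (Qt α β) (-nrd p) := by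
  have h := star_mul_self_qt p
  rw [hp, neg_mul, neg_eq_iff_eq_neg] at h
  rw [h, map_neg]

theorem nrd_nonneg {F : Type} [Field F] {α β : Fˣ} {ψ : F →+* ℝ} (hα : ψ α < 0) (hβ : ψ β < 0)
    (q : Qt α β) : 0 ≤ ψ (nrd q) := by
  rw [nrd, map_add, map_sub, map_sub, map_mul, map_mul, map_mul, map_mul, map_pow, map_pow,
    map_pow, map_pow]
  have := mul_nonneg (neg_pos.2 hα).le (sq_nonneg (ψ q.imI))
  have := mul_nonneg (neg_pos.2 hβ).le (sq_nonneg (ψ q.imJ))
  have := mul_nonneg (mul_pos_of_neg_of_neg hα hβ).le (sq_nonneg (ψ q.imK))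
  have := sq_nonneg (ψ q.re)
  nlinarith

variable {k D : Type} [Field k] [NumberField k] [DivisionRing D] [StarRing D] [Algebra k D]
    {F : Type} [Field F] [NumberField F] [Algebra k F]

section root

variable {ι : F →ₐ[k] D} {d : F} {s : D} {bar : D → D} {α β : Fˣ} {i j : D} {φ : Qt α β →+* D}
  (H : BarQ ι d s bar α β i j φ)

include H

theorem BarQ.star_φ_mul (q : Qt α β) : φ (star q) * φ q = ι (nrd q) := by
  rw [← map_mul, star_mul_self_qt, H.φ_coe]

theorem BarQ.φ_mul_star (q : Qt α β) : φ q * φ (star q) = ι (nrd q) := by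
  have h := H.star_φ_mul (star q)
  rw [star_star] at h
  rw [h]
  congr 1
  simp only [nrd, QuaternionAlgebra.re_star, QuaternionAlgebra.imI_star,
    QuaternionAlgebra.imJ_star, QuaternionAlgebra.imK_star]
  ring

theorem BarQ.nrd_ne {q : Qt α β} (hq : q ≠ 0) : nrd q ≠ 0 := by
  intro h
  have h1 := H.star_φ_mul q
  rw [h, map_zero, mul_eq_zero] at h1
  rcases h1 with h1 | h1
  · exact hq (star_eq_zero.1 (qhom_inj H.fr H.hφ h1))
  · exact hq (qhom_inj H.fr H.hφ h1)

theorem BarQ.nrd_pos {ψ : F →+* ℝ} (hα : ψ α < 0) (hβ : ψ β < 0) {q : Qt α β} (hq : q ≠ 0) :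
    0 < ψ (nrd q) :=
  lt_of_le_of_ne (nrd_nonneg hα hβ q) (Ne.symm ((map_ne_zero ψ).2 (H.nrd_ne hq)))

/-- The symmetric elements. -/
theorem BarQ.sym_coord {x : D} (hx : x ∈ Cen ι) (hs : star x = x) :
    ∃ (r : F) (p : Qt α β), star p = -p ∧ x = ι r + s * φ p := by
  obtain ⟨q, q', h⟩ := H.exists_coord hx
  have h1 : φ (q - star q) + s * φ (q' + star q') = 0 := by
    have h2 := hs
    rw [h, star_add, star_mul, H.star_φ, H.star_φ, H.B.star_s, mul_neg, ← H.φs] at h2
    rw [map_sub, map_add, mul_add]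
    have h3 : φ q + s * φ q' - (φ (star q) + -(s * φ (star q'))) = 0 := by rw [h2, sub_self]
    rw [← h3]
    abel
  obtain ⟨h2, h3⟩ := H.inj h1
  have h4 := H.tr_φ q
  rw [H.bar_φ, ← sub_eq_zero.1 h2, map_mul, map_ofNat, ← two_mul] at h4
  refine ⟨q.re, q', eq_neg_of_add_eq_zero_right h3, ?_⟩
  rw [h, mul_left_cancel₀ (two_ne H.B) h4]

theorem BarQ.bar_coord (r : F) {p : Qt α β} (hp : star p = -p) :
    bar (ι r + s * φ p) = ι r - s * φ p := by
  rw [H.B.add _ (H.B.ι_mem _) _ (mul_mem H.B.s_mem (H.φm _)), H.B.mul _ H.B.s_mem _ (H.φm _),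
    H.B.fs, H.B.fix, H.bar_φ, hp, map_neg, neg_mul, ← H.φs, sub_eq_add_neg]

theorem BarQ.coord_tr (r : F) {p : Qt α β} (hp : star p = -p) :
    (ι r + s * φ p) + bar (ι r + s * φ p) = ι (2 * r) := by
  rw [H.bar_coord r hp, map_mul, map_ofNat, two_mul]
  abel

theorem BarQ.coord_nr (r : F) {p : Qt α β} (hp : star p = -p) :
    (ι r + s * φ p) * bar (ι r + s * φ p) = ι (r ^ 2 + d * nrd p) := by
  have h1 : (s * φ p) * (s * φ p) = ι (-(d * nrd p)) := by
    calc (s * φ p) * (s * φ p) = s * (φ p * s) * φ p := by simp only [mul_assoc]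
      _ = (s * s) * (φ p * φ p) := by rw [← H.φs]; simp only [mul_assoc]
      _ = _ := by rw [H.B.ss, ← map_mul, pure_sq hp, H.φ_coe, ← map_mul, mul_neg]
  rw [H.bar_coord r hp, mul_sub, add_mul, add_mul, h1, ← H.B.ιc (mul_mem H.B.s_mem (H.φm p)),
    ← map_mul, map_add, map_neg, ← pow_two]
  abel

/-- The square root, in terms of a quaternion of the given norm. -/
theorem BarQ.exists_root_of {μ : D} (hμ : μ ∈ Cen ι) (hs : star μ = μ) (hn : μ * bar μ = 1) {r : F}
    (hr : μ + bar μ = ι (2 * r)) (h0 : 2 + 2 * r ≠ 0) {q : Qt α β} (hq : nrd q = 2 + 2 * r) :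
    ∃ n ∈ Cen ι, star n * n = μ ∧ n * bar n = 1 := by
  obtain ⟨T, hT⟩ : ∃ T, T = ι (2 + 2 * r) := ⟨_, rfl⟩
  obtain ⟨t, ht⟩ : ∃ t, t = ι (2 + 2 * r)⁻¹ := ⟨_, rfl⟩
  have htm : t ∈ Cen ι := by rw [ht]; exact H.B.ι_mem _
  have htc : ∀ x ∈ Cen ι, t * x = x * t := fun x hx => by rw [ht, H.B.ιc hx]
  have hTc : ∀ x ∈ Cen ι, T * x = x * T := fun x hx => by rw [hT, H.B.ιc hx]
  have htT : t * T = 1 := by rw [ht, hT, ← map_mul, inv_mul_cancel₀ h0, map_one]
  have hst : star t = t := by rw [ht, H.B.sym]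
  have hbt : bar t = t := by rw [ht, H.B.fix]
  have e1 : φ q * φ (star q) = T := by rw [H.φ_mul_star, hq, hT]
  have e2 : φ (star q) * φ q = T := by rw [H.star_φ_mul, hq, hT]
  have hbμ : bar μ = ι (2 * r) - μ := by rw [← hr]; abel
  have hbm : bar μ ∈ Cen ι := H.B.mem _ hμ
  have h1m : 1 + μ ∈ Cen ι := add_mem (one_mem _) hμ
  have h1b : bar (1 + μ) = 1 + bar μ := by rw [H.B.add _ (one_mem _) _ hμ, H.B.one]
  have e3 : (1 + μ) * (1 + μ) = T * μ := by
    have h2 : μ * μ = ι (2 * r) * μ - 1 := by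
      rw [hbμ, mul_sub, ← H.B.ιc hμ] at hn
      rw [← hn]
      abel
    rw [hT, map_add, map_ofNat, add_mul (2 : D)]
    calc (1 + μ) * (1 + μ) = 1 + 2 * μ + μ * μ := by noncomm_ring
      _ = _ := by rw [h2]; abel
  have e4 : (1 + μ) * (1 + bar μ) = T := by
    calc (1 + μ) * (1 + bar μ) = 1 + (μ + bar μ) + μ * bar μ := by noncomm_ring
      _ = _ := by
        have h2 : T = 1 + 1 + ι (2 * r) := by rw [hT, map_add, map_ofNat, one_add_one_eq_two]
        rw [hr, hn, h2]
        abel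
  refine ⟨t * (φ (star q) * (1 + μ)), mul_mem htm (mul_mem (H.φm _) h1m), ?_, ?_⟩
  · rw [star_mul, star_mul, hst, H.star_φ, star_star, star_add, star_one, hs]
    calc (1 + μ) * φ q * t * (t * (φ (star q) * (1 + μ)))
        = (1 + μ) * (φ q * t) * (t * φ (star q)) * (1 + μ) := by simp only [mul_assoc]
      _ = (1 + μ) * (t * φ q) * (φ (star q) * t) * (1 + μ) := by
        rw [← htc _ (H.φm q), htc _ (H.φm (star q))]
      _ = ((1 + μ) * t) * (φ q * φ (star q)) * (t * (1 + μ)) := by simp only [mul_assoc]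
      _ = (t * (1 + μ)) * T * ((1 + μ) * t) := by rw [e1, ← htc _ h1m]
      _ = t * (((1 + μ) * T) * (1 + μ)) * t := by simp only [mul_assoc]
      _ = t * ((T * (1 + μ)) * (1 + μ)) * t := by rw [← hTc _ h1m]
      _ = t * T * ((1 + μ) * (1 + μ)) * t := by simp only [mul_assoc]
      _ = μ * (T * t) := by rw [htT, e3, one_mul, hTc _ hμ, mul_assoc]
      _ = μ := by rw [hTc _ htm, htT, mul_one]
  · rw [H.B.mul _ htm _ (mul_mem (H.φm _) h1m), H.B.mul _ (H.φm _) _ h1m, hbt, H.bar_φ, star_star,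
      h1b]
    calc t * (φ (star q) * (1 + μ)) * ((1 + bar μ) * φ q * t)
        = t * (φ (star q) * ((1 + μ) * (1 + bar μ)) * φ q) * t := by simp only [mul_assoc]
      _ = t * (T * φ (star q) * φ q) * t := by rw [e4, ← hTc _ (H.φm (star q))]
      _ = (t * T) * (T * t) := by rw [mul_assoc T, e2]; simp only [mul_assoc]
      _ = 1 := by rw [hTc _ htm, htT, one_mul]

/-- **The symmetric elements of norm one.** -/
theorem BarQ.exists_root {μ : D} (hμ : μ ∈ Cen ι) (hs : star μ = μ) (hn : μ * bar μ = 1)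
    (hpos : ∀ ψ : F →+* ℝ, ψ α < 0 → ψ β < 0 → ψ d < 0 → ∀ r, μ + bar μ = ι r → 0 < ψ r) :
    ∃ n ∈ Cen ι, star n * n = μ ∧ n * bar n = 1 := by
  obtain ⟨r, p, hp, hμe⟩ := H.sym_coord hμ hs
  have hr : μ + bar μ = ι (2 * r) := by rw [hμe, H.coord_tr r hp]
  have hn' : r ^ 2 + d * nrd p = 1 := by
    have h1 := H.coord_nr r hp
    rw [← hμe, hn, ← map_one ι] at h1
    exact (ι.injective h1).symm
  by_cases h0 : 2 + 2 * r = 0
  · -- the element `-1`
    have hr1 : r = -1 := by linear_combination (1 / 2 : F) * h0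
    have hp0 : p = 0 := by
      by_contra hp0
      have h1 : d * nrd p = 0 := by
        rw [hr1] at hn'
        linear_combination hn'
      exact (mul_ne_zero H.hd (H.nrd_ne hp0)) h1
    have hμ1 : μ = -1 := by
      rw [hμe, hp0, map_zero, mul_zero, add_zero, hr1, map_neg, map_one]
    obtain ⟨q, hq⟩ := D4.exists_nrd (a := α) (b := β) (Units.mk0 d H.hd)⁻¹ (fun ψ hα hβ => by
      rw [Units.val_inv_eq_inv_val, Units.val_mk0, map_inv₀, inv_pos]
      refine lt_of_le_of_ne ?_ (Ne.symm ((map_ne_zero ψ).2 H.hd))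
      by_contra hd
      have h1 := hpos ψ hα hβ (not_le.1 hd) _ hr
      rw [hr1, map_mul, map_neg, map_one, map_ofNat] at h1
      norm_num at h1)
    rw [Units.val_inv_eq_inv_val, Units.val_mk0] at hq
    refine ⟨s * φ q, mul_mem H.B.s_mem (H.φm q), ?_, ?_⟩
    · rw [star_mul, H.star_φ, H.B.star_s, hμ1]
      calc φ (star q) * -s * (s * φ q) = -(φ (star q) * (s * s) * φ q) := by noncomm_ring
        _ = -(ι d * (φ (star q) * φ q)) := by
          rw [H.B.ss, ← H.B.ιc (H.φm (star q)), mul_assoc]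
        _ = -1 := by rw [H.star_φ_mul, hq, ← map_mul, mul_inv_cancel₀ H.hd, map_one]
    · rw [H.B.mul _ H.B.s_mem _ (H.φm q), H.B.fs, H.bar_φ]
      calc s * φ q * (φ (star q) * s) = s * (φ q * φ (star q)) * s := by noncomm_ring
        _ = ι (nrd q) * (s * s) := by rw [H.φ_mul_star, ← H.B.ιs, mul_assoc]
        _ = 1 := by rw [hq, H.B.ss, ← map_mul, inv_mul_cancel₀ H.hd, map_one]
  · obtain ⟨q, hq⟩ := D4.exists_nrd (a := α) (b := β) (Units.mk0 _ h0) (fun ψ hα hβ => by
      rw [Units.val_mk0]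
      have h1 := congrArg ψ hn'
      rw [map_add, map_pow, map_mul, map_one] at h1
      rcases lt_trichotomy (ψ d) 0 with hd | hd | hd
      · have h2 := hpos ψ hα hβ hd _ hr
        rw [map_add, map_ofNat]
        linarith
      · exact absurd ((map_eq_zero ψ).1 hd) H.hd
      · have h2 := nrd_nonneg hα hβ p
        refine lt_of_le_of_ne ?_ (Ne.symm ((map_ne_zero ψ).2 h0))
        rw [map_add, map_mul, map_ofNat]
        have h3 : ψ r ^ 2 ≤ 1 := by nlinarith [mul_nonneg hd.le h2]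
        nlinarith [sq_nonneg (ψ r + 1), abs_le_of_sq_le_sq' (by rwa [one_pow] : ψ r ^ 2 ≤ 1 ^ 2)
          zero_le_one])
    exact H.exists_root_of hμ hs hn hr h0 hq

/-- The trace form. -/
theorem BarQ.tr_star_mul {x : D} (hx : x ∈ Cen ι) {ψ : F →+* ℝ} (hα : ψ α < 0) (hβ : ψ β < 0)
    (hd : ψ d < 0) : ∃ t : F, star x * x + bar (star x * x) = ι t ∧ 0 ≤ ψ t ∧
      (x ≠ 0 → 0 < ψ t) := by
  obtain ⟨q, q', h⟩ := H.exists_coord hx
  have h1 : star x * x = φ (star q * q - d • (star q' * q')) +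
      s * φ (star q * q' - star q' * q) := by
    rw [h, star_add, star_mul, H.star_φ, H.star_φ, H.B.star_s, map_sub, map_sub, map_mul, map_mul,
      map_mul, Algebra.smul_def, map_mul, map_mul, H.φ_coe]
    have e1 : φ (star q') * -s = -(s * φ (star q')) := by rw [mul_neg, H.φs]
    rw [e1]
    calc (φ (star q) + -(s * φ (star q'))) * (φ q + s * φ q')
        = φ (star q) * φ q - s * (φ (star q') * s) * φ q' +
          ((φ (star q) * s) * φ q' - s * (φ (star q') * φ q)) := by noncomm_ring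
      _ = φ (star q) * φ q - (s * s) * φ (star q') * φ q' +
          ((s * φ (star q)) * φ q' - s * (φ (star q') * φ q)) := by
        rw [← H.φs, ← H.φs]
        simp only [mul_assoc]
      _ = _ := by
        rw [H.B.ss]
        noncomm_ring
  have h2 : star x * x + bar (star x * x) = ι (2 * (nrd q - d * nrd q')) := by
    have hc : ∀ u : Qt α β, φ u + bar (φ u) = ι (2 * u.re) := H.tr_φ
    rw [h1, H.B.add _ (H.φm _) _ (mul_mem H.B.s_mem (H.φm _)), H.B.mul _ H.B.s_mem _ (H.φm _),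
      H.B.fs]
    have h3 : ∀ u w : Qt α β, φ u + s * φ w + (bar (φ u) + bar (φ w) * s) =
        (φ u + bar (φ u)) + s * (φ w + bar (φ w)) := by
      intro u w
      rw [mul_add, ← H.B.cs _ (H.B.mem _ (H.φm w))]
      abel
    rw [h3, hc, hc]
    have h4 : (star q * q' - star q' * q).re = 0 := by
      simp only [QuaternionAlgebra.re_sub, QuaternionAlgebra.re_mul, QuaternionAlgebra.re_star,
        QuaternionAlgebra.imI_star, QuaternionAlgebra.imJ_star, QuaternionAlgebra.imK_star]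
      ring
    have h5 : (star q * q - d • (star q' * q')).re = nrd q - d * nrd q' := by
      rw [star_mul_self_qt, star_mul_self_qt]
      simp [QuaternionAlgebra.algebraMap_eq]
    rw [h4, h5, mul_zero, map_zero, mul_zero, add_zero]
  refine ⟨_, h2, ?_, ?_⟩
  · rw [map_mul, map_sub, map_mul, map_ofNat]
    have h3 := nrd_nonneg hα hβ q
    have h4 := nrd_nonneg hα hβ q'
    nlinarith
  · intro hx0
    rw [map_mul, map_sub, map_mul, map_ofNat]
    have h3 := nrd_nonneg hα hβ q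
    have h4 := nrd_nonneg hα hβ q'
    by_cases hq : q = 0
    · have hq' : q' ≠ 0 := by
        rintro rfl
        rw [hq, map_zero, mul_zero, add_zero] at h
        exact hx0 h
      have h5 := H.nrd_pos hα hβ hq'
      nlinarith
    · have h5 := H.nrd_pos hα hβ hq
      nlinarith

/-- **The traces of the hermitian elements.** -/
theorem BarQ.pos_tr {ν e : D} (hν : ν ∈ Cen ι) (hs : star ν = ν) (he : e ∈ Cen ι) (he0 : e ≠ 0)
    {ψ : F →+* ℝ} (hα : ψ α < 0) (hβ : ψ β < 0) (hd : ψ d < 0) {r c t : F}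
    (h1 : ν + bar ν = ι r) (h2 : ν * bar ν = ι c) (hr : 0 < ψ r) (hc : 0 < ψ c)
    (ht : star e * ν * e + bar (star e * ν * e) = ι t) : 0 < ψ t := by
  have hse := H.B.star_mem he
  obtain ⟨t0, h3, -, h4⟩ := H.tr_star_mul he hα hβ hd
  obtain ⟨t1, h5, h6, -⟩ := H.tr_star_mul (mul_mem hν he) hα hβ hd
  have h7 : star (ν * e) * (ν * e) = ι r * (star e * ν * e) - ι c * (star e * e) := by
    have h8 : bar ν = ι r - ν := by rw [← h1]; abel
    rw [h8, mul_sub, ← H.B.ιc hν] at h2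
    have h9 : ν * ν = ι r * ν - ι c := by rw [← h2]; abel
    rw [star_mul, hs]
    calc star e * ν * (ν * e) = star e * (ν * ν) * e := by simp only [mul_assoc]
      _ = star e * (ι r * ν - ι c) * e := by rw [h9]
      _ = (star e * ι r) * ν * e - (star e * ι c) * e := by noncomm_ring
      _ = _ := by
        rw [← H.B.ιc hse, ← H.B.ιc hse]
        noncomm_ring
  have hm1 : star e * ν * e ∈ Cen ι := mul_mem (mul_mem hse hν) he
  have hm2 : star e * e ∈ Cen ι := mul_mem hse he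
  have h8 : ι t1 = ι (r * t - c * t0) := by
    rw [← h5, h7, H.B.sub (mul_mem (H.B.ι_mem _) hm1) (mul_mem (H.B.ι_mem _) hm2),
      H.B.mul _ (H.B.ι_mem _) _ hm1, H.B.mul _ (H.B.ι_mem _) _ hm2, H.B.fix, H.B.fix,
      ← H.B.ιc (H.B.mem _ hm1), ← H.B.ιc (H.B.mem _ hm2), map_sub, map_mul, map_mul, ← ht, ← h3]
    noncomm_ring
  have h9 := ι.injective h8
  have h10 := h4 he0
  rw [h9, map_sub, map_mul, map_mul] at h6
  have h11 : 0 < ψ r * ψ t := by nlinarith [mul_pos hc h10]
  exact (pos_iff_pos_of_mul_pos h11).1 hr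

end root

end Vale.Agent.P011.E6W.H619
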