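import Vale.Agent.P011.E6W.H619.Nrm
import Vale.Agent.P011.E6W.H619.Frm
import Vale.Agent.P011.E6W.H619.Exact

/-!
Block E6W (helper619): the elements of the group which are close to an element with a frame.
-/

open Filter Topology

set_option linter.unusedSectionVars false

namespace Vale.Agent.P011.E6W.H619

open Vale.Agent.P011.MPQ hiding mat
open Vale.Agent.P011.D4 Vale.Agent.P011.D4.Oct Vale.Agent.P011.E6 Alb
open Vale.Agent.P011.D4W
open Vale.Agent.P011.E6O
open Vale.Agent.P011.E6H (nm qnm qnm_nonneg)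
open Vale.Agent.P011.E6I (MQ toMQ toMQ_apply toMQ_mul toMQ_one InVs cub_of_inV)
open Vale.Agent.P011.E6I.Gn (Tm Tm_apply Tm_mul Tm_self Tm_inj Tm_cancel Tm_sq Tm_cube inV_ext
  inV_add inV_smul inV_adj inV_cross mat_mul_adj mat_adj_mul)
open Vale.Agent.P011.E6W.H183
open Matrix

section real

/-- The real roots of a cubic polynomial are bounded. -/
theorem root_le {p0 p1 p2 C ζ : ℝ} (h0 : |p0| ≤ C) (h1 : |p1| ≤ C) (h2 : |p2| ≤ C)
    (hζ : ζ ^ 3 = p2 * ζ ^ 2 + p1 * ζ + p0) : |ζ| ≤ 1 + 3 * C := by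
  have hC : 0 ≤ C := (abs_nonneg _).trans h0
  by_contra hcon
  push Not at hcon
  have hz1 : 1 ≤ |ζ| := by linarith
  have hz0 : 0 < |ζ| := by linarith
  have e1 : |ζ| ^ 3 ≤ C * |ζ| ^ 2 + C * |ζ| + C := by
    rw [← abs_pow, hζ]
    calc |p2 * ζ ^ 2 + p1 * ζ + p0| ≤ |p2 * ζ ^ 2| + |p1 * ζ| + |p0| := by
          refine (abs_add_le _ _).trans (add_le_add_left (abs_add_le _ _) _)
      _ ≤ C * |ζ| ^ 2 + C * |ζ| + C := by
          rw [abs_mul, abs_mul, abs_pow]
          have i1 := mul_le_mul_of_nonneg_right h2 (sq_nonneg |ζ|)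
          have i2 := mul_le_mul_of_nonneg_right h1 hz0.le
          linarith
  have e2 : |ζ| ≤ |ζ| ^ 2 := by nlinarith
  have e3 : (1 : ℝ) ≤ |ζ| ^ 2 := by nlinarith
  have e4 : |ζ| ^ 3 ≤ 3 * C * |ζ| ^ 2 := by
    have i1 := mul_le_mul_of_nonneg_left e2 hC
    have i2 := mul_le_mul_of_nonneg_left e3 hC
    linarith
  have e5 : |ζ| * |ζ| ^ 2 ≤ 3 * C * |ζ| ^ 2 := by
    have : |ζ| ^ 3 = |ζ| * |ζ| ^ 2 := by ring
    rw [← this]
    exact e4
  have e6 : |ζ| ≤ 3 * C := le_of_mul_le_mul_right e5 (by positivity)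
  linarith

/-- The values are positive. -/
theorem val_pos {t0 t1 t2 R δ ζ : ℝ} (hδ : δ * (1 + R + R ^ 2) ≤ 1)
    (h0 : |t0 - 4| < δ) (h1 : |t1| < δ) (h2 : |t2| < δ) (hζ : |ζ| ≤ R) :
    0 < t0 + t1 * ζ + t2 * ζ ^ 2 := by
  have hδ0 : 0 < δ := (abs_nonneg _).trans_lt h0
  have e0 := (abs_lt.1 h0).1
  have e1 : -(δ * R) ≤ t1 * ζ := by
    have i1 : |t1 * ζ| ≤ δ * R := by
      rw [abs_mul]
      exact mul_le_mul h1.le hζ (abs_nonneg _) hδ0.le
    exact (abs_le.1 i1).1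
  have e2 : -(δ * R ^ 2) ≤ t2 * ζ ^ 2 := by
    have i1 : |t2 * ζ ^ 2| ≤ δ * R ^ 2 := by
      rw [abs_mul, abs_pow]
      exact mul_le_mul h2.le (pow_le_pow_left₀ (abs_nonneg _) hζ 2) (by positivity) hδ0.le
    exact (abs_le.1 i1).1
  nlinarith

end real

section alg

variable {F R : Type} [Field F] [Ring R] [Algebra F R]

theorem dd_self (p₂ p₁ : F) (z : R) : dd p₂ p₁ z z = H541.fd p₂ p₁ z := by
  rw [dd, H541.fd, ← pow_two]
  module

theorem gd_comm {p₂ p₁ p₀ : F} {z w : R} (h : w * z = z * w) :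
    w * H541.gd p₂ p₁ p₀ z = H541.gd p₂ p₁ p₀ z * w := by
  have h2 : w * (z * z) = z * z * w := by rw [← mul_assoc, h, mul_assoc, h, mul_assoc]
  rw [H541.gd, mul_add, mul_add, add_mul, add_mul, mul_smul_comm, mul_smul_comm, mul_smul_comm,
    smul_mul_assoc, smul_mul_assoc, smul_mul_assoc, mul_one, one_mul, h, h2]

end alg

section near

variable {k E X : Type} [Field k] [NumberField k] [Field E] [NumberField E] [Algebra k E]
  {ρ σ : E ≃ₐ[k] E} {lam : Eˣ} {g : Fin 3 → Eˣ} {th s : E} {kap a b c : kˣ}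
  {W : WH ρ σ lam g th s kap a b c} {F : Filter X}

theorem inD_one' : InD ρ lam (1 : MQ E a b) := by
  rw [inD_iff]
  exact psi_one

theorem inD_sub' {m n : MQ E a b} (hm : InD ρ lam m) (hn : InD ρ lam n) :
    InD ρ lam (m - n) := by
  rw [sub_eq_add_neg, ← neg_one_smul E n]
  exact inD_add hm (inD_smul hn (by rw [map_neg, map_one]))

theorem inD_dd {m n : MQ E a b} (hm : InD ρ lam m) (hn : InD ρ lam n) (p2 p1 : k) :
    InD ρ lam (dd (algebraMap k E p2) (algebraMap k E p1) m n) := by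
  rw [dd]
  exact inD_sub' (inD_sub' (inD_add (inD_add (inD_pow hm 2) (hm.mul hn)) (inD_pow hn 2))
    (inD_smul (inD_add hm hn) (ρ.commutes _))) (inD_smul inD_one' (ρ.commutes _))

theorem inD_gd {m : MQ E a b} (hm : InD ρ lam m) (p2 p1 p0 : k) :
    InD ρ lam (H541.gd (algebraMap k E p2) (algebraMap k E p1) (algebraMap k E p0) m) := by
  have h2 : ρ (algebraMap k E p2) = algebraMap k E p2 := ρ.commutes _
  have h1 : ρ (algebraMap k E p1) = algebraMap k E p1 := ρ.commutes _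
  have h0 : ρ (algebraMap k E p0) = algebraMap k E p0 := ρ.commutes _
  rw [H541.gd]
  refine inD_add (inD_add (inD_smul inD_one' ?_) (inD_smul hm ?_)) (inD_smul (hm.mul hm) ?_)
  · simp only [map_add, map_sub, map_mul, map_pow, map_ofNat, h2, h1, h0]
  · simp only [map_add, map_mul, map_pow, map_ofNat, h2, h1, h0]
  · simp only [map_sub, map_neg, map_mul, map_pow, map_ofNat, h2, h1]

theorem dsc_map (p2 p1 p0 : k) : dsc (algebraMap k E p2) (algebraMap k E p1) (algebraMap k E p0) =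
    algebraMap k E (dsc p2 p1 p0) := by
  simp only [dsc, map_add, map_sub, map_mul, map_pow, map_ofNat]

theorem AV.eventually_ne {U : Type} [AddCommGroup U] [Module E U] {S : Set (AbsoluteValue E ℝ)}
    (hne : S.Nonempty) {f : X → U} {u : U} (hf : AV S F f u) (hu : u ≠ 0) :
    ∀ᶠ v in F, f v ≠ 0 := by
  obtain ⟨φ, hφ⟩ : ∃ φ : Module.Dual E U, φ u ≠ 0 := by
    by_contra hcon
    push Not at hcon
    exact hu ((Module.forall_dual_apply_eq_zero_iff E u).1 hcon)
  filter_upwards [(hf φ).eventually_ne hne hφ] with v hv h0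
  apply hv
  rw [h0, map_zero]

/-- The elements of `D ⊗ Q` different from zero are invertible. -/
theorem exists_unit (W : WH ρ σ lam g th s kap a b c) {m : MQ E a b} (hm : InD ρ lam m)
    (h0 : m ≠ 0) : ∃ u : (MQ E a b)ˣ, (u : MQ E a b) = m := by
  obtain ⟨M, hM⟩ : ∃ M : BW W, toW W M = m := ⟨ofW W hm, rfl⟩
  have hM0 : M ≠ 0 := by
    rintro rfl
    rw [map_zero] at hM
    exact h0 hM.symm
  exact ⟨⟨toW W M, toW W M⁻¹, by rw [← map_mul, mul_inv_cancel₀ hM0, map_one],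
    by rw [← map_mul, inv_mul_cancel₀ hM0, map_one]⟩, hM⟩

/-- **The elements of the group which are close to an element with a frame.** -/
theorem near_res (W : WH ρ σ lam g th s kap a b c) (hSq : SqRes ρ σ lam g a b c)
    {h : X → AlbL E a b c ≃ₗ[E] AlbL E a b c} {n0 : AlbL E a b c ≃ₗ[E] AlbL E a b c}
    (hh : ∀ i, h i ∈ GO ρ σ lam g a b c)
    (hlim : ∀ y, AV (SA E) F (fun i => h i y) (n0 y)) {v0 x0 : AlbL E a b c}
    (hv0 : InVs v0) (hx0 : InVs x0) (nv0 : cub v0 ≠ 0) (nx0 : cub x0 ≠ 0)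
    (fv : n0 v0 = v0) (fx : n0 x0 = x0)
    (hD : InD ρ lam (Tm v0 x0)) (hs : adjM σ g (Tm v0 x0) = Tm v0 x0)
    (hind : ∀ t : Fin 3 → E, ez (Tm v0 x0) t = 0 → t = 0)
    (hU : ∀ y, InVs y → InVs (n0 y) → ∃ t : Fin 3 → E, Alb.mat y = ez (Tm v0 x0) t * Alb.mat v0)
    {q : Fin 3 → k} (hq : Tm v0 x0 ^ 3 = ez (Tm v0 x0) (fun i => algebraMap k E (q i)))
    (hdq : dsc (algebraMap k E (q 2)) (algebraMap k E (q 1)) (algebraMap k E (q 0)) ≠ 0)
    (hB : ∃ t : ℝ, 0 < t ∧ ∀ (z : MQ E a b) (v : AlbL E a b c) (p₂ p₁ p₀ : k),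
      Frame ρ σ lam g z v p₂ p₁ p₀ → NearM t (Tm v0 x0) z → NearV t v0 v →
      ∀ d ∈ GO ρ σ lam g a b c, FixFr z v d → d ∈ Res ρ σ lam g a b c) :
    ∀ᶠ i in F, h i ∈ Res ρ σ lam g a b c := by
  have hne : (SA E).Nonempty := SA_nonempty
  have hcub : ∀ i y, cub (h i y) = cub y := fun i => (hh i).1
  have hph : ∀ i y, h i (E6O.ph ρ lam y) = E6O.ph ρ lam (h i y) := fun i => (hh i).2.1
  have hpol : ∀ i y, h i (H183.pol σ g y) = H183.pol σ g (h i y) := fun i y =>
    map_pol W.rel.σ2 (hh i).1 (hh i).2.2 y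
  obtain ⟨v, x, lv, lx, hF⟩ := exists_frames hne (Stb_SA ρ) (Stb_SA σ) W.rel W.ρ3 W.ρlam hcub hph
    hpol hlim hv0 hx0 nv0 nx0 fv fx hD hs hind hU
  have hUV : ∀ i, ∀ y ∈ UW (h i), InVs (h i y) := fun i y hy => hy.2
  obtain ⟨z0, hz0⟩ : ∃ z0, z0 = Tm v0 x0 := ⟨_, rfl⟩
  rw [← hz0] at hD hs hind hU hq hB
  -- the limits of the quotients
  have iv : ∀ᶠ i in F, InVs (v i) := hF.mono fun i hi => hi.1.hv
  have lz : AV (SA E) F (fun i => Tm (v i) (x i)) z0 := by
    rw [hz0]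
    exact Tm_lim hne lv lx iv hv0 nv0
  have lhv : AV (SA E) F (fun i => h i (v i)) v0 := by
    have h1 := AV.app (h := fun i => (h i : AlbL E a b c →ₗ[E] AlbL E a b c))
      (h0 := (n0 : AlbL E a b c →ₗ[E] AlbL E a b c)) hlim lv
    refine h1.congr (fun _ => rfl) fv
  have lhx : AV (SA E) F (fun i => h i (x i)) x0 := by
    have h1 := AV.app (h := fun i => (h i : AlbL E a b c →ₗ[E] AlbL E a b c))
      (h0 := (n0 : AlbL E a b c →ₗ[E] AlbL E a b c)) hlim lx
    refine h1.congr (fun _ => rfl) fx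
  have ihv : ∀ᶠ i in F, InVs (h i (v i)) := hF.mono fun i hi => hUV i _ hi.1.mv
  have lz' : AV (SA E) F (fun i => Tm (h i (v i)) (h i (x i))) z0 := by
    rw [hz0]
    exact Tm_lim hne lhv lhx ihv hv0 nv0
  -- the polynomials
  obtain ⟨p, hp⟩ : ∃ p : X → Fin 3 → k, ∀ i, (Frs ρ σ lam g (UW (h i)) (v i) (x i) ∧
      InD ρ lam (Tm (v i) (x i)) ∧ adjM σ g (Tm (v i) (x i)) = Tm (v i) (x i)) →
      Tm (v i) (x i) ^ 3 = ez (Tm (v i) (x i)) (fun j => algebraMap k E (p i j)) := by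
    have h1 : ∀ i, ∃ p : Fin 3 → k, (Frs ρ σ lam g (UW (h i)) (v i) (x i) ∧
        InD ρ lam (Tm (v i) (x i)) ∧ adjM σ g (Tm (v i) (x i)) = Tm (v i) (x i)) →
        Tm (v i) (x i) ^ 3 = ez (Tm (v i) (x i)) (fun j => algebraMap k E (p j)) := by
      intro i
      by_cases hi : Frs ρ σ lam g (UW (h i)) (v i) (x i) ∧
        InD ρ lam (Tm (v i) (x i)) ∧ adjM σ g (Tm (v i) (x i)) = Tm (v i) (x i)
      · obtain ⟨D, hDi, hsi⟩ := hi
        obtain ⟨P2, P1, P0, hP⟩ : ∃ P2 P1 P0 : E, Tm (v i) (x i) ^ 3 = P2 • Tm (v i) (x i) ^ 2 +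
            P1 • Tm (v i) (x i) + P0 • (1 : MQ E a b) := ⟨_, _, _, D.cube⟩
        obtain ⟨⟨f2, f1, f0⟩, g2, g1, g0⟩ := coef_fix W.rel hDi hsi hP D.ind
        obtain ⟨p2, hp2⟩ := exists_kW W f2 g2
        obtain ⟨p1, hp1⟩ := exists_kW W f1 g1
        obtain ⟨p0, hp0⟩ := exists_kW W f0 g0
        refine ⟨![p0, p1, p2], fun _ => ?_⟩
        rw [hP, ez]
        change _ = algebraMap k E p0 • 1 + algebraMap k E p1 • Tm (v i) (x i) +
          algebraMap k E p2 • Tm (v i) (x i) ^ 2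
        rw [hp0, hp1, hp2]
        abel
      · exact ⟨0, fun h => absurd h hi⟩
    choose p hp using h1
    exact ⟨p, hp⟩
  have lp : ∀ j, AE (SA E) F (fun i => algebraMap k E (p i j)) (algebraMap k E (q j)) := by
    refine ez_coef hne lz hind (t := fun i j => algebraMap k E (p i j))
      (t0 := fun j => algebraMap k E (q j)) ?_
    have h1 := lz.pow 3
    rw [hq] at h1
    refine h1.congr' ?_
    filter_upwards [hF] with i hi
    exact hp i hi
  -- the intertwining matrices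
  obtain ⟨m, hm⟩ : ∃ m : X → MQ E a b, m = fun i => dd (algebraMap k E (p i 2))
    (algebraMap k E (p i 1)) (Tm (h i (v i)) (h i (x i))) (Tm (v i) (x i)) := ⟨_, rfl⟩
  have lm : AV (SA E) F m (H541.fd (algebraMap k E (q 2)) (algebraMap k E (q 1)) z0) := by
    rw [hm, ← dd_self]
    exact ((((lz'.pow 2).add (lz'.mul lz)).add (lz.pow 2)).sub
      (AV.smul (lp 2) (lz'.add lz))).sub (AV.smul (lp 1) (AV.const _ _ 1))
  obtain ⟨G, hG⟩ : ∃ G : X → MQ E a b, G = fun i =>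
    (-dsc (algebraMap k E (p i 2)) (algebraMap k E (p i 1)) (algebraMap k E (p i 0)))⁻¹ •
      H541.gd (algebraMap k E (p i 2)) (algebraMap k E (p i 1)) (algebraMap k E (p i 0))
        (Tm (v i) (x i)) := ⟨_, rfl⟩
  have lG : AV (SA E) F G
      ((-dsc (algebraMap k E (q 2)) (algebraMap k E (q 1)) (algebraMap k E (q 0)))⁻¹ •
      H541.gd (algebraMap k E (q 2)) (algebraMap k E (q 1)) (algebraMap k E (q 0)) z0) := by
    rw [hG]
    have c0 := fun (t : E) => AE.const (SA E) F t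
    have i1 := lp 2
    have i2 := lp 1
    have i3 := lp 0
    refine AV.smul (AE.inv (AE.neg ?_) (neg_ne_zero.2 hdq)) ?_
    · exact (((((i1.pow 2).mul (i2.pow 2)).add ((c0 4).mul (i2.pow 3))).sub
        (((c0 4).mul (i1.pow 3)).mul i3)).sub ((((c0 18).mul i1).mul i2).mul i3)).sub
        ((c0 27).mul (i3.pow 2))
    · exact ((AV.smul (((i2.mul (i1.pow 2)).add ((c0 4).mul (i2.pow 2))).sub
        (((c0 3).mul i3).mul i1)) (AV.const _ _ 1)).add
        (AV.smul ((((c0 2).mul (i1.pow 3)).add (((c0 7).mul i2).mul i1)).add ((c0 9).mul i3))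
          lz)).add (AV.smul (((c0 2).mul (i1.pow 2)).neg.sub ((c0 6).mul i2)) (lz.mul lz))
  have hq' : z0 * z0 * z0 = algebraMap k E (q 2) • (z0 * z0) + algebraMap k E (q 1) • z0 +
      algebraMap k E (q 0) • (1 : MQ E a b) := by
    rw [← pow_two, ← pow_succ, hq, ez]
    abel
  have lmG : AV (SA E) F (fun i => m i * G i) 1 := by
    refine (lm.mul lG).congr (fun _ => rfl) ?_
    rw [Matrix.mul_smul, H541.fd_mul_gd hq', smul_smul, inv_mul_cancel₀ (neg_ne_zero.2 hdq),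
      one_smul]
  have hInt : ∀ᶠ i in F, m i * G i * Tm (v i) (x i) =
      Tm (h i (v i)) (h i (x i)) * (m i * G i) := by
    filter_upwards [hF] with i hi
    have h1 := hp i hi
    obtain ⟨D, hDi, hsi⟩ := hi
    have h2 : Tm (v i) (x i) ^ 3 = algebraMap k E (p i 2) • Tm (v i) (x i) ^ 2 +
        algebraMap k E (p i 1) • Tm (v i) (x i) + algebraMap k E (p i 0) • (1 : MQ E a b) := by
      rw [h1, ez]
      abel
    have h3 := D.toFr.cube_map (hcub i) (hUV i) h2
    have h4 := dd_comm h3 h2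
    have h5 : Tm (v i) (x i) * G i = G i * Tm (v i) (x i) := by
      rw [hG]
      beta_reduce
      rw [mul_smul_comm, smul_mul_assoc, gd_comm rfl]
    have h6 : m i = dd (algebraMap k E (p i 2)) (algebraMap k E (p i 1))
      (Tm (h i (v i)) (h i (x i))) (Tm (v i) (x i)) := by rw [hm]
    rw [mul_assoc, ← h5, ← mul_assoc, h6, ← h4, mul_assoc]
  have hInD : ∀ᶠ i in F, InD ρ lam (m i * G i) := by
    filter_upwards [hF] with i hi
    obtain ⟨D, hDi, hsi⟩ := hi
    have h1 := D.inD_map (hcub i) (hUV i) (hph i) hDi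
    rw [hm, hG]
    refine (inD_dd h1 hDi _ _).mul (inD_smul (inD_gd hDi _ _ _) ?_)
    rw [dsc_map, ← map_neg, ← map_inv₀]
    exact ρ.commutes _
  -- the units
  obtain ⟨mu, hmu⟩ : ∃ mu : X → (MQ E a b)ˣ, ∀ i, InD ρ lam (m i * G i) → m i * G i ≠ 0 →
      ((mu i : (MQ E a b)ˣ) : MQ E a b) = m i * G i := by
    have h1 : ∀ i, ∃ u : (MQ E a b)ˣ, InD ρ lam (m i * G i) → m i * G i ≠ 0 →
        (u : MQ E a b) = m i * G i := by
      intro i
      by_cases hi : InD ρ lam (m i * G i) ∧ m i * G i ≠ 0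
      · obtain ⟨u, hu⟩ := exists_unit W hi.1 hi.2
        exact ⟨u, fun _ _ => hu⟩
      · exact ⟨1, fun h1 h2 => absurd ⟨h1, h2⟩ hi⟩
    choose mu hmu using h1
    exact ⟨mu, hmu⟩
  have hmu' : ∀ᶠ i in F, m i * G i = ((mu i : (MQ E a b)ˣ) : MQ E a b) := by
    filter_upwards [hInD, lmG.eventually_ne hne one_ne_zero] with i h1 h2
    exact (hmu i h1 h2).symm
  have lmu : AV (SA E) F (fun i => ((mu i : (MQ E a b)ˣ) : MQ E a b)) 1 := lmG.congr' hmu'
  have linv : AV (SA E) F (fun i => (((mu i)⁻¹ : (MQ E a b)ˣ) : MQ E a b)) 1 :=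
    AV.inv hne lmu (one_mul 1) (one_mul 1) (Eventually.of_forall fun i => Units.mul_inv (mu i))
  have lmi : AV (SA E) F (fun i => mi (h i (v i))) (mi v0) := mi_lim hne lhv ihv hv0 nv0
  have lmi' : AV (SA E) F (fun i => mi (v i)) (mi v0) := mi_lim hne lv iv hv0 nv0
  obtain ⟨L, hL⟩ : ∃ L : X → MQ E a b, L = fun i => (((mu i)⁻¹ : (MQ E a b)ˣ) : MQ E a b) *
      (((mu i : (MQ E a b)ˣ) : MQ E a b) * Alb.mat (v i) * ((mu i : (MQ E a b)ˣ) : MQ E a b)ᴴ *
        mi (h i (v i))) * ((mu i : (MQ E a b)ˣ) : MQ E a b) := ⟨_, rfl⟩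
  have lL : AV (SA E) F L 1 := by
    rw [hL]
    refine ((linv.mul (((lmu.mul lv.mat).mul lmu.ct).mul lmi)).mul lmu).congr (fun _ => rfl) ?_
    rw [Matrix.conjTranspose_one, Matrix.mul_one, Matrix.one_mul, Matrix.one_mul,
      Matrix.mul_one, mat_mul_mi hv0 nv0]
  obtain ⟨SS, hSS⟩ : ∃ SS : X → MQ E a b, SS = fun i =>
      adjM σ g ((mu i : (MQ E a b)ˣ) : MQ E a b) * ((mu i : (MQ E a b)ˣ) : MQ E a b) := ⟨_, rfl⟩
  have lS : AV (SA E) F SS 1 := by
    rw [hSS]
    refine ((lmu.adjM (g := g) (Stb_SA σ)).mul lmu).congr (fun _ => rfl) ?_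
    rw [adjM_one, Matrix.one_mul]
  obtain ⟨M, hM⟩ : ∃ M : X → MQ E a b, M = fun i => SS i + barM (v i) (SS i) +
      (L i + adjM σ g (L i)) := ⟨_, rfl⟩
  have lM : AV (SA E) F M (ez z0 (fun j => algebraMap k E ((![4, 0, 0] : Fin 3 → k) j))) := by
    have lb : AV (SA E) F (fun i => barM (v i) (SS i)) 1 := by
      refine ((lv.mat.mul lS.ct).mul lmi').congr (fun i => ?_) ?_
      · rw [barM, mi, Matrix.mul_smul]
      · rw [Matrix.conjTranspose_one, Matrix.mul_one, mat_mul_mi hv0 nv0]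
    rw [hM]
    refine ((lS.add lb).add (lL.add (lL.adjM (g := g) (Stb_SA σ)))).congr (fun _ => rfl) ?_
    rw [adjM_one, ez]
    change _ = algebraMap k E 4 • (1 : MQ E a b) + algebraMap k E 0 • z0 +
      algebraMap k E 0 • z0 ^ 2
    rw [map_zero, zero_smul, zero_smul, add_zero, add_zero, map_ofNat]
    module
  -- the bounds
  obtain ⟨C, hC⟩ : ∃ C : ℝ, ∀ (w : E →+* ℂ) (j : Fin 3), ‖w (algebraMap k E (q j))‖ ≤ C := by
    have hfin : (Set.range fun wj : (E →+* ℂ) × Fin 3 =>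
      ‖wj.1 (algebraMap k E (q wj.2))‖).Finite := Set.finite_range _
    obtain ⟨C, hC⟩ := hfin.bddAbove
    exact ⟨C, fun w j => hC ⟨(w, j), rfl⟩⟩
  obtain ⟨w0⟩ : Nonempty (E →+* ℂ) := inferInstance
  have hC0 : 0 ≤ C := (norm_nonneg _).trans (hC w0 0)
  obtain ⟨R, hR⟩ : ∃ R, R = 1 + 3 * (C + 1) := ⟨_, rfl⟩
  have hR0 : 0 ≤ R := by rw [hR]; positivity
  obtain ⟨δ, hδ⟩ : ∃ δ, δ = (1 + R + R ^ 2)⁻¹ := ⟨_, rfl⟩
  have hRR : 0 < 1 + R + R ^ 2 := by positivity
  have hδ0 : 0 < δ := by rw [hδ]; positivity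
  have hδR : δ * (1 + R + R ^ 2) ≤ 1 := by
    rw [hδ, inv_mul_cancel₀ hRR.ne']
  have hδ1 : δ ≤ 1 := by
    rw [hδ]
    apply inv_le_one_of_one_le₀
    nlinarith
  have hMt := ez_coef_all hne SA_finite lz hind lM hδ0
  have hpt : ∀ᶠ i in F, ∀ p' ∈ SA E, ∀ j,
      p' (algebraMap k E (p i j) - algebraMap k E (q j)) < 1 := by
    rw [eventually_all_finite SA_finite]
    intro p' hp'
    rw [eventually_all]
    intro j
    exact (lp j).eventually_lt hp' one_pos
  -- the proximity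
  obtain ⟨t, ht0, hB⟩ := hB
  have hnz : ∀ᶠ i in F, NearM t z0 (Tm (v i) (x i)) := by
    unfold NearM
    rw [eventually_all]
    intro w
    filter_upwards [(tendsto_mnm lz w).eventually (gt_mem_nhds ht0)] with i hi
    exact hi.le
  have hnv : ∀ᶠ i in F, NearV t v0 (v i) := by
    unfold NearV
    rw [eventually_all]
    intro w
    filter_upwards [(tendsto_nm lv w).eventually (gt_mem_nhds ht0)] with i hi
    exact hi.le
  filter_upwards [hF, hInt, hInD, hmu', hMt, hpt, hnz, hnv] with i hi h1 h2 h3 h4 h5 h6 h7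
  have hpi := hp i hi
  obtain ⟨D, hDi, hsi⟩ := hi
  rw [h3] at h1 h2
  have D' := D.toFr.map (hcub i) (hUV i)
  refine mem_of_frame W hSq (hh i) D (hUV i) hDi hsi h2 h1 ?_ ?_
  · intro w hw hact tt pp hpp hMM
    -- the coefficients of the cubic relation
    have hpe : pp = p i := by
      rw [hpi] at hpp
      have e1 : ez (Tm (v i) (x i)) ((fun j => algebraMap k E (p i j)) +
          (-1 : E) • fun j => algebraMap k E (pp j)) = 0 := by
        rw [ez_add, ez_smul, ← hpp]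
        module
      obtain ⟨d0, d1, d2⟩ := D.ind _ _ _ e1
      have e2 : ∀ j, algebraMap k E (p i j) + -1 * algebraMap k E (pp j) = 0 := by
        intro j
        fin_cases j
        · exact d0
        · exact d1
        · exact d2
      funext j
      apply (algebraMap k E).injective
      linear_combination -(e2 j)
    -- the element
    have hL' : L i = Tm (v i) w := by
      have e1 := D.toFr.intw (hcub i) (hUV i) h1 hw
      have e2 : ((mu i : (MQ E a b)ˣ) : MQ E a b) * Alb.mat (v i) *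
          ((mu i : (MQ E a b)ˣ) : MQ E a b)ᴴ = Alb.mat (h i w) := by
        rw [← hact, E6.mat_act]
      rw [hL]
      beta_reduce
      rw [e2, ← Tm_eq, Matrix.mul_assoc, ← e1, ← Matrix.mul_assoc, Units.inv_mul, Matrix.one_mul]
    have hM' : M i = ez (Tm (v i) (x i)) (fun j => algebraMap k E (tt j)) := by
      rw [← hMM, hM, MM, hSS, ← hL']
    have h8 := h4 _ hM'
    refine ⟨?_, ?_⟩
    · rintro rfl
      have e1 := h8 _ ⟨w0, rfl⟩ 0
      rw [NumberField.place_apply] at e1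
      have e2 : w0 (algebraMap k E ((0 : Fin 3 → k) 0) -
          algebraMap k E ((![4, 0, 0] : Fin 3 → k) 0)) = -4 := by
        rw [Pi.zero_apply, map_zero, zero_sub, map_neg]
        change -w0 (algebraMap k E 4) = _
        rw [map_ofNat, map_ofNat]
      rw [e2, _root_.norm_neg] at e1
      have e3 : ‖(4 : ℂ)‖ = 4 := by norm_num
      rw [e3] at e1
      linarith
    · intro τ ζ hζ
      obtain ⟨w1, hw1⟩ := exists_w (E := E) τ
      have hn : ∀ y y' : k, NumberField.place w1 (algebraMap k E y - algebraMap k E y') =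
          |τ y - τ y'| := by
        intro y y'
        rw [NumberField.place_apply, map_sub, hw1, hw1, ← Complex.ofReal_sub, Complex.norm_real,
          Real.norm_eq_abs]
      have hn' : ∀ y : k, ‖w1 (algebraMap k E y)‖ = |τ y| := by
        intro y
        rw [hw1, Complex.norm_real, Real.norm_eq_abs]
      have hpb : ∀ j, |τ (p i j)| ≤ C + 1 := by
        intro j
        have e1 := h5 _ ⟨w1, rfl⟩ j
        rw [hn] at e1
        have e2 := hC w1 j
        rw [hn'] at e2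
        have e3 : |τ (p i j)| ≤ |τ (p i j) - τ (q j)| + |τ (q j)| := by
          have := abs_add_le (τ (p i j) - τ (q j)) (τ (q j))
          rwa [sub_add_cancel] at this
        linarith
      rw [hpe] at hζ
      have hζR : |ζ| ≤ R := by
        rw [hR]
        exact root_le (hpb 0) (hpb 1) (hpb 2) hζ
      have f0 := h8 _ ⟨w1, rfl⟩ 0
      have f1 := h8 _ ⟨w1, rfl⟩ 1
      have f2 := h8 _ ⟨w1, rfl⟩ 2
      rw [hn] at f0 f1 f2
      refine val_pos hδR ?_ ?_ ?_ hζR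
      · rw [← map_ofNat τ 4]
        exact f0
      · have : (![4, 0, 0] : Fin 3 → k) 1 = 0 := rfl
        rw [this, map_zero, sub_zero] at f1
        exact f1
      · have : (![4, 0, 0] : Fin 3 → k) 2 = 0 := rfl
        rw [this, map_zero, sub_zero] at f2
        exact f2
  · intro d hd hdf
    have hfr : Frame ρ σ lam g (Tm (v i) (x i)) (v i) (p i 2) (p i 1) (p i 0) := by
      refine ⟨hDi, hsi, ?_, D.hv, D.nv, D.toFr.herm⟩
      rw [hpi, ez]
      abel
    refine hB _ _ _ _ _ hfr h6 h7 d hd ?_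
    rintro y hy ⟨t0, t1, t2, ht⟩
    apply hdf
    have e : y = t0 • v i + t1 • x i + t2 • sqv (v i) (x i) := by
      refine inV_ext hy (D.inV _ (D.comb_mem _ _ _)) ?_
      rw [ht, ← Tm_mul D.hv D.nv (t0 • v i + t1 • x i + t2 • sqv (v i) (x i)), D.comb]
    rw [e]
    exact D.comb_mem _ _ _

end near

end Vale.Agent.P011.E6W.H619
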