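import Vale.Agent.P011.E6W.H619.LimM
import Vale.Agent.P011.E6W.Defs

/-!
Block E6W (helper619): limits at the archimedean places.
-/

open Filter Topology

set_option linter.unusedSectionVars false

namespace Vale.Agent.P011.E6W.H619

open Vale.Agent.P011.MPQ hiding mat
open Vale.Agent.P011.D4 Vale.Agent.P011.D4.Oct Vale.Agent.P011.E6 Alb
open Vale.Agent.P011.D4W
open Vale.Agent.P011.E6O
open Vale.Agent.P011.E6H (nm qnm qnm_nonneg)
open Vale.Agent.P011.E6I (MQ toMQ toMQ_apply toMQ_mul toMQ_one InVs cub_of_inV)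
open Vale.Agent.P011.E6W.H183
open Matrix

section sa

/-- The archimedean absolute values. -/
def SA (E : Type) [Field E] : Set (AbsoluteValue E ℝ) :=
  Set.range fun w : E →+* ℂ => NumberField.place w

variable {k E X : Type} [Field k] [NumberField k] [Field E] [NumberField E] [Algebra k E]
  {F : Filter X}

theorem SA_nonempty : (SA E).Nonempty := by
  obtain ⟨w⟩ : Nonempty (E →+* ℂ) := inferInstance
  exact ⟨_, w, rfl⟩

theorem SA_finite : (SA E).Finite := Set.finite_range _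

theorem Stb_SA (r : E ≃ₐ[k] E) : Stb (SA E) r := by
  rintro _ ⟨w, rfl⟩
  refine ⟨_, ⟨w.comp (r : E →+* E), rfl⟩, fun ε hε => ⟨ε, hε, fun z hz => ?_⟩⟩
  simpa [NumberField.place_apply] using hz

theorem AE_SA {f : X → E} {u : E} : AE (SA E) F f u ↔
    ∀ w : E →+* ℂ, Tendsto (fun v => ‖w (f v - u)‖) F (𝓝 0) := by
  constructor
  · intro h w
    have h1 := h _ ⟨w, rfl⟩
    simpa [NumberField.place_apply] using h1
  · rintro h _ ⟨w, rfl⟩
    have h1 := h w
    simpa [NumberField.place_apply] using h1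

/-- Extension of the real embeddings. -/
theorem exists_w (τ : k →+* ℝ) : ∃ w : E →+* ℂ, ∀ x : k, w (algebraMap k E x) = (τ x : ℂ) := by
  let _ : Algebra k ℂ := (Complex.ofRealHom.comp τ).toAlgebra
  have _ : Algebra.IsAlgebraic k E := inferInstance
  exact ⟨(IsAlgClosed.lift : E →ₐ[k] ℂ), fun x => (IsAlgClosed.lift : E →ₐ[k] ℂ).commutes x⟩

end sa

section nm

variable {k E X : Type} [Field k] [NumberField k] [Field E] [NumberField E] [Algebra k E]
  {F : Filter X} {a b c : kˣ}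

theorem q0_le (w : E →+* ℂ) (j : Fin 4) (x : Qt (up E a) (up E b)) :
    ‖w (q0L j x)‖ ≤ qnm w x := by
  have h1 := norm_nonneg (w x.re)
  have h2 := norm_nonneg (w x.imI)
  have h3 := norm_nonneg (w x.imJ)
  have h4 := norm_nonneg (w x.imK)
  unfold qnm
  fin_cases j
  · change ‖w x.re‖ ≤ _
    linarith
  · change ‖w x.imI‖ ≤ _
    linarith
  · change ‖w x.imJ‖ ≤ _
    linarith
  · change ‖w x.imK‖ ≤ _
    linarith

theorem dL_le (w : E →+* ℂ) (i : Fin 3) (x : AlbL E a b c) : ‖w (dL i x)‖ ≤ nm w x := by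
  have h1 := qnm_nonneg w x.x1.fst
  have h2 := qnm_nonneg w x.x1.snd
  have h3 := qnm_nonneg w x.x2.fst
  have h4 := qnm_nonneg w x.x2.snd
  have h5 := qnm_nonneg w x.x3.fst
  have h6 := qnm_nonneg w x.x3.snd
  have h7 := norm_nonneg (w x.d1)
  have h8 := norm_nonneg (w x.d2)
  have h9 := norm_nonneg (w x.d3)
  unfold nm
  fin_cases i
  · change ‖w x.d1‖ ≤ _
    linarith
  · change ‖w x.d2‖ ≤ _
    linarith
  · change ‖w x.d3‖ ≤ _
    linarith

theorem xL_le (w : E →+* ℂ) (i : Fin 6) (x : AlbL E a b c) : qnm w (xL i x) ≤ nm w x := by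
  have h1 := qnm_nonneg w x.x1.fst
  have h2 := qnm_nonneg w x.x1.snd
  have h3 := qnm_nonneg w x.x2.fst
  have h4 := qnm_nonneg w x.x2.snd
  have h5 := qnm_nonneg w x.x3.fst
  have h6 := qnm_nonneg w x.x3.snd
  have h7 := norm_nonneg (w x.d1)
  have h8 := norm_nonneg (w x.d2)
  have h9 := norm_nonneg (w x.d3)
  unfold nm
  fin_cases i
  · change qnm w x.x1.fst ≤ _
    linarith
  · change qnm w x.x1.snd ≤ _
    linarith
  · change qnm w x.x2.fst ≤ _
    linarith
  · change qnm w x.x2.snd ≤ _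
    linarith
  · change qnm w x.x3.fst ≤ _
    linarith
  · change qnm w x.x3.snd ≤ _
    linarith

/-- All the coordinates. -/
def coL : AlbL E a b c →ₗ[E] (Fin 3 ⊕ (Fin 6 × Fin 4) → E) :=
  LinearMap.pi (Sum.elim (fun i => dL i) fun p => (q0L p.2).comp (xL p.1))

theorem coL_inl (i : Fin 3) (x : AlbL E a b c) : coL x (Sum.inl i) = dL i x := rfl

theorem coL_inr (p : Fin 6 × Fin 4) (x : AlbL E a b c) :
    coL x (Sum.inr p) = q0L p.2 (xL p.1 x) := rfl

theorem q_eq_zero {x : Qt (up E a) (up E b)} (h : ∀ j, q0L j x = 0) : x = 0 :=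
  QuaternionAlgebra.ext (h 0) (h 1) (h 2) (h 3)

theorem coL_inj {x : AlbL E a b c} (h : coL x = 0) : x = 0 := by
  have h1 : ∀ i, dL i x = 0 := fun i => congrFun h (Sum.inl i)
  have h2 : ∀ i, xL i x = 0 := fun i => q_eq_zero fun j => congrFun h (Sum.inr (i, j))
  apply Alb.ext
  · exact h1 0
  · exact h1 1
  · exact h1 2
  · exact Oct.ext (h2 0) (h2 1)
  · exact Oct.ext (h2 2) (h2 3)
  · exact Oct.ext (h2 4) (h2 5)

/-- Convergence in norm implies convergence. -/
theorem AV_of_nm {f : X → AlbL E a b c} {u : AlbL E a b c}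
    (h : ∀ w : E →+* ℂ, Tendsto (fun v => nm w (f v - u)) F (𝓝 0)) : AV (SA E) F f u := by
  refine AV.of_inj coL (V := ⊤) (fun y _ hy => coL_inj hy) (Eventually.of_forall fun _ => trivial)
    trivial ?_
  refine AV.of_basis (Pi.basisFun E _) fun i => ?_
  rw [AE_SA]
  intro w
  refine squeeze_zero (fun v => norm_nonneg _) (fun v => ?_) (h w)
  have e : (Pi.basisFun E (Fin 3 ⊕ (Fin 6 × Fin 4))).repr (coL (f v)) i -
      (Pi.basisFun E (Fin 3 ⊕ (Fin 6 × Fin 4))).repr (coL u) i = coL (f v - u) i := by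
    rw [Pi.basisFun_repr, Pi.basisFun_repr, map_sub]
    rfl
  rw [e]
  rcases i with i | ⟨i, j⟩
  · exact dL_le w i _
  · exact (q0_le w j _).trans (xL_le w i _)

theorem AE.tendsto_norm {f : X → E} {u : E} (h : AE (SA E) F f u) (w : E →+* ℂ) :
    Tendsto (fun v => ‖w (f v - u)‖) F (𝓝 0) := AE_SA.1 h w

theorem tendsto_qnm {f : X → Qt (up E a) (up E b)} {u : Qt (up E a) (up E b)}
    (h : ∀ j, AE (SA E) F (fun v => q0L j (f v)) (q0L j u)) (w : E →+* ℂ) :
    Tendsto (fun v => qnm w (f v - u)) F (𝓝 0) := by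
  have h0 := AE.tendsto_norm (h 0) w
  have h1 := AE.tendsto_norm (h 1) w
  have h2 := AE.tendsto_norm (h 2) w
  have h3 := AE.tendsto_norm (h 3) w
  have h4 := ((h0.add h1).add h2).add h3
  simp only [add_zero] at h4
  exact h4

/-- Convergence implies convergence in norm. -/
theorem tendsto_nm {f : X → AlbL E a b c} {u : AlbL E a b c} (h : AV (SA E) F f u)
    (w : E →+* ℂ) : Tendsto (fun v => nm w (f v - u)) F (𝓝 0) := by
  have hd : ∀ i, Tendsto (fun v => ‖w (dL i (f v) - dL i u)‖) F (𝓝 0) := fun i =>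
    AE.tendsto_norm (h (dL i)) w
  have hx : ∀ i, Tendsto (fun v => qnm w (xL i (f v) - xL i u)) F (𝓝 0) := fun i =>
    tendsto_qnm (fun j => h ((q0L j).comp (xL i))) w
  have h4 := (((((hd 0).add (hd 1)).add (hd 2)).add ((hx 0).add (hx 1))).add
    ((hx 2).add (hx 3))).add ((hx 4).add (hx 5))
  simp only [add_zero] at h4
  exact h4

/-- The entry of a matrix. -/
def eL (i j : Fin 3) : MQ E a b →ₗ[E] Qt (up E a) (up E b) where
  toFun m := m i j
  map_add' _ _ := rfl
  map_smul' _ _ := rfl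

/-- Convergence implies convergence in norm. -/
theorem tendsto_mnm {f : X → MQ E a b} {u : MQ E a b} (h : AV (SA E) F f u)
    (w : E →+* ℂ) : Tendsto (fun v => mnm w (f v - u)) F (𝓝 0) := by
  have hx : ∀ i j, Tendsto (fun v => qnm w ((f v - u) i j)) F (𝓝 0) := fun i j =>
    tendsto_qnm (f := fun v => f v i j) (u := u i j) (fun l => h ((q0L l).comp (eL i j))) w
  have h1 : Tendsto (fun v => ∑ i, ∑ j, qnm w ((f v - u) i j)) F
      (𝓝 (∑ _i : Fin 3, ∑ _j : Fin 3, 0)) :=
    tendsto_finsetSum _ fun i _ => tendsto_finsetSum _ fun j _ => hx i j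
  simp only [Finset.sum_const_zero] at h1
  exact h1

end nm

section coef

variable {E X : Type} [Field E] {U : Type} [AddCommGroup U] [Module E U]
  {S : Set (AbsoluteValue E ℝ)} {F : Filter X}

theorem AV.or {f M N : X → U} {u : U} (hM : AV S F M u) (hN : AV S F N u)
    (h : ∀ v, f v = M v ∨ f v = N v) : AV S F f u := by
  intro φ p hp
  have h1 := (hM φ p hp).add (hN φ p hp)
  rw [add_zero] at h1
  refine squeeze_zero (fun v => p.nonneg _) (fun v => ?_) h1
  beta_reduce
  rcases h v with e | e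
  · rw [e]
    exact le_add_of_nonneg_right (p.nonneg _)
  · rw [e]
    exact le_add_of_nonneg_left (p.nonneg _)

variable {R : Type} [Ring R] [Algebra E R] [Module.Finite E R]

/-- All the coefficients are close to the limit. -/
theorem ez_coef_all (hne : S.Nonempty) (hfin : S.Finite) {z : X → R} {z0 : R} (hz : AV S F z z0)
    (h : ∀ t : Fin 3 → E, ez z0 t = 0 → t = 0) {M : X → R} {t0 : Fin 3 → E}
    (hM : AV S F M (ez z0 t0)) {ε : ℝ} (hε : 0 < ε) :
    ∀ᶠ v in F, ∀ t : Fin 3 → E, M v = ez (z v) t → ∀ p ∈ S, ∀ i, p (t i - t0 i) < ε := by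
  classical
  obtain ⟨t, ht⟩ : ∃ t : X → Fin 3 → E, ∀ v, (ez (z v) (t v) = M v ∨ ez (z v) (t v) = ez (z v) t0)
      ∧ ((∃ t' : Fin 3 → E, M v = ez (z v) t') → M v = ez (z v) (t v)) := by
    have h1 : ∀ v, ∃ t : Fin 3 → E, (ez (z v) t = M v ∨ ez (z v) t = ez (z v) t0)
        ∧ ((∃ t' : Fin 3 → E, M v = ez (z v) t') → M v = ez (z v) t) := by
      intro v
      by_cases hv : ∃ t' : Fin 3 → E, M v = ez (z v) t'
      · obtain ⟨t', ht'⟩ := hv
        exact ⟨t', Or.inl ht'.symm, fun _ => ht'⟩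
      · exact ⟨t0, Or.inr rfl, fun h => absurd h hv⟩
    choose t ht using h1
    exact ⟨t, ht⟩
  have h2 : AV S F (fun v => ez (z v) (t v)) (ez z0 t0) :=
    AV.or hM (ez_lim hz (t := fun _ => t0) fun i => AE.const S F _) fun v => (ht v).1
  have h3 := ez_coef hne hz h h2
  have h4 : ∀ᶠ v in F, ∀ p ∈ S, ∀ i, p (t v i - t0 i) < ε := by
    rw [eventually_all_finite hfin]
    intro p hp
    rw [eventually_all]
    intro i
    exact (h3 i).eventually_lt hp hε
  filter_upwards [h4, ez_ind hne hz h] with v hv hi t' ht' p hp i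
  have e : t' = t v := by
    have e1 : ez (z v) (t' + (-1 : E) • t v) = 0 := by
      rw [ez_add, ez_smul, ← ht', ← (ht v).2 ⟨t', ht'⟩]
      module
    have e2 := hi _ e1
    rw [neg_one_smul, ← sub_eq_add_neg] at e2
    exact sub_eq_zero.mp e2
  rw [e]
  exact hv p hp i

end coef

end Vale.Agent.P011.E6W.H619
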