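import Vale.Agent.P011.E6W.H619.NearR
import Vale.Agent.P011.E6W.H964.N0
import Vale.Agent.P011.E6.ExM2

/-!
Block E6W (helper619): the finite residual is open at the archimedean places (block (C)).
-/

open Filter Topology

set_option linter.unusedSectionVars false

namespace Vale.Agent.P011.E6W.H619

open Vale.Agent.P011.MPQ hiding mat
open Vale.Agent.P011.D4 Vale.Agent.P011.D4.Oct Vale.Agent.P011.E6 Alb
open Vale.Agent.P011.D4W
open Vale.Agent.P011.E6O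
open Vale.Agent.P011.E6H (nm qnm qnm_nonneg nm_nonneg)
open Vale.Agent.P011.E6I (MQ toMQ toMQ_apply toMQ_mul toMQ_one InVs cub_of_inV tm tm_mul tm_inj
  tm_ct)
open Vale.Agent.P011.E6I.Gn (Tm Tm_apply Tm_mul Tm_self Tm_inj Tm_cancel Tm_sq Tm_cube inV_ext
  inV_add inV_smul inV_adj inV_cross mat_mul_adj mat_adj_mul)
open Vale.Agent.P011.E6W.H183
open Matrix

section base

variable {k E : Type} [Field k] [NumberField k] [Field E] [NumberField E] [Algebra k E]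
  {ρ σ : E ≃ₐ[k] E} {lam : Eˣ} {g : Fin 3 → Eˣ} {th s : E} {kap a b c : kˣ}

theorem toMQ_add' (m n : Matrix (Fin 3) (Fin 3) E) :
    (toMQ (m + n) : MQ E a b) = toMQ m + toMQ n := by
  apply Matrix.ext
  intro i j
  rw [toMQ_apply, Matrix.add_apply, Matrix.add_apply, toMQ_apply, toMQ_apply,
    QuaternionAlgebra.coe_add]

theorem toMQ_ez (z : Matrix (Fin 3) (Fin 3) E) (t : Fin 3 → E) :
    (toMQ (ez z t) : MQ E a b) = ez (toMQ z) t := by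
  rw [ez, ez, toMQ_add', toMQ_add', toMQ_smul, toMQ_smul, toMQ_smul, toMQ_one, pow_two, toMQ_mul,
    ← pow_two]

theorem toMQ_inj' {x y : Matrix (Fin 3) (Fin 3) E} (h : (toMQ x : MQ E a b) = toMQ y) : x = y :=
  tm_inj h

theorem adjM_toMQ {m : Matrix (Fin 3) (Fin 3) E}
    (h : ∀ i j, σ (m j i) * g j = g i * m i j) : adjM σ g (toMQ m : MQ E a b) = toMQ m := by
  have hS : (m.map σ)ᵀ * H964.Gm g = H964.Gm g * m := by
    apply Matrix.ext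
    intro i j
    rw [H964.Gm, Matrix.mul_diagonal, Matrix.diagonal_mul, Matrix.transpose_apply,
      Matrix.map_apply]
    exact h i j
  have h2 : (toMQ m : MQ E a b).map (qmap σ) = tm (up E a) (up E b) (m.map σ) := by
    apply Matrix.ext
    intro i j
    exact H64.qmap_coe σ (m i j)
  have h1 : ((toMQ m : MQ E a b).map (qmap σ))ᴴ * dg (up E a) (up E b) g =
      dg (up E a) (up E b) g * toMQ m := by
    rw [h2, H964.dg_eq, tm_ct, ← tm_mul, hS, tm_mul]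
    rfl
  rw [adjM, Matrix.mul_assoc, h1, ← Matrix.mul_assoc, H64.dgi_mul_dg, Matrix.one_mul]

theorem inD_toMQ' {m : Matrix (Fin 3) (Fin 3) E} (h : InD0 ρ lam m) :
    InD ρ lam (toMQ m : MQ E a b) := by
  have h2 : (toMQ m : MQ E a b).map (qmap ρ) = toMQ (m.map ρ) := by
    apply Matrix.ext
    intro i j
    exact H64.qmap_coe ρ (m i j)
  rw [InD, h2, ← toMQ_mul, ← toMQ_mul, h]

theorem nm_zero (w : E →+* ℂ) : nm w (0 : AlbL E a b c) = 0 := by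
  change nm w (⟨0, 0, 0, ⟨0, 0⟩, ⟨0, 0⟩, ⟨0, 0⟩⟩ : AlbL E a b c) = 0
  simp [nm, qnm]

theorem mnm_zero (w : E →+* ℂ) : mnm w (0 : MQ E a b) = 0 := by
  simp [mnm, qnm]

/-- The sequence argument. -/
theorem open_of (W : WH ρ σ lam g th s kap a b c) (hSq : SqRes ρ σ lam g a b c)
    {n0 : AlbL E a b c ≃ₗ[E] AlbL E a b c} (hn0 : n0 ∈ GO ρ σ lam g a b c)
    (hn0R : n0 ∈ Res ρ σ lam g a b c) {v0 x0 : AlbL E a b c}
    (hv0 : InVs v0) (hx0 : InVs x0) (nv0 : cub v0 ≠ 0) (nx0 : cub x0 ≠ 0)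
    (fv : n0 v0 = v0) (fx : n0 x0 = x0)
    (hD : InD ρ lam (Tm v0 x0)) (hs : adjM σ g (Tm v0 x0) = Tm v0 x0)
    (hind : ∀ t : Fin 3 → E, ez (Tm v0 x0) t = 0 → t = 0)
    (hU : ∀ y, InVs y → InVs (n0 y) → ∃ t : Fin 3 → E, Alb.mat y = ez (Tm v0 x0) t * Alb.mat v0)
    {q : Fin 3 → k} (hq : Tm v0 x0 ^ 3 = ez (Tm v0 x0) (fun i => algebraMap k E (q i)))
    (hdq : dsc (algebraMap k E (q 2)) (algebraMap k E (q 1)) (algebraMap k E (q 0)) ≠ 0)
    (hB : ∃ t : ℝ, 0 < t ∧ ∀ (z : MQ E a b) (v : AlbL E a b c) (p₂ p₁ p₀ : k),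
      Frame ρ σ lam g z v p₂ p₁ p₀ → NearM t (Tm v0 x0) z → NearV t v0 v →
      ∀ d ∈ GO ρ σ lam g a b c, FixFr z v d → d ∈ Res ρ σ lam g a b c) :
    OpenRes ρ σ lam g a b c := by
  by_contra hcon
  have hcon' : ∀ t : ℝ, 0 < t → ∃ h ∈ GO ρ σ lam g a b c, NearL t 1 h ∧
      h ∉ Res ρ σ lam g a b c := by
    intro t ht
    by_contra h1
    push Not at h1
    exact hcon ⟨t, ht, fun h hh hn => h1 h hh hn⟩
  have h1 : ∀ n : ℕ, ∃ h ∈ GO ρ σ lam g a b c, NearL (1 / ((n : ℝ) + 1)) 1 h ∧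
      h ∉ Res ρ σ lam g a b c := fun n => hcon' _ Nat.one_div_pos_of_nat
  choose h hG hN hR using h1
  obtain ⟨H, hH⟩ : ∃ H : ℕ → AlbL E a b c ≃ₗ[E] AlbL E a b c, ∀ n, H n = h n * n0 :=
    ⟨_, fun _ => rfl⟩
  have hHG : ∀ n, H n ∈ GO ρ σ lam g a b c := fun n => by
    rw [hH]
    exact mul_mem (hG n) hn0
  have hlim : ∀ y, AV (SA E) atTop (fun n => H n y) (n0 y) := by
    intro y
    apply AV_of_nm
    intro w
    have h2 : Tendsto (fun n : ℕ => 1 / ((n : ℝ) + 1) * nm w (n0 y)) atTop (𝓝 0) := by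
      have := (tendsto_one_div_add_atTop_nhds_zero_nat (𝕜 := ℝ)).mul_const (nm w (n0 y))
      rwa [zero_mul] at this
    refine squeeze_zero (fun n => nm_nonneg w _) (fun n => ?_) h2
    rw [hH]
    exact hN n w (n0 y)
  obtain ⟨n, hn⟩ := (near_res W hSq hHG hlim hv0 hx0 nv0 nx0 fv fx hD hs hind hU hq hdq hB).exists
  apply hR n
  have e : h n = H n * n0⁻¹ := by rw [hH, mul_inv_cancel_right]
  rw [e]
  exact mul_mem hn (inv_mem hn0R)

/-- The derivative is invertible. -/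
theorem fd_unit {R : Type} [Ring R] [Algebra E R] {z : R} {P2 P1 P0 : E}
    (hz : z ^ 3 = P2 • z ^ 2 + P1 • z + P0 • (1 : R)) (hd : dsc P2 P1 P0 ≠ 0) :
    IsUnit (ez z ![-P1, -(2 * P2), 3]) := by
  have e1 : ez z ![-P1, -(2 * P2), 3] = H541.fd P2 P1 z := by
    rw [H541.fd, ← pow_two, ez]
    change (-P1) • (1 : R) + (-(2 * P2)) • z + (3 : E) • z ^ 2 = _
    module
  have e2 := H541.fd_mul_gd (p₂ := P2) (p₁ := P1) (p₀ := P0) (z := z) (by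
    rw [← pow_two, ← pow_succ, hz])
  have e3 := gd_comm (p₂ := P2) (p₁ := P1) (p₀ := P0) (z := z) (w := H541.fd P2 P1 z)
    (H541.fd_comm rfl).symm
  have hn := neg_ne_zero.2 hd
  rw [e1]
  refine ⟨⟨H541.fd P2 P1 z, (-dsc P2 P1 P0)⁻¹ • H541.gd P2 P1 P0 z, ?_, ?_⟩, rfl⟩
  · rw [mul_smul_comm, e2, smul_smul, inv_mul_cancel₀ hn, one_smul]
  · rw [smul_mul_assoc, ← e3, e2, smul_smul, inv_mul_cancel₀ hn, one_smul]

section

variable {z₀ v₀ : Matrix (Fin 3) (Fin 3) E} {q₁ q₀ : k} {w₀ : E →+* ℝ}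

theorem base_ind (B : Base ρ σ lam g a b c z₀ v₀ q₁ q₀ w₀) (t : Fin 3 → E) (ht : ez z₀ t = 0) :
    t = 0 := by
  apply Matrix.eq_zero_of_mulVec_eq_zero B.kry
  funext i
  have h1 := congrFun (congrFun ht i) 0
  rw [Matrix.mulVec, dotProduct, Fin.sum_univ_three]
  simp only [Matrix.of_apply, Fin.val_zero, Fin.val_one, Fin.val_two, pow_zero, pow_one]
  rw [ez, Matrix.add_apply, Matrix.add_apply, Matrix.smul_apply, Matrix.smul_apply,
    Matrix.smul_apply, smul_eq_mul, smul_eq_mul, smul_eq_mul, Matrix.zero_apply] at h1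
  rw [Pi.zero_apply, ← h1]
  ring

theorem base_ns (B : Base ρ σ lam g a b c z₀ v₀ q₁ q₀ w₀) (t : E) :
    z₀ ≠ t • (1 : Matrix (Fin 3) (Fin 3) E) := by
  intro ht
  have h1 := base_ind B ![-t, 1, 0] (by
    rw [ez]
    change (-t) • (1 : Matrix (Fin 3) (Fin 3) E) + (1 : E) • z₀ + (0 : E) • z₀ ^ 2 = 0
    rw [ht]
    module)
  exact one_ne_zero (congrFun h1 1)

theorem base_cub (B : Base ρ σ lam g a b c z₀ v₀ q₁ q₀ w₀) :
    (toMQ z₀ : MQ E a b) ^ 3 = ez (toMQ z₀) (fun i => algebraMap k E ((![q₀, q₁, 0] : Fin 3 → k) i))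
    := by
  rw [← toMQ_ez]
  have e1 : (toMQ z₀ : MQ E a b) ^ 3 = toMQ (z₀ ^ 3) := by
    rw [pow_succ, pow_two, pow_succ, pow_two, toMQ_mul, toMQ_mul]
  rw [e1, B.cub, ez]
  change _ = toMQ (algebraMap k E q₀ • (1 : Matrix (Fin 3) (Fin 3) E) +
    algebraMap k E q₁ • z₀ + algebraMap k E 0 • z₀ ^ 2)
  rw [map_zero, zero_smul, add_zero, add_comm]

theorem base_ind' (B : Base ρ σ lam g a b c z₀ v₀ q₁ q₀ w₀) (t : Fin 3 → E)
    (ht : ez (toMQ z₀ : MQ E a b) t = 0) : t = 0 := by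
  apply base_ind B
  rw [← toMQ_ez] at ht
  apply toMQ_inj' (a := a) (b := b)
  rw [ht]
  exact (Matrix.map_zero _ (map_zero _)).symm

theorem base_dsc (B : Base ρ σ lam g a b c z₀ v₀ q₁ q₀ w₀) :
    dsc (algebraMap k E 0) (algebraMap k E q₁) (algebraMap k E q₀) ≠ 0 := by
  rw [dsc_map]
  intro h0
  have h1 := B.neg
  rw [h0, map_zero] at h1
  exact lt_irrefl _ h1

theorem base_det (W : WH ρ σ lam g th s kap a b c)
    (B : Base ρ σ lam g a b c z₀ v₀ q₁ q₀ w₀) : z₀.det ≠ 0 := by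
  refine E6I.det_ne_zero_D0 W.HI ((H964.inD0_iffK W.ρlam).2 B.inD) ?_
  intro h0
  apply base_ns B 0
  rw [h0, zero_smul]

/-- The vectors of the standard frame. -/
theorem base_vec (W : WH ρ σ lam g th s kap a b c)
    (B : Base ρ σ lam g a b c z₀ v₀ q₁ q₀ w₀) : ∃ x0 : AlbL E a b c,
      InVs (ofF v₀ : AlbL E a b c) ∧ InVs x0 ∧ cub (ofF v₀ : AlbL E a b c) ≠ 0 ∧ cub x0 ≠ 0 ∧
        Alb.mat x0 = toMQ z₀ * Alb.mat (ofF v₀ : AlbL E a b c) := by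
  have hzvt : (z₀ * v₀)ᵀ = z₀ * v₀ := by
    rw [Matrix.transpose_mul, B.v0t, B.com]
  refine ⟨ofF (z₀ * v₀), E6I.inV_ofF _, E6I.inV_ofF _, ?_, ?_, ?_⟩
  · rw [E6.cub_ofF B.v0t]
    exact B.det
  · rw [E6.cub_ofF hzvt, Matrix.det_mul]
    exact mul_ne_zero (base_det W B) B.det
  · have e1 : Alb.mat (ofF v₀ : AlbL E a b c) = toMQ v₀ := E6I.mat_ofF B.v0t
    rw [e1, ← toMQ_mul]
    exact E6I.mat_ofF hzvt

end

/-- **The block (C).** -/
theorem openRes (W : WH ρ σ lam g th s kap a b c) {z₀ v₀ : Matrix (Fin 3) (Fin 3) E} {q₁ q₀ : k}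
    {w₀ : E →+* ℝ} (B : Base ρ σ lam g a b c z₀ v₀ q₁ q₀ w₀) (hSq : SqRes ρ σ lam g a b c)
    (hFr : FrRes ρ σ lam g a b c z₀ v₀) : OpenRes ρ σ lam g a b c := by
  obtain ⟨x0, hv0, hx0, nv0, nx0, mx0⟩ := base_vec W B
  have hInD : InD ρ lam (toMQ z₀ : MQ E a b) := inD_toMQ' B.inD
  have hadj : adjM σ g (toMQ z₀ : MQ E a b) = toMQ z₀ := adjM_toMQ B.sym
  -- the element `n0`
  obtain ⟨n0, hn0, hn1, hn2⟩ := H964.exists_n0 W B.inD hadj (base_ns B)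
  have hq := base_cub B
  have hind := base_ind' B
  have hdq := base_dsc B
  obtain ⟨z, hz⟩ : ∃ z : MQ E a b, z = toMQ z₀ := ⟨_, rfl⟩
  obtain ⟨v0, hv⟩ : ∃ v0 : AlbL E a b c, v0 = ofF v₀ := ⟨_, rfl⟩
  obtain ⟨q, hqd⟩ : ∃ q : Fin 3 → k, q = ![q₀, q₁, 0] := ⟨_, rfl⟩
  have hFr' : ∃ t : ℝ, 0 < t ∧ ∀ (z' : MQ E a b) (v : AlbL E a b c) (p₂ p₁ p₀ : k),
      Frame ρ σ lam g z' v p₂ p₁ p₀ → NearM t z z' → NearV t v0 v →
      ∀ d ∈ GO ρ σ lam g a b c, FixFr z' v d → d ∈ Res ρ σ lam g a b c := by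
    rw [hz, hv]
    exact hFr
  have hdq' : dsc (algebraMap k E (q 2)) (algebraMap k E (q 1)) (algebraMap k E (q 0)) ≠ 0 := by
    rw [hqd]
    exact hdq
  rw [← hz] at mx0 hInD hadj hn1 hn2 hq hind
  rw [← hv] at hv0 nv0 mx0
  rw [← hqd] at hq
  have hcubz : Cub z (algebraMap k E (q 2)) (algebraMap k E (q 1)) (algebraMap k E (q 0)) := by
    refine ⟨?_, hind⟩
    rw [hq, ez]
    abel
  clear hFr hdq hqd B hz hv
  have hT : Tm v0 x0 = z := by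
    rw [Tm_eq, mx0, Matrix.mul_assoc, mat_mul_mi hv0 nv0, Matrix.mul_one]
  have hherm : z * Alb.mat v0 = Alb.mat v0 * zᴴ := by
    have h1 : (Alb.mat x0)ᴴ = Alb.mat x0 := H64.mat_isHermitian x0
    have h2 : (Alb.mat v0)ᴴ = Alb.mat v0 := H64.mat_isHermitian v0
    rw [mx0, Matrix.conjTranspose_mul, h2] at h1
    exact h1.symm
  have hhermx : z * Alb.mat x0 = Alb.mat x0 * zᴴ := by
    rw [mx0, Matrix.mul_assoc, ← hherm]
  have fv : n0 v0 = v0 := hn1 v0 hv0 hherm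
  have fx : n0 x0 = x0 := hn1 x0 hx0 hhermx
  have hunit := fd_unit hcubz.rel hdq'
  have hU : ∀ y, InVs y → InVs (n0 y) → ∃ t : Fin 3 → E, Alb.mat y = ez z t * Alb.mat v0 :=
    fun y hy hy' => vz hv0 nv0 hherm hcubz hunit hy (hn2 y hy hy')
  have hn0R : n0 ∈ Res ρ σ lam g a b c := by
    obtain ⟨t, ht, hB'⟩ := hFr'
    refine hB' z v0 (q 2) (q 1) (q 0) ⟨hInD, hadj, hcubz.rel, hv0, nv0, hherm⟩ ?_ ?_ n0 hn0 ?_
    · intro w
      rw [sub_self, mnm_zero]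
      exact ht.le
    · intro w
      rw [sub_self, nm_zero]
      exact ht.le
    · rintro y hy ⟨t0, t1, t2, hty⟩
      apply hn1 y hy
      have e1 : (t0 • (1 : MQ E a b) + t1 • z + t2 • z ^ 2) = ez z ![t0, t1, t2] := rfl
      rw [e1] at hty
      rw [hty, ← mul_assoc, ← ez_comm, mul_assoc, mul_assoc, hherm]
  rw [← hT] at hInD hadj hind hU hq hFr'
  exact open_of W hSq hn0 hn0R hv0 hx0 nv0 nx0 fv fx hInD hadj hind hU hq hdq' hFr'

end base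

end Vale.Agent.P011.E6W.H619
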