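import Vale.Agent.P011.E6W.H619.Bar

/-!
Block E6W (helper619): the symmetric elements of norm one are of the form `star n * n`.
-/

open NumberField IsDedekindDomain

set_option linter.unusedSectionVars false

namespace Vale.Agent.P011.E6W.H619

open Vale.Agent.P011.Arith Vale.Agent.P011.MPQ Vale.Agent.P011.One

variable {k D : Type} [Field k] [NumberField k] [DivisionRing D] [StarRing D] [Algebra k D]
    {F : Type} [Field F] [NumberField F] [Algebra k F]

/-- The quaternion algebra over `F` in the centraliser of `F`. -/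
structure BarQ (ι : F →ₐ[k] D) (d : F) (s : D) (bar : D → D) (α β : Fˣ) (i j : D)
    (φ : Qt α β →+* D) : Prop where
  B : Bar ι d s bar
  fr : QFr ι α β i j
  bi : bar i = -i
  bj : bar j = -j
  hd : d ≠ 0
  hφ : ∀ q, φ q = ι q.re + ι q.imI * i + ι q.imJ * j + ι q.imK * (i * j)

section root

variable {ι : F →ₐ[k] D} {d : F} {s : D} {bar : D → D} {α β : Fˣ} {i j : D} {φ : Qt α β →+* D}
  (H : BarQ ι d s bar α β i j φ)

include H

theorem BarQ.im : i ∈ Cen ι := mem_cen.2 H.fr.ci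

theorem BarQ.jm : j ∈ Cen ι := mem_cen.2 H.fr.cj

theorem BarQ.φm (q : Qt α β) : φ q ∈ Cen ι := by
  rw [H.hφ]
  exact add_mem (add_mem (add_mem (H.B.ι_mem _) (mul_mem (H.B.ι_mem _) H.im))
    (mul_mem (H.B.ι_mem _) H.jm)) (mul_mem (H.B.ι_mem _) (mul_mem H.im H.jm))

theorem BarQ.star_φ (q : Qt α β) : star (φ q) = φ (star q) := star_qhom H.fr H.hφ q

theorem BarQ.bar_φ (q : Qt α β) : bar (φ q) = φ (star q) := by
  have hi := H.im
  have hj := H.jm
  have hm := H.B.ι_mem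
  rw [H.hφ, H.hφ, H.B.add _ (add_mem (add_mem (hm _) (mul_mem (hm _) hi)) (mul_mem (hm _) hj)) _
    (mul_mem (hm _) (mul_mem hi hj)), H.B.add _ (add_mem (hm _) (mul_mem (hm _) hi)) _
    (mul_mem (hm _) hj), H.B.add _ (hm _) _ (mul_mem (hm _) hi), H.B.mul _ (hm _) _ hi,
    H.B.mul _ (hm _) _ hj, H.B.mul _ (hm _) _ (mul_mem hi hj), H.B.mul _ hi _ hj, H.B.fix, H.B.fix,
    H.B.fix, H.B.fix, H.bi, H.bj]
  simp only [QuaternionAlgebra.re_star, QuaternionAlgebra.imI_star, QuaternionAlgebra.imJ_star,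
    QuaternionAlgebra.imK_star, zero_mul, add_zero, map_neg, neg_mul, mul_neg, neg_neg]
  rw [H.fr.ci, H.fr.cj, H.fr.ij, mul_neg, neg_neg]
  rw [← mul_assoc (ι q.imK), H.fr.cj, mul_assoc, mul_assoc, H.fr.ci]

theorem BarQ.φ_coe (t : F) : φ (algebraMap F (Qt α β) t) = ι t := by
  rw [H.hφ]
  simp [QuaternionAlgebra.algebraMap_eq]

theorem BarQ.φs (q : Qt α β) : s * φ q = φ q * s := H.B.cs _ (H.φm q)

/-- The coordinates are unique. -/
theorem BarQ.inj {q q' : Qt α β} (h : φ q + s * φ q' = 0) : q = 0 ∧ q' = 0 := by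
  have h1 : star (bar (φ q + s * φ q')) = star (bar 0) := by rw [h]
  rw [H.B.add _ (H.φm _) _ (mul_mem H.B.s_mem (H.φm _)), H.B.mul _ H.B.s_mem _ (H.φm _), H.B.fs,
    H.bar_φ, H.bar_φ, star_add, star_mul, H.star_φ, H.star_φ, star_star, star_star, H.B.star_s,
    ← map_zero ι, H.B.fix, map_zero, star_zero, neg_mul] at h1
  have h2 : (2 : D) * φ q = 0 := by
    calc (2 : D) * φ q = (φ q + s * φ q') + (φ q + -(s * φ q')) := by noncomm_ring
      _ = 0 := by rw [h, h1, add_zero]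
  have h3 := qhom_inj H.fr H.hφ ((mul_eq_zero.1 h2).resolve_left (two_ne H.B))
  rw [h3, map_zero, zero_add, mul_eq_zero] at h
  exact ⟨h3, qhom_inj H.fr H.hφ (h.resolve_left (H.B.s_ne H.hd))⟩

/-- An element orthogonal to the quaternion algebra is zero. -/
theorem BarQ.orth {y : D} (h1 : y * i = -(i * y)) (h2 : y * j = -(j * y))
    (h3 : y * (i * j) = -(i * j * y)) : y = 0 := by
  have hi0 : i ≠ 0 := by
    rintro rfl
    have := H.fr.ii
    rw [mul_zero, eq_comm, map_eq_zero] at this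
    exact α.ne_zero this
  have hj0 : j ≠ 0 := by
    rintro rfl
    have := H.fr.jj
    rw [mul_zero, eq_comm, map_eq_zero] at this
    exact β.ne_zero this
  have h4 : y * (i * j) = i * j * y := by
    rw [← mul_assoc, h1, neg_mul, mul_assoc, h2, mul_neg, neg_neg, mul_assoc]
  rw [h4] at h3
  have h5 : (2 : D) * (i * j * y) = 0 := by
    calc (2 : D) * (i * j * y) = i * j * y + i * j * y := two_mul _
      _ = i * j * y + -(i * j * y) := by rw [← h3]
      _ = 0 := add_neg_cancel _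
  have h6 := (mul_eq_zero.1 h5).resolve_left (two_ne H.B)
  exact (mul_eq_zero.1 h6).resolve_left (mul_ne_zero hi0 hj0)

/-- The trace of a quaternion. -/
theorem BarQ.tr_φ (q : Qt α β) : φ q + bar (φ q) = ι (2 * q.re) := by
  rw [H.bar_φ, ← map_add, ← H.φ_coe]
  congr 1
  ext
  · simp [QuaternionAlgebra.algebraMap_eq]
    ring
  · simp [QuaternionAlgebra.algebraMap_eq]
  · simp [QuaternionAlgebra.algebraMap_eq]
  · simp [QuaternionAlgebra.algebraMap_eq]

/-- **The coordinates** over the quaternion algebra. -/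
theorem BarQ.exists_coord {x : D} (hx : x ∈ Cen ι) : ∃ q q' : Qt α β, x = φ q + s * φ q' := by
  have hi := H.im
  have hj := H.jm
  have hs := H.B.s_mem
  -- the trace of a combination
  have hT : ∀ q q' u : Qt α β, (φ q + s * φ q') * φ u + bar ((φ q + s * φ q') * φ u) =
      ι (2 * (q * u).re) + s * ι (2 * (q' * u).re) := by
    intro q q' u
    have e1 : (φ q + s * φ q') * φ u = φ (q * u) + s * φ (q' * u) := by
      rw [add_mul, mul_assoc, ← map_mul, ← map_mul]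
    rw [e1, H.B.add _ (H.φm _) _ (mul_mem hs (H.φm _)), H.B.mul _ hs _ (H.φm _), H.B.fs,
      ← H.tr_φ, ← H.tr_φ, mul_add, ← H.B.cs _ (H.B.mem _ (H.φm _))]
    abel
  obtain ⟨p0, r0, t0⟩ := H.B.tr _ hx
  obtain ⟨p1, r1, t1⟩ := H.B.tr _ (mul_mem hx hi)
  obtain ⟨p2, r2, t2⟩ := H.B.tr _ (mul_mem hx hj)
  obtain ⟨p3, r3, t3⟩ := H.B.tr _ (mul_mem hx (mul_mem hi hj))
  obtain ⟨q, hq⟩ : ∃ q : Qt α β, q = ⟨p0 / 2, p1 / (2 * α), p2 / (2 * β), -p3 / (2 * α * β)⟩ :=
    ⟨_, rfl⟩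
  obtain ⟨q', hq'⟩ : ∃ q : Qt α β, q = ⟨r0 / 2, r1 / (2 * α), r2 / (2 * β), -r3 / (2 * α * β)⟩ :=
    ⟨_, rfl⟩
  obtain ⟨z, hz⟩ : ∃ z, z = φ q + s * φ q' := ⟨_, rfl⟩
  have hzm : z ∈ Cen ι := by
    rw [hz]
    exact add_mem (H.φm _) (mul_mem hs (H.φm _))
  have hα := α.ne_zero
  have hβ := β.ne_zero
  have ei : φ ⟨0, 1, 0, 0⟩ = i := by rw [H.hφ]; simp
  have ej : φ ⟨0, 0, 1, 0⟩ = j := by rw [H.hφ]; simp
  have eij : φ ⟨0, 0, 0, 1⟩ = i * j := by rw [H.hφ]; simp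
  have k0 := hT q q' 1
  have k1 := hT q q' ⟨0, 1, 0, 0⟩
  have k2 := hT q q' ⟨0, 0, 1, 0⟩
  have k3 := hT q q' ⟨0, 0, 0, 1⟩
  rw [map_one, mul_one, mul_one, mul_one, ← hz] at k0
  rw [ei, ← hz] at k1
  rw [ej, ← hz] at k2
  rw [eij, ← hz] at k3
  have c0 : 2 * q.re = p0 ∧ 2 * q'.re = r0 := by
    rw [hq, hq']
    constructor <;> field_simp
  have c1 : 2 * (q * ⟨0, 1, 0, 0⟩ : Qt α β).re = p1 ∧ 2 * (q' * ⟨0, 1, 0, 0⟩ : Qt α β).re = r1 := by
    rw [hq, hq', QuaternionAlgebra.re_mul, QuaternionAlgebra.re_mul]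
    constructor <;> field_simp <;> ring
  have c2 : 2 * (q * ⟨0, 0, 1, 0⟩ : Qt α β).re = p2 ∧ 2 * (q' * ⟨0, 0, 1, 0⟩ : Qt α β).re = r2 := by
    rw [hq, hq', QuaternionAlgebra.re_mul, QuaternionAlgebra.re_mul]
    constructor <;> field_simp <;> ring
  have c3 : 2 * (q * ⟨0, 0, 0, 1⟩ : Qt α β).re = p3 ∧ 2 * (q' * ⟨0, 0, 0, 1⟩ : Qt α β).re = r3 := by
    rw [hq, hq', QuaternionAlgebra.re_mul, QuaternionAlgebra.re_mul]
    constructor <;> field_simp <;> ring
  rw [c0.1, c0.2, ← t0] at k0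
  rw [c1.1, c1.2, ← t1] at k1
  rw [c2.1, c2.2, ← t2] at k2
  rw [c3.1, c3.2, ← t3] at k3
  -- the difference
  have hw : x - z ∈ Cen ι := sub_mem hx hzm
  have hwb : bar (x - z) = -(x - z) := by
    rw [H.B.sub hx hzm]
    have h1 : x + bar x - (z + bar z) = 0 := by rw [k0, sub_self]
    have h2 : bar x - bar z = -(x - z) + (x + bar x - (z + bar z)) := by abel
    rw [h2, h1, add_zero]
  have key : ∀ u ∈ Cen ι, bar u = -u → z * u + bar (z * u) = x * u + bar (x * u) →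
      (x - z) * u = -(u * (x - z)) := by
    intro u hu hub h1
    rw [H.B.mul _ hzm _ hu, H.B.mul _ hx _ hu, hub] at h1
    have h2 : bar (x - z) = bar x - bar z := H.B.sub hx hzm
    rw [hwb] at h2
    have h3 : (x - z) * u = (x * u + -u * bar x) - (z * u + -u * bar z) + u * (bar x - bar z) := by
      noncomm_ring
    rw [h3, h1, sub_self, zero_add, ← h2, mul_neg]
  have bij : bar (i * j) = -(i * j) := by
    rw [H.B.mul _ hi _ hj, H.bi, H.bj, neg_mul_neg, H.fr.ij, neg_neg]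
  refine ⟨q, q', ?_⟩
  rw [← hz]
  exact sub_eq_zero.1 (H.orth (key i hi H.bi k1) (key j hj H.bj k2)
    (key _ (mul_mem hi hj) bij k3))

end root

end Vale.Agent.P011.E6W.H619
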