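import Vale.Agent.P011.E6W.H619.Avg

/-!
Block E6W (helper619): the transport of a frame by an element of the group.
-/

set_option linter.unusedSectionVars false

namespace Vale.Agent.P011.E6W.H619

open Vale.Agent.P011.MPQ hiding mat
open Vale.Agent.P011.D4 Vale.Agent.P011.D4.Oct Vale.Agent.P011.E6 Alb
open Vale.Agent.P011.E6O
open Vale.Agent.P011.E6I (MQ toMQ toMQ_apply toMQ_mul toMQ_one InVs cub_of_inV)
open Vale.Agent.P011.E6I.Gn (Tm Tm_apply Tm_mul Tm_self Tm_inj Tm_cancel Tm_sq Tm_cube inV_ext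
  inV_add inV_smul inV_adj inV_cross mat_mul_adj mat_adj_mul)
open Vale.Agent.P011.E6W.H183
open Matrix

section trp

variable {k E : Type} [Field k] [Field E] [CharZero E] [Algebra k E] {ρ σ : E ≃ₐ[k] E} {lam : Eˣ}
  {g : Fin 3 → Eˣ} {s : E} {a b c : kˣ} {U : Submodule E (AlbL E a b c)} {v x : AlbL E a b c}
  {h : AlbL E a b c ≃ₗ[E] AlbL E a b c}

/-- Multiplication by the generator, in coordinates. -/
theorem Fr.gen_mul (D : Fr U v x) (c0 c1 c2 : E) :
    Tm v x * mat (c0 • v + c1 • x + c2 • sqv v x) = mat ((c2 * ((cub v)⁻¹ * cub x)) • v +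
      (c0 + c2 * (-((cub v)⁻¹ * tf v (adj x)))) • x +
      (c1 + c2 * ((cub v)⁻¹ * tf x (adj v))) • sqv v x) := by
  rw [← Tm_mul D.hv D.nv (c0 • v + c1 • x + c2 • sqv v x), ← Matrix.mul_assoc, D.comb,
    ← Tm_mul D.hv D.nv ((c2 * ((cub v)⁻¹ * cub x)) • v +
      (c0 + c2 * (-((cub v)⁻¹ * tf v (adj x)))) • x +
      (c1 + c2 * ((cub v)⁻¹ * tf x (adj v))) • sqv v x), D.comb]
  congr 1
  rw [Matrix.mul_add, Matrix.mul_add, Matrix.mul_smul, Matrix.mul_smul, Matrix.mul_smul,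
    Matrix.mul_one, ← pow_succ', D.cube, ← pow_two]
  module

/-- **The transport of the relations.** -/
theorem Fr.mulrel (D : Fr U v x) (hh : ∀ y, cub (h y) = cub y) (hV : ∀ y ∈ U, InVs (h y))
    {y w : AlbL E a b c} (hy : y ∈ U) (hw : w ∈ U) (he : Tm v x * mat y = mat w) :
    Tm (h v) (h x) * mat (h y) = mat (h w) := by
  obtain ⟨c0, c1, c2, rfl⟩ := D.exists_comb hy
  rw [D.gen_mul] at he
  have h1 := inV_ext (D.inV _ (D.comb_mem _ _ _)) (D.inV _ hw) he
  have D' := D.map hh hV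
  have h2 := D'.gen_mul c0 c1 c2
  have e1 : h (c0 • v + c1 • x + c2 • sqv v x) = c0 • h v + c1 • h x + c2 • sqv (h v) (h x) := by
    rw [map_add, map_add, map_smul, map_smul, map_smul, sqv_map hh]
  have e2 : tf (h v) (adj (h x)) = tf v (adj x) := by
    rw [tf_comm, tf_adj_map hh, tf_comm]
  have e3 : tf (h x) (adj (h v)) = tf x (adj v) := by
    rw [tf_comm, tf_adj_map hh, tf_comm]
  rw [e1, h2, ← h1, map_add, map_add, map_smul, map_smul, map_smul, sqv_map hh, e2, e3, hh, hh]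

/-- The transport of the quotients. -/
theorem Fr.comb_map (D : Fr U v x) (hh : ∀ y, cub (h y) = cub y) (hV : ∀ y ∈ U, InVs (h y))
    (c0 c1 c2 : E) : Tm (h v) (h (c0 • v + c1 • x + c2 • sqv v x)) =
      c0 • (1 : MQ E a b) + c1 • Tm (h v) (h x) + c2 • Tm (h v) (h x) ^ 2 := by
  have h1 : h (c0 • v + c1 • x + c2 • sqv v x) = c0 • h v + c1 • h x + c2 • sqv (h v) (h x) := by
    rw [map_add, map_add, map_smul, map_smul, map_smul, sqv_map hh]
  have D' := D.map hh hV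
  rw [h1, D'.comb]

/-- The cubic relation of the image. -/
theorem Fr.cube_map (D : Fr U v x) (hh : ∀ y, cub (h y) = cub y) (hV : ∀ y ∈ U, InVs (h y))
    {P2 P1 P0 : E} (hz : Tm v x ^ 3 = P2 • Tm v x ^ 2 + P1 • Tm v x + P0 • (1 : MQ E a b)) :
    Tm (h v) (h x) ^ 3 = P2 • Tm (h v) (h x) ^ 2 + P1 • Tm (h v) (h x) + P0 • (1 : MQ E a b) := by
  have h1 := D.cube
  rw [h1] at hz
  have e0 := D.ind ((cub v)⁻¹ * cub x - P0) (-((cub v)⁻¹ * tf v (adj x)) - P1)
    ((cub v)⁻¹ * tf x (adj v) - P2) (by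
      linear_combination (norm := module) hz)
  have h2 := (D.map hh hV).cube
  have e2 : tf (h v) (adj (h x)) = tf v (adj x) := by
    rw [tf_comm, tf_adj_map hh, tf_comm]
  have e3 : tf (h x) (adj (h v)) = tf x (adj v) := by
    rw [tf_comm, tf_adj_map hh, tf_comm]
  rw [e2, e3, hh, hh, sub_eq_zero.1 e0.1, sub_eq_zero.1 e0.2.1, sub_eq_zero.1 e0.2.2] at h2
  exact h2

/-- The image of the generator belongs to `D ⊗ Q`. -/
theorem Frs.inD_map (D : Frs ρ σ lam g U v x) (hh : ∀ y, cub (h y) = cub y)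
    (hV : ∀ y ∈ U, InVs (h y)) (hph : ∀ y, h (E6O.ph ρ lam y) = E6O.ph ρ lam (h y))
    (hD : InD ρ lam (Tm v x)) : InD ρ lam (Tm (h v) (h x)) := by
  rw [inD_iff] at hD ⊢
  have D' := D.toFr.map hh hV
  have h1 := psi_ph (ρ := ρ) (lam := lam) (Tm_mul D.hv D.nv x)
  rw [hD] at h1
  have h2 := D.toFr.mulrel hh hV (D.ph v D.mv) (D.ph x D.mx) h1
  have h3 := psi_ph (ρ := ρ) (lam := lam) (Tm_mul D'.hv D'.nv (h x))
  rw [hph, hph, ← h3] at h2
  have hn : cub (E6O.ph ρ lam (h v)) ≠ 0 := cub_ph_ne D'.hv D'.nv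
  exact (mat_cancel (inV_ph D'.hv) hn h2).symm

/-- The image of the generator is symmetric. -/
theorem Frs.adjM_map (D : Frs ρ σ lam g U v x) (hσg : ∀ i, σ (g i) = g i)
    (hh : ∀ y, cub (h y) = cub y)
    (hV : ∀ y ∈ U, InVs (h y)) (hpol : ∀ y, h (H183.pol σ g y) = H183.pol σ g (h y))
    (hs : adjM σ g (Tm v x) = Tm v x) : adjM σ g (Tm (h v) (h x)) = Tm (h v) (h x) := by
  have D' := D.toFr.map hh hV
  have h1 := adjM_Tm_mul hσg v D.hx
  rw [hs, ← H64.mat_smul] at h1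
  have h2 := D.toFr.mulrel hh hV (D.pol x D.mx) (U.smul_mem _ (D.pol v D.mv)) h1
  have h3 := adjM_Tm_mul hσg (h v) D'.hx
  rw [hh, hh] at h3
  rw [map_smul, H64.mat_smul, hpol, hpol, ← h3] at h2
  exact (mat_cancel (inV_pol D'.hx) (cub_pol_ne D'.nx) h2).symm

/-- The hermitian relation. -/
theorem Fr.herm (D : Fr U v x) : Tm v x * mat v = mat v * (Tm v x)ᴴ := by
  have h1 := congrArg conjTranspose (Tm_mul D.hv D.nv x)
  rw [Matrix.conjTranspose_mul, H64.mat_isHermitian, H64.mat_isHermitian,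
    ← Tm_mul D.hv D.nv x] at h1
  exact h1.symm

/-- The hermitian relation, for all the elements. -/
theorem Fr.herm' (D : Fr U v x) (y : AlbL E a b c) :
    Tm v y * mat v = mat v * (Tm v y)ᴴ := by
  have h1 := congrArg conjTranspose (Tm_mul D.hv D.nv y)
  rw [Matrix.conjTranspose_mul, H64.mat_isHermitian, H64.mat_isHermitian,
    ← Tm_mul D.hv D.nv y] at h1
  exact h1.symm

end trp

end Vale.Agent.P011.E6W.H619
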